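import Mathlib.Analysis.SpecialFunctions.Pow.Real
import Mathlib.Algebra.Order.Archimedean.Basic
import Mathlib.Order.Interval.Finset.Defs

/-!
The upper envelope of the lines `l R - s q^l X` at the points `X = p^m`: some level dominates alone
at as many consecutive integers `m` as it has members.
-/

noncomputable section

namespace Vale.Agent.P217.Indep

open Finset

variable {ι : Type*} {p n : ℕ} (lb s : ι → ℝ) (R : ℝ)

variable (p n) in
/-- The value of the line of index `l` of `j` at `X = p^m`. -/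
def lineVal (j : ι) (l m : ℤ) : ℝ := lb j + l * R - s j * (p : ℝ) ^ ((n : ℤ) * l + m)

theorem lineVal_shift (j : ι) (l m k : ℤ) :
    lineVal p n lb s R j (l - k) (m + n * k) = lineVal p n lb s R j l m - k * R := by
  rw [lineVal, lineVal, show (n : ℤ) * (l - k) + (m + n * k) = n * l + m by ring]
  push_cast
  ring

/-- Every line family has a strictly best index away from ties. -/
theorem exists_best (hp : 1 < p) (hn : 0 < n) (hR : 0 < R) {j : ι} (hs : 0 < s j)
    (hgen : ∀ m : ℤ, ((p : ℝ) ^ n - 1) * s j * (p : ℝ) ^ m ≠ R) (m : ℤ) :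
    ∃ l, ∀ l', l' ≠ l → lineVal p n lb s R j l' m < lineVal p n lb s R j l m := by
  classical
  have hp0 : (0 : ℝ) < p := by exact_mod_cast lt_trans zero_lt_one hp
  have hp1 : (1 : ℝ) < p := by exact_mod_cast hp
  have hq : (1 : ℝ) < (p : ℝ) ^ n := one_lt_pow₀ hp1 hn.ne'
  set D : ℤ → ℝ := fun l ↦ ((p : ℝ) ^ n - 1) * s j * (p : ℝ) ^ ((n : ℤ) * l + m) with hD
  have hC : 0 < ((p : ℝ) ^ n - 1) * s j := mul_pos (by linarith) hs
  have hmono : StrictMono D := fun a b hab ↦ by
    refine mul_lt_mul_of_pos_left (zpow_lt_zpow_right₀ hp1 ?_) hC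
    have hn' : (0 : ℤ) < n := by exact_mod_cast hn
    nlinarith
  have hdiff : ∀ l, lineVal p n lb s R j (l + 1) m - lineVal p n lb s R j l m = R - D l := by
    intro l
    rw [lineVal, lineVal, hD, show (n : ℤ) * (l + 1) + m = (n * l + m) + n by ring,
      zpow_add₀ hp0.ne', zpow_natCast]
    push_cast
    ring
  have hne : ∀ l, D l ≠ R := fun l ↦ hgen _
  obtain ⟨K, hK⟩ := pow_unbounded_of_one_lt (R / (((p : ℝ) ^ n - 1) * s j)) hp1
  obtain ⟨K', hK'⟩ := pow_unbounded_of_one_lt ((((p : ℝ) ^ n - 1) * s j) / R) hp1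
  have hn1 : (1 : ℤ) ≤ n := by exact_mod_cast hn
  have hbig : ∃ l, R < D l := by
    refine ⟨max 0 ((K : ℤ) - m), ?_⟩
    rw [hD]
    rw [div_lt_iff₀ hC] at hK
    refine hK.trans_le ?_
    rw [mul_comm]
    refine mul_le_mul_of_nonneg_left ?_ hC.le
    rw [← zpow_natCast]
    refine zpow_le_zpow_right₀ hp1.le ?_
    have h1 : (1 : ℤ) * max 0 ((K : ℤ) - m) ≤ n * max 0 ((K : ℤ) - m) :=
      mul_le_mul_of_nonneg_right hn1 (le_max_left _ _)
    omega
  have hbdd : ∀ l, R < D l → min 0 (-(K' : ℤ) - m) ≤ l := by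
    intro l hl
    by_contra hlt
    rw [not_le] at hlt
    have h1 : (n : ℤ) * l + m ≤ -(K' : ℤ) := by
      have h2 : (n : ℤ) * l ≤ 1 * l :=
        mul_le_mul_of_nonpos_right hn1 (by omega)
      omega
    have h2 : D l ≤ ((p : ℝ) ^ n - 1) * s j * (p : ℝ) ^ (-(K' : ℤ)) :=
      mul_le_mul_of_nonneg_left (zpow_le_zpow_right₀ hp1.le h1) hC.le
    rw [zpow_neg, zpow_natCast, ← div_eq_mul_inv] at h2
    rw [div_lt_iff₀ hR] at hK'
    have h3 : ((p : ℝ) ^ n - 1) * s j / (p : ℝ) ^ K' < R := by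
      rw [div_lt_iff₀ (pow_pos hp0 K'), mul_comm R]
      exact hK'
    linarith
  obtain ⟨l0, hl0, hleast⟩ := Int.exists_least_of_bdd (P := fun l ↦ R < D l) ⟨_, hbdd⟩ hbig
  refine ⟨l0, fun l' hl' ↦ ?_⟩
  rcases lt_or_gt_of_ne hl' with hlt | hgt
  · have key : ∀ k : ℕ, 0 < k →
        lineVal p n lb s R j (l0 - k) m < lineVal p n lb s R j l0 m := by
      intro k
      induction k with
      | zero => omega
      | succ k ih =>
        intro _
        have hD' : D (l0 - (k + 1 : ℕ)) < R := by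
          refine lt_of_le_of_ne (not_lt.mp fun h ↦ ?_) (hne _)
          have := hleast _ h
          push_cast at this
          omega
        have h1 := hdiff (l0 - (k + 1 : ℕ))
        rw [show l0 - ((k + 1 : ℕ) : ℤ) + 1 = l0 - k by push_cast; ring] at h1
        rcases Nat.eq_zero_or_pos k with rfl | hk
        · simp only [Nat.cast_zero, sub_zero] at h1
          linarith
        · have := ih hk
          linarith
    have := key (l0 - l').toNat (by omega)
    rwa [show l0 - ((l0 - l').toNat : ℤ) = l' by omega] at this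
  · have key : ∀ k : ℕ, 0 < k →
        lineVal p n lb s R j (l0 + k) m < lineVal p n lb s R j l0 m := by
      intro k
      induction k with
      | zero => omega
      | succ k ih =>
        intro _
        have hD' : R < D (l0 + k) := hl0.trans_le (hmono.monotone (by omega))
        have h1 := hdiff (l0 + k)
        rw [show l0 + (k : ℤ) + 1 = l0 + ((k + 1 : ℕ) : ℤ) by push_cast; ring] at h1
        rcases Nat.eq_zero_or_pos k with rfl | hk
        · simp only [Nat.cast_zero, add_zero] at h1 hD'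
          linarith
        · have := ih hk
          linarith
    have := key (l' - l0).toNat (by omega)
    rwa [show l0 + ((l' - l0).toNat : ℤ) = l' by omega] at this

/-- A level alone carries the envelope at as many consecutive points as it has members. -/
theorem exists_lonely_level (hp : 1 < p) (J0 : Finset ι) (hJ : J0.Nonempty) (hd : J0.card < n)
    (hR : 0 < R) (hs : ∀ j ∈ J0, 0 < s j)
    (hshell : ∀ j ∈ J0, ∀ k ∈ J0, s j < (p : ℝ) ^ n * s k)
    (hgen : ∀ j ∈ J0, ∀ m : ℤ, ((p : ℝ) ^ n - 1) * s j * (p : ℝ) ^ m ≠ R) :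
    ∃ L : ι → ℤ → ℤ,
      (∀ j ∈ J0, ∀ m l, l ≠ L j m →
        lineVal p n lb s R j l m < lineVal p n lb s R j (L j m) m) ∧
      ∃ j1 ∈ J0, ∃ l1 m0 : ℤ, (∀ k ∈ J0, s k = s j1 → lb k ≤ lb j1) ∧
        ∀ i : ℕ, i < (J0.filter fun k ↦ s k = s j1).card → L j1 (m0 + i) = l1 ∧
          ∀ k ∈ J0, s k ≠ s j1 → lineVal p n lb s R k (L k (m0 + i)) (m0 + i) <
            lineVal p n lb s R j1 (L j1 (m0 + i)) (m0 + i) := by
  classical
  have hn : 0 < n := lt_of_le_of_lt (Nat.zero_le _) hd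
  have hp0 : (0 : ℝ) < p := by exact_mod_cast lt_trans zero_lt_one hp
  have hp1 : (1 : ℝ) < p := by exact_mod_cast hp
  have hex : ∀ j, ∀ m : ℤ, ∃ l, j ∈ J0 → ∀ l', l' ≠ l →
      lineVal p n lb s R j l' m < lineVal p n lb s R j l m := by
    intro j m
    by_cases hj : j ∈ J0
    · obtain ⟨l, hl⟩ := exists_best lb s R hp hn hR (hs j hj) (hgen j hj) m
      exact ⟨l, fun _ ↦ hl⟩
    · exact ⟨0, fun h ↦ absurd h hj⟩
  choose L hL using hex
  have hle : ∀ j ∈ J0, ∀ m l, lineVal p n lb s R j l m ≤ lineVal p n lb s R j (L j m) m := by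
    intro j hj m l
    rcases eq_or_ne l (L j m) with rfl | hne
    · exact le_rfl
    · exact (hL j m hj l hne).le
  have hLeq : ∀ j ∈ J0, ∀ k ∈ J0, s j = s k → ∀ m, L j m = L k m := by
    intro j hj k hk hjk m
    by_contra hne
    have h1 := hL j m hj _ (Ne.symm hne)
    have h2 := hL k m hk _ hne
    simp only [lineVal, hjk] at h1 h2
    linarith
  have hLshift : ∀ j ∈ J0, ∀ m k : ℤ, L j (m + n * k) = L j m - k := by
    intro j hj m k
    by_contra hne
    have h1 := hL j (m + n * k) hj _ (Ne.symm hne)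
    have h2 := hle j hj m (L j (m + n * k) + k)
    have h3 := lineVal_shift (p := p) (n := n) lb s R j (L j (m + n * k) + k) m k
    rw [add_sub_cancel_right] at h3
    rw [lineVal_shift lb s R j (L j m) m k, h3] at h1
    linarith
  refine ⟨L, fun j hj m l hl ↦ hL j m hj l hl, ?_⟩
  set Act : ℤ → Finset ι := fun m ↦ J0.filter fun a ↦ ∀ k ∈ J0,
    lineVal p n lb s R k (L k m) m ≤ lineVal p n lb s R a (L a m) m with hAct
  have hActne : ∀ m, (Act m).Nonempty := fun m ↦ by
    obtain ⟨a, ha, hmax⟩ := exists_max_image J0 (fun k ↦ lineVal p n lb s R k (L k m) m) hJ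
    exact ⟨a, mem_filter.mpr ⟨ha, hmax⟩⟩
  set sl : ι → ℤ → ℝ := fun a m ↦ s a * (p : ℝ) ^ ((n : ℤ) * L a m) with hsl
  choose w hw hwmin using fun m ↦ exists_min_image (Act m) (fun a ↦ sl a m) (hActne m)
  set T : ℤ → ℝ := fun m ↦ sl (w m) m with hT
  have hAct0 : ∀ {m a}, a ∈ Act m → a ∈ J0 := fun ha ↦ (mem_filter.mp ha).1
  have hmono : ∀ {m m' : ℤ}, m < m' → ∀ {a b}, a ∈ Act m → b ∈ Act m' → sl b m' ≤ sl a m := by
    intro m m' hmm a b ha hb
    have h1 := ((hle b (hAct0 hb) m (L b m')).trans ((mem_filter.mp ha).2 b (hAct0 hb)))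
    have h2 := ((hle a (hAct0 ha) m' (L a m)).trans ((mem_filter.mp hb).2 a (hAct0 ha)))
    simp only [lineVal, zpow_add₀ hp0.ne', ← mul_assoc] at h1 h2
    have hX : (p : ℝ) ^ m < (p : ℝ) ^ m' := zpow_lt_zpow_right₀ hp1 hmm
    simp only [sl]
    nlinarith
  have hinj : ∀ a ∈ J0, ∀ b ∈ J0, ∀ la lb' : ℤ,
      s a * (p : ℝ) ^ ((n : ℤ) * la) = s b * (p : ℝ) ^ ((n : ℤ) * lb') → la = lb' := by
    have key : ∀ a ∈ J0, ∀ b ∈ J0, ∀ la lb' : ℤ,
        s a * (p : ℝ) ^ ((n : ℤ) * la) = s b * (p : ℝ) ^ ((n : ℤ) * lb') → lb' ≤ la := by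
      intro a ha b hb la lb' heq
      by_contra hlt
      rw [not_le] at hlt
      have h1 : (p : ℝ) ^ ((n : ℤ) * la) * (p : ℝ) ^ n ≤ (p : ℝ) ^ ((n : ℤ) * lb') := by
        rw [← zpow_natCast, ← zpow_add₀ hp0.ne']
        refine zpow_le_zpow_right₀ hp1.le ?_
        have : (n : ℤ) * (la + 1) ≤ n * lb' :=
          mul_le_mul_of_nonneg_left (by omega) (by positivity)
        nlinarith
      have hA : 0 < (p : ℝ) ^ ((n : ℤ) * la) := zpow_pos hp0 _
      have h2 := hshell a ha b hb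
      have h3 := mul_le_mul_of_nonneg_left h1 (hs b hb).le
      have h4 := mul_lt_mul_of_pos_right h2 hA
      nlinarith
    exact fun a ha b hb la lb' h ↦
      le_antisymm (key b hb a ha lb' la h.symm) (key a ha b hb la lb' h)
  have hActshift : ∀ (m k : ℤ) (a : ι), a ∈ Act m → a ∈ Act (m + n * k) := by
    intro m k a ha
    obtain ⟨ha0, ha1⟩ := mem_filter.mp ha
    refine mem_filter.mpr ⟨ha0, fun b hb ↦ ?_⟩
    rw [hLshift a ha0, hLshift b hb, lineVal_shift, lineVal_shift]
    linarith [ha1 b hb]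
  have hslshift : ∀ (m k : ℤ) (a : ι), a ∈ J0 →
      sl a (m + n * k) = sl a m * (p : ℝ) ^ (-((n : ℤ) * k)) := by
    intro m k a ha
    simp only [sl, hLshift a ha, mul_assoc, ← zpow_add₀ hp0.ne']
    congr 2
    ring
  have hTshift : ∀ m k : ℤ, T (m + n * k) ≤ T m * (p : ℝ) ^ (-((n : ℤ) * k)) := fun m k ↦
    (hwmin _ _ (hActshift m k _ (hw m))).trans_eq (hslshift m k _ (hAct0 (hw m)))
  by_contra hcon
  set g : ℝ → ℕ := fun r ↦ (J0.filter fun k ↦ s k = r).card with hg
  have hgap : ∀ r : ℝ, (∃ a ∈ J0, s a = r) → ∀ m1 m2 : ℤ, m1 < m2 → T m1 = r → T m2 = r →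
      m2 - m1 < g r := by
    intro r hr m1 m2 hlt h1 h2
    by_contra hge
    rw [not_lt] at hge
    obtain ⟨a0, ha0, hsa0⟩ := hr
    have hall : ∀ i : ℕ, i < g r → ∀ a ∈ Act (m1 + 1 + i), s a = r ∧ L a (m1 + 1 + i) = 0 := by
      intro i hi a ha
      have hle1 : sl a (m1 + 1 + i) ≤ r := h1 ▸ hmono (by omega) (hw m1) ha
      have hge1 : r ≤ sl a (m1 + 1 + i) := by
        rcases eq_or_lt_of_le (show m1 + 1 + (i : ℤ) ≤ m2 by omega) with heq | hlt2
        · rw [← h2, ← heq]
          exact hwmin _ a ha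
        · exact h2 ▸ hmono hlt2 ha (hw m2)
      have heq := le_antisymm hle1 hge1
      have h0 := hinj a (hAct0 ha) a0 ha0 (L a (m1 + 1 + i)) 0 (by simpa [sl, hsa0] using heq)
      simp only [sl, h0, mul_zero, zpow_zero, mul_one] at heq
      exact ⟨heq, h0⟩
    have hg0 : 0 < g r := card_pos.mpr ⟨a0, mem_filter.mpr ⟨ha0, hsa0⟩⟩
    set j1 := w (m1 + 1) with hj1
    obtain ⟨hsj, hLj⟩ := hall 0 hg0 j1 (by simpa [hj1] using hw (m1 + 1))
    refine hcon ⟨j1, hAct0 (hw (m1 + 1)), 0, m1 + 1, fun k hk hsk ↦ ?_, fun i hi ↦ ?_⟩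
    · have h := (mem_filter.mp (hw (m1 + 1))).2 k hk
      rw [hLeq k hk j1 (hAct0 (hw (m1 + 1))) hsk] at h
      simp only [lineVal, hsk] at h
      linarith
    · have hi' : i < g r := by simpa [hg, hsj] using hi
      obtain ⟨a, ha⟩ := hActne (m1 + 1 + i)
      obtain ⟨hsa, hLa⟩ := hall i hi' a ha
      have hLj1 : L j1 (m1 + 1 + i) = 0 := by
        rw [hLeq j1 (hAct0 (hw (m1 + 1))) a (hAct0 ha) (hsj.trans hsa.symm), hLa]
      refine ⟨hLj1, fun k hk hne ↦ ?_⟩
      have hj1le : lineVal p n lb s R a (L a (m1 + 1 + i)) (m1 + 1 + i) ≤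
          lineVal p n lb s R j1 (L j1 (m1 + 1 + i)) (m1 + 1 + i) := by
        have h := (mem_filter.mp (hw (m1 + 1))).2 a (hAct0 ha)
        rw [hLeq a (hAct0 ha) j1 (hAct0 (hw (m1 + 1))) (hsa.trans hsj.symm)] at h
        simp only [lineVal, hsa.trans hsj.symm] at h
        simp only [lineVal, hsa.trans hsj.symm, hLa, hLj1]
        linarith
      refine lt_of_lt_of_le ?_ hj1le
      refine lt_of_le_of_ne ((mem_filter.mp ha).2 k hk) fun heq ↦ ?_
      have hkA : k ∈ Act (m1 + 1 + i) :=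
        mem_filter.mpr ⟨hk, fun b hb ↦ heq ▸ (mem_filter.mp ha).2 b hb⟩
      exact hne ((hall i hi' k hkA).1.trans hsj.symm)
  set F : ℕ → ℤ := fun m ↦ (m : ℤ) + n * L (w m) m with hF
  set lev : ℕ → ℝ := fun m ↦ s (w m) with hlev
  have hTF : ∀ m : ℕ, T (F m) = lev m := by
    intro m
    have hpos : 0 < (p : ℝ) ^ (-((n : ℤ) * L (w m) m)) := zpow_pos hp0 _
    have h1 := hTshift (m : ℤ) (L (w m) m)
    have h2 := hTshift (F m) (-(L (w m) m))
    have h3 : T (m : ℤ) * (p : ℝ) ^ (-((n : ℤ) * L (w m) m)) = lev m := by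
      simp only [T, sl, lev, mul_assoc, ← zpow_add₀ hp0.ne', add_neg_cancel, zpow_zero, mul_one]
    rw [show F m + (n : ℤ) * -(L (w m) m) = (m : ℤ) by simp only [F]; ring] at h2
    refine le_antisymm (h1.trans_eq h3) ?_
    calc lev m = T (m : ℤ) * (p : ℝ) ^ (-((n : ℤ) * L (w m) m)) := h3.symm
      _ ≤ T (F m) * (p : ℝ) ^ (-((n : ℤ) * -(L (w m) m))) *
          (p : ℝ) ^ (-((n : ℤ) * L (w m) m)) := mul_le_mul_of_nonneg_right h2 hpos.le
      _ = T (F m) := by
          rw [mul_assoc, ← zpow_add₀ hp0.ne']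
          simp
  have hFinj : Set.InjOn F (range n : Set ℕ) := by
    intro a ha b hb hab
    simp only [coe_range, Set.mem_Iio] at ha hb
    have h : ((a : ℤ)) % n = (b : ℤ) % n := by
      rw [← Int.add_mul_emod_self_left (a : ℤ) n (L (w a) a),
        ← Int.add_mul_emod_self_left (b : ℤ) n (L (w b) b)]
      exact congrArg (· % (n : ℤ)) hab
    rw [Int.emod_eq_of_lt (by positivity) (by exact_mod_cast ha),
      Int.emod_eq_of_lt (by positivity) (by exact_mod_cast hb)] at h
    exact_mod_cast h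
  have hfib : ∀ r ∈ J0.image s, ((range n).filter fun m ↦ lev m = r).card ≤ g r := by
    intro r hr
    obtain ⟨a0, ha0, hsa0⟩ := mem_image.mp hr
    set A := (range n).filter fun m ↦ lev m = r
    rcases A.eq_empty_or_nonempty with hA | hA
    · simp [hA]
    · obtain ⟨m1, hm1, hmin⟩ := exists_min_image A F hA
      have hsub : A.image F ⊆ (Finset.range (g r)).image fun i : ℕ ↦ F m1 + i := by
        intro x hx
        obtain ⟨m, hm, rfl⟩ := mem_image.mp hx
        refine mem_image.mpr ⟨(F m - F m1).toNat, mem_range.mpr ?_, ?_⟩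
        · rcases eq_or_lt_of_le (hmin m hm) with heq | hlt
          · rw [heq, sub_self, Int.toNat_zero]
            exact card_pos.mpr ⟨a0, mem_filter.mpr ⟨ha0, hsa0⟩⟩
          · have := hgap r ⟨a0, ha0, hsa0⟩ (F m1) (F m) hlt
              (by rw [hTF, (mem_filter.mp hm1).2]) (by rw [hTF, (mem_filter.mp hm).2])
            omega
        · have := hmin m hm
          omega
      calc A.card = (A.image F).card := (card_image_of_injOn
            (hFinj.mono (coe_subset.mpr (filter_subset _ _)))).symm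
        _ ≤ _ := (card_le_card hsub).trans (card_image_le.trans_eq (card_range _))
  have hcount : n ≤ J0.card := by
    calc n = (range n).card := (card_range n).symm
      _ = ∑ r ∈ J0.image s, ((range n).filter fun m ↦ lev m = r).card :=
          card_eq_sum_card_fiberwise fun m _ ↦ mem_image_of_mem s (hAct0 (hw (m : ℤ)))
      _ ≤ ∑ r ∈ J0.image s, g r := sum_le_sum hfib
      _ = J0.card := (card_eq_sum_card_fiberwise fun a ha ↦ mem_image_of_mem s ha).symm
  omega

end Vale.Agent.P217.Indep
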