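import Vale.Agent.P217.Indep.Typical

/-!
The cover logarithm of a homomorphism as a periodic Teichmüller series, and extraction of
coefficients by averaging over roots of unity.
-/

noncomputable section

namespace Vale.Agent.P217.Indep

open Filter Finset
open scoped Topology

variable {p : ℕ} [hp : Fact p.Prime] {Ω : Type} [NontriviallyNormedField Ω] [IsUltrametricDist Ω]
  [GoodField p Ω] {ρ : Rad}

theorem norm_pw_lt {z : (intRing Ω)} (hz : ‖(z : Ω)‖ < 1) (m : ℤ) :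
    ‖((pw (p := p) m z : (intRing Ω)) : Ω)‖ < 1 := by
  rw [norm_pw]
  exact Real.rpow_lt_one (norm_nonneg _) hz (zpow_pos (Nat.cast_pos.mpr hp.out.pos) _)

/-- A term of the double series. -/
def dblTerm (ρ : Rad) (h : ℕ) (H : PowerSeries (intRing Ω)) (z : (intRing Ω)) (x : ℕ × ℤ) : BB p Ω ρ :=
  lterm ρ h (dcoef p h H x.1 * z ^ p ^ x.1) x.2

/-- The coefficient part of a term of the double series. -/
def coefTerm (ρ : Rad) (h : ℕ) (H : PowerSeries (intRing Ω)) (x : ℕ × ℤ) : BB p Ω ρ :=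
  pz p Ω ρ (-x.2) * tch ρ (pw (p := p) ((h : ℤ) * x.2) (dcoef p h H x.1))

theorem dblTerm_eq (h : ℕ) (H : PowerSeries (intRing Ω)) (z : (intRing Ω)) (x : ℕ × ℤ) :
    dblTerm ρ h H z x = coefTerm ρ h H x * tch ρ (pw (p := p) ((x.1 : ℤ) + h * x.2) z) := by
  rw [dblTerm, lterm, coefTerm, map_mul, ← pw_nat, ← pw_add, map_mul, mul_assoc, add_comm]

/-- The coefficient of `[z^(p^τ)]`. -/
def coefC (ρ : Rad) (h : ℕ) (H : PowerSeries (intRing Ω)) (τ : ℤ) : BB p Ω ρ :=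
  ∑' x : {x : ℕ × ℤ // (x.1 : ℤ) + h * x.2 = τ}, coefTerm ρ h H x.1

theorem summable_coefTerm {h : ℕ} (hh : 0 < h) (H : PowerSeries (intRing Ω)) (τ : ℤ) :
    Summable fun x : {x : ℕ × ℤ // (x.1 : ℤ) + h * x.2 = τ} ↦ coefTerm (p := p) ρ h H x.1 := by
  refine summable_of_tendsto ?_
  rw [tendsto_zero_iff_norm_tendsto_zero, Metric.tendsto_nhds]
  intro ε hε
  obtain ⟨J, hJ⟩ := exists_pow_lt_of_lt_one hε ρ.lt_one
  rw [eventually_cofinite]
  refine Set.Finite.of_finite_image (f := fun x ↦ x.1.2)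
    ((Set.finite_Icc (-(J : ℤ)) (max τ 0)).subset ?_) ?_
  · rintro k ⟨x, hx, rfl⟩
    simp only [Set.mem_setOf_eq, dist_zero_right, norm_norm, not_lt] at hx
    show -(J : ℤ) ≤ x.1.2 ∧ x.1.2 ≤ max τ 0
    constructor
    · by_contra hlt
      obtain ⟨j, hj⟩ : ∃ j : ℕ, x.1.2 = -(j : ℤ) := ⟨(-x.1.2).toNat, by omega⟩
      rw [coefTerm, norm_pz_mul, norm_tch, hj, neg_neg, zpow_natCast] at hx
      have h1 := hx.trans (mul_le_of_le_one_right (pow_nonneg ρ.pos.le _)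
        (pw (p := p) ((h : ℤ) * -(j : ℤ)) (dcoef p h H x.1.1)).2)
      have h2 : ρ.val ^ j ≤ ρ.val ^ J :=
        pow_le_pow_of_le_one ρ.pos.le ρ.lt_one.le (by omega)
      linarith
    · by_contra hgt
      have hk : 0 ≤ x.1.2 := by omega
      have h3 : 1 * x.1.2 ≤ (h : ℤ) * x.1.2 :=
        mul_le_mul_of_nonneg_right (by exact_mod_cast hh) hk
      have := x.2
      omega
  · intro x _ y _ hxy
    have h1 := x.2
    have h2 := y.2
    simp only at hxy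
    rw [hxy] at h1
    exact Subtype.ext (Prod.ext (by omega) hxy)

variable {n : ℕ} (φ : Haz.A n →+* intRing Ω) {h : ℕ} {H : PowerSeries (intRing Ω)}

theorem summable_dblTerm (hh : 0 < h) (H : PowerSeries (intRing Ω)) {z : (intRing Ω)}
    (hz : ‖(z : Ω)‖ < 1) : Summable (dblTerm (p := p) ρ h H z) := by
  refine summable_of_tendsto ?_
  rw [tendsto_zero_iff_norm_tendsto_zero, Metric.tendsto_nhds]
  intro ε hε
  obtain ⟨δ, hδ, hδ1, hsmall⟩ := lterm_small (p := p) (Ω := Ω) hh ρ (half_pos hε)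
  obtain ⟨T, hT⟩ := exists_pow_lt_of_lt_one hδ hz
  rw [eventually_cofinite]
  have hfin : ∀ t : ℕ, {k : ℤ | ¬ ‖lterm (p := p) ρ h (dcoef p h H t * z ^ p ^ t) k‖ < ε}.Finite :=
    fun t ↦ (tendsto_zero_iff_norm_tendsto_zero.mp (tendsto_lterm hh
      (lt_of_small (dPt p h H z hz t).small))).eventually (gt_mem_nhds hε)
  refine (((range T).finite_toSet).biUnion fun t _ ↦ (hfin t).image (Prod.mk t)).subset ?_
  rintro ⟨t, k⟩ hx
  simp only [Set.mem_setOf_eq, dist_zero_right, norm_norm] at hx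
  simp only [Set.mem_iUnion, Set.mem_image, Finset.mem_coe]
  refine ⟨t, mem_range.mpr ?_, k, hx, rfl⟩
  by_contra htT
  refine hx (lt_of_le_of_lt (hsmall _ ?_ k) (half_lt_self hε))
  refine (norm_dPt_le H z hz t).trans (le_trans ?_ hT.le)
  exact pow_le_pow_of_le_one (norm_nonneg _) hz.le
    ((not_lt.mp htT).trans (Nat.lt_pow_self hp.out.one_lt).le)

theorem tendsto_lh_ev (hh : 0 < h) (hH : IsFGHom ((Haz.law p n).map φ) (honda p h (intRing Ω)) H) {z : (intRing Ω)}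
    (hz : ‖(z : Ω)‖ < 1) :
    Tendsto (fun T ↦ ∑ t ∈ range T, lh ρ h (dcoef p h H t * z ^ p ^ t)) atTop
      (𝓝 (lh (p := p) ρ h (ev H fun _ : Unit ↦ z))) := by
  let x : Haz.Pt p φ := ⟨z, small_of_lt hz⟩
  rw [Metric.tendsto_atTop]
  intro ε hε
  obtain ⟨δ, hδ, hδ1, hsmall⟩ := lh_small (p := p) (Ω := Ω) hh ρ (half_pos hε)
  obtain ⟨T0, hT0⟩ := exists_pow_lt_of_lt_one hδ hz
  refine ⟨T0, fun T hT ↦ ?_⟩
  rw [dist_comm, dist_eq_norm]
  have h1 : lh (p := p) ρ h (ev H fun _ : Unit ↦ z) -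
      ∑ t ∈ range T, lh ρ h (dcoef p h H t * z ^ p ^ t) =
      lhHom p Ω ρ hh (hPt φ hH x - ∑ t ∈ range T, dPt p h H z hz t) := by
    rw [map_sub, map_sum]
    rfl
  rw [h1, lhHom_apply]
  refine (hsmall _ ((norm_hPt_sub_le φ hH x T).trans (le_trans ?_ hT0.le))).trans_lt
    (half_lt_self hε)
  exact pow_le_pow_of_le_one (norm_nonneg _) hz.le
    (hT.trans (Nat.lt_pow_self hp.out.one_lt).le)

theorem hasSum_dblTerm_row (hh : 0 < h) {z : (intRing Ω)} (hz : ‖(z : Ω)‖ < 1) (t : ℕ) :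
    HasSum (fun k : ℤ ↦ dblTerm (p := p) ρ h H z (t, k))
      (lh (p := p) ρ h (dcoef p h H t * z ^ p ^ t)) := by
  have hfun : (fun k : ℤ ↦ dblTerm (p := p) ρ h H z (t, k)) =
      lterm (p := p) ρ h (dcoef p h H t * z ^ p ^ t) := by
    funext k
    rw [dblTerm]
  have hlt : ‖((dcoef p h H t * z ^ p ^ t : (intRing Ω)) : Ω)‖ < 1 := by
    have h1 := (dPt p h H z hz t).small
    exact isTopologicallyNilpotent_intRing.mp h1
  rw [hfun]
  exact hasSum_lh hh hlt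

theorem hasSum_dblTerm (hh : 0 < h) (hH : IsFGHom ((Haz.law p n).map φ) (honda p h (intRing Ω)) H) {z : (intRing Ω)}
    (hz : ‖(z : Ω)‖ < 1) :
    HasSum (dblTerm (p := p) ρ h H z) (lh ρ h (ev H fun _ : Unit ↦ z)) := by
  have hG := (summable_dblTerm (p := p) (ρ := ρ) hh H hz).hasSum
  have hrow := hG.prod_fiberwise (hasSum_dblTerm_row hh hz)
  have heq := tendsto_nhds_unique hrow.tendsto_sum_nat (tendsto_lh_ev φ hh hH hz)
  rw [heq] at hG
  exact hG

theorem hasSum_coefC (hh : 0 < h) (hH : IsFGHom ((Haz.law p n).map φ) (honda p h (intRing Ω)) H) {z : (intRing Ω)}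
    (hz : ‖(z : Ω)‖ < 1) :
    HasSum (fun τ ↦ coefC ρ h H τ * tch ρ (pw (p := p) τ z))
      (lh ρ h (ev H fun _ : Unit ↦ z)) := by
  have htot := hasSum_dblTerm (ρ := ρ) φ hh hH hz
  rw [← (Equiv.sigmaFiberEquiv fun x : ℕ × ℤ ↦ (x.1 : ℤ) + h * x.2).hasSum_iff] at htot
  refine htot.sigma fun τ ↦ ?_
  have hτ : HasSum (fun x : {x : ℕ × ℤ // (x.1 : ℤ) + h * x.2 = τ} ↦
      coefTerm ρ h H x.1 * tch ρ (pw (p := p) τ z)) (coefC ρ h H τ * tch ρ (pw (p := p) τ z)) :=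
    (summable_coefTerm hh H τ).hasSum.mul_right _
  refine hτ.congr_fun fun x ↦ ?_
  show dblTerm ρ h H z x.1 = _
  rw [dblTerm_eq, x.2]

variable (p Ω) in
/-- The nonzero roots of `X^(p^L) = X`. -/
def units (L : ℕ) : Finset (intRing Ω) := by
  classical
  exact ((Polynomial.X ^ p ^ L - Polynomial.X : Polynomial Ω).roots.toFinset.erase 0).subtype
    fun c ↦ c ∈ intRing Ω

omit [GoodField p Ω] in
theorem natDegree_poly {L : ℕ} (hL : 0 < L) :
    (Polynomial.X ^ p ^ L - Polynomial.X : Polynomial Ω).natDegree = p ^ L :=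
  FiniteField.X_pow_card_sub_X_natDegree_eq Ω (Nat.one_lt_pow hL.ne' hp.out.one_lt)

theorem mem_units {L : ℕ} (hL : 0 < L) {c : (intRing Ω)} :
    c ∈ units p Ω L ↔ c ≠ 0 ∧ c ^ p ^ L = c := by
  classical
  have hne : (Polynomial.X ^ p ^ L - Polynomial.X : Polynomial Ω) ≠ 0 := fun h0 ↦ by
    have := natDegree_poly (p := p) (Ω := Ω) hL
    rw [h0, Polynomial.natDegree_zero] at this
    exact (pow_ne_zero L hp.out.ne_zero) this.symm
  simp only [units, Finset.mem_subtype, Finset.mem_erase, Multiset.mem_toFinset,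
    Polynomial.mem_roots hne, Polynomial.IsRoot, Polynomial.eval_sub, Polynomial.eval_pow,
    Polynomial.eval_X, sub_eq_zero]
  constructor
  · exact fun ⟨h1, h2⟩ ↦ ⟨fun h0 ↦ h1 (by rw [h0]; rfl), Subtype.ext h2⟩
  · exact fun ⟨h1, h2⟩ ↦ ⟨fun h0 ↦ h1 (Subtype.ext h0), congrArg Subtype.val h2⟩

theorem card_units {L : ℕ} (hL : 0 < L) : (units p Ω L).card = p ^ L - 1 := by
  classical
  set f := (Polynomial.X ^ p ^ L - Polynomial.X : Polynomial Ω) with hf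
  have hne : f ≠ 0 := fun h0 ↦ by
    have := natDegree_poly (p := p) (Ω := Ω) hL
    rw [← hf, h0, Polynomial.natDegree_zero] at this
    exact (pow_ne_zero L hp.out.ne_zero) this.symm
  have hsep : f.Separable := galois_poly_separable p (p ^ L) (dvd_pow_self p hL.ne')
  have hcard : f.roots.toFinset.card = p ^ L := by
    rw [Multiset.toFinset_card_of_nodup (Polynomial.nodup_roots hsep),
      ← natDegree_poly (p := p) (Ω := Ω) hL]
    exact IsAlgClosed.card_roots_eq_natDegree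
  have hint : ∀ c ∈ f.roots.toFinset.erase 0, c ∈ intRing Ω := by
    intro c hc
    simp only [Finset.mem_erase, Multiset.mem_toFinset, Polynomial.mem_roots hne, f,
      Polynomial.IsRoot, Polynomial.eval_sub, Polynomial.eval_pow, Polynomial.eval_X,
      sub_eq_zero] at hc
    rw [mem_intRing]
    by_contra hgt
    rw [not_le] at hgt
    have := congrArg norm hc.2
    rw [norm_pow] at this
    have h2 : ‖c‖ ^ 1 < ‖c‖ ^ p ^ L :=
      pow_lt_pow_right₀ hgt (Nat.one_lt_pow hL.ne' hp.out.one_lt)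
    rw [pow_one, this] at h2
    exact lt_irrefl _ h2
  rw [units, Finset.card_subtype, Finset.filter_true_of_mem hint, Finset.card_erase_of_mem,
    hcard]
  simp [hne, f, zero_pow (pow_ne_zero L hp.out.ne_zero)]

theorem units_mul {L : ℕ} (hL : 0 < L) {a b : (intRing Ω)} (ha : a ∈ units p Ω L) (hb : b ∈ units p Ω L) :
    a * b ∈ units p Ω L := by
  rw [mem_units hL] at *
  exact ⟨mul_ne_zero ha.1 hb.1, by rw [mul_pow, ha.2, hb.2]⟩

theorem units_pow_card {L : ℕ} (hL : 0 < L) {c : (intRing Ω)} (hc : c ∈ units p Ω L) :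
    c ^ (p ^ L - 1) = 1 := by
  rw [mem_units hL] at hc
  apply mul_right_cancel₀ hc.1
  rw [← pow_succ, Nat.sub_add_cancel (Nat.one_le_pow _ _ hp.out.pos), hc.2, one_mul]

theorem pw_mul_period {L : ℕ} {c : (intRing Ω)} (hc : c ^ p ^ L = c) (j : ℤ) :
    pw (p := p) ((L : ℤ) * j) c = c := by
  have hnat : ∀ i : ℕ, pw (p := p) (((L * i : ℕ) : ℤ)) c = c := by
    intro i
    induction i with
    | zero => simp [pw_zero]
    | succ i ih =>
      rw [show ((L * (i + 1) : ℕ) : ℤ) = (L : ℤ) + ((L * i : ℕ) : ℤ) by push_cast; ring, pw_add,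
        ih, pw_nat, hc]
  obtain ⟨i, rfl | rfl⟩ := Int.eq_nat_or_neg j
  · rw [← Nat.cast_mul, hnat]
  · conv_lhs => rw [← hnat i]
    rw [← pw_add, show (L : ℤ) * -(i : ℤ) + ((L * i : ℕ) : ℤ) = 0 by push_cast; ring, pw_zero]

theorem norm_tch_sub_one_mul {u : (intRing Ω)} (hu : ‖((u - 1 : (intRing Ω)) : Ω)‖ = 1) (z : BB p Ω ρ) :
    ‖(tch ρ u - 1) * z‖ = ‖z‖ := by
  have hclose : ‖(tch (p := p) ρ u - 1) - tch ρ (u - 1)‖ < ‖((u - 1 : (intRing Ω)) : Ω)‖ := by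
    rw [hu]
    have h2 := norm_teich_sub_le (p := p) (ρ := ρ) (u - 1) 1
    rw [sub_add_cancel, map_one] at h2
    rw [show tch (p := p) ρ u - 1 - tch ρ (u - 1) = tch ρ u - (tch ρ (u - 1) + 1) by ring]
    exact (h2.trans (mul_le_of_le_one_right ρ.pos.le (max_le (u - 1).2 (1 : (intRing Ω)).2))).trans_lt
      ρ.lt_one
  rw [norm_mul_of_close hclose, hu, one_mul]

/-- Orthogonality of the characters `c ↦ [c^(p^τ)]` of the roots of unity. -/
theorem char_sum {L : ℕ} (hL : 0 < L) (a b : ℤ) :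
    ∑ c ∈ units p Ω L, tch (p := p) ρ (pw (p := p) a c * pw (p := p) b c ^ (p ^ L - 2)) =
      if (L : ℤ) ∣ a - b then ((p ^ L - 1 : ℕ) : BB p Ω ρ) else 0 := by
  classical
  have hP : 2 ≤ p ^ L := Nat.one_lt_pow hL.ne' hp.out.one_lt
  have hpwU : ∀ (m : ℤ) {c : (intRing Ω)}, c ∈ units p Ω L → pw (p := p) m c ∈ units p Ω L := by
    intro m c hc
    rw [mem_units hL] at *
    refine ⟨fun h0 ↦ hc.1 (pw_injective (p := p) m (by rw [h0, map_zero])), ?_⟩
    rw [← map_pow, hc.2]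
  have hone : ∀ {c : (intRing Ω)}, c ∈ units p Ω L → pw (p := p) b c * pw (p := p) b c ^ (p ^ L - 2) = 1 := by
    intro c hc
    rw [← pow_succ', show p ^ L - 2 + 1 = p ^ L - 1 by omega, units_pow_card hL (hpwU b hc)]
  split_ifs with hdvd
  · obtain ⟨j, hj⟩ := hdvd
    rw [← card_units (p := p) (Ω := Ω) hL, ← mul_one (((units p Ω L).card : ℕ) : BB p Ω ρ),
      ← nsmul_eq_mul, ← sum_const]
    refine sum_congr rfl fun c hc ↦ ?_
    rw [show a = b + (L : ℤ) * j by omega, pw_add, pw_mul_period ((mem_units hL).mp hc).2, hone hc,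
      map_one]
  · obtain ⟨c0, hc0, hne⟩ : ∃ c0 ∈ units p Ω L,
        pw (p := p) a c0 * pw (p := p) b c0 ^ (p ^ L - 2) ≠ 1 := by
      by_contra hall
      push Not at hall
      set D := ((a - b) % L).toNat with hD
      have hL0 : (L : ℤ) ≠ 0 := by exact_mod_cast hL.ne'
      have hD1 : ((D : ℕ) : ℤ) = (a - b) % L := Int.toNat_of_nonneg (Int.emod_nonneg _ hL0)
      have hDpos : 0 < D := by
        rw [Nat.pos_iff_ne_zero]
        intro h0
        rw [h0] at hD1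
        exact hdvd (Int.dvd_of_emod_eq_zero hD1.symm)
      have hDL : D < L := by
        have := Int.emod_lt_of_pos (a - b) (by exact_mod_cast hL : (0 : ℤ) < L)
        omega
      have hsub : units p Ω L ⊆ units p Ω D := by
        intro c hc
        obtain ⟨hc0, hcP⟩ := (mem_units hL).mp hc
        rw [mem_units hDpos]
        refine ⟨hc0, ?_⟩
        have h1 : pw (p := p) a c = pw (p := p) b c := by
          have h2 := hall c hc
          calc pw (p := p) a c = pw (p := p) a c *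
                (pw (p := p) b c * pw (p := p) b c ^ (p ^ L - 2)) := by rw [hone hc, mul_one]
            _ = pw (p := p) a c * pw (p := p) b c ^ (p ^ L - 2) * pw (p := p) b c := by ring
            _ = _ := by rw [h2, one_mul]
        rw [← pw_nat]
        apply pw_injective (p := p) b
        rw [← pw_add]
        calc pw (p := p) (b + (D : ℤ)) c
            = pw (p := p) (b + (D : ℤ)) (pw (p := p) ((L : ℤ) * ((a - b) / L)) c) := by
              rw [pw_mul_period hcP]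
          _ = pw (p := p) a c := by
              have := Int.emod_add_mul_ediv (a - b) L
              rw [← pw_add, hD1,
                show b + (a - b) % (L : ℤ) + (L : ℤ) * ((a - b) / L) = a by omega]
          _ = pw (p := p) b c := h1
      have := Finset.card_le_card hsub
      rw [card_units hL, card_units hDpos] at this
      have h3 : p ^ D < p ^ L := Nat.pow_lt_pow_right hp.out.one_lt hDL
      have h4 : 1 ≤ p ^ D := Nat.one_le_pow _ _ hp.out.pos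
      omega
    set u := pw (p := p) a c0 * pw (p := p) b c0 ^ (p ^ L - 2) with hu
    set S := ∑ c ∈ units p Ω L, tch (p := p) ρ (pw (p := p) a c * pw (p := p) b c ^ (p ^ L - 2))
    have hshift : tch ρ u * S = S := by
      rw [mul_sum]
      refine sum_bij' (fun c _ ↦ c0 * c) (fun c _ ↦ c0 ^ (p ^ L - 2) * c)
        (fun c hc ↦ units_mul hL hc0 hc) (fun c hc ↦ ?_) (fun c _ ↦ ?_) (fun c _ ↦ ?_)
        (fun c _ ↦ ?_)
      · obtain ⟨h1, h2⟩ := (mem_units hL).mp hc0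
        refine units_mul hL ((mem_units hL).mpr ⟨pow_ne_zero _ h1, ?_⟩) hc
        rw [← pow_mul, mul_comm, pow_mul, h2]
      · rw [← mul_assoc, ← pow_succ, show p ^ L - 2 + 1 = p ^ L - 1 by omega,
          units_pow_card hL hc0, one_mul]
      · rw [← mul_assoc, ← pow_succ', show p ^ L - 2 + 1 = p ^ L - 1 by omega,
          units_pow_card hL hc0, one_mul]
      · rw [← map_mul, hu, map_mul (pw (p := p) a), map_mul (pw (p := p) b)]
        congr 1
        ring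
    have hu1 : ‖((u - 1 : (intRing Ω)) : Ω)‖ = 1 := by
      refine norm_root_sub_one (p := p) (l := p ^ L - 1) ?_ ?_ hne
      · intro hd
        have hpd : p ∣ p ^ L := dvd_pow_self p hL.ne'
        have h1 := Nat.dvd_sub hpd hd
        rw [show p ^ L - (p ^ L - 1) = 1 by omega] at h1
        exact hp.out.ne_one (Nat.dvd_one.mp h1)
      · rw [hu, mul_pow, ← pow_mul, mul_comm (p ^ L - 2), pow_mul,
          units_pow_card hL (hpwU a hc0), units_pow_card hL (hpwU b hc0), one_pow, one_mul]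
    have h0 := norm_tch_sub_one_mul (p := p) (ρ := ρ) hu1 S
    rw [sub_mul, hshift, one_mul, sub_self, norm_zero] at h0
    exact norm_eq_zero.mp h0.symm

theorem norm_card_mul {L : ℕ} (hL : 0 < L) (z : BB p Ω ρ) :
    ‖((p ^ L - 1 : ℕ) : BB p Ω ρ) * z‖ = ‖z‖ := by
  rw [Nat.cast_sub (Nat.one_le_pow _ _ hp.out.pos), Nat.cast_pow, Nat.cast_one, sub_mul, one_mul,
    ← pz_nat]
  rcases eq_or_lt_of_le (norm_nonneg z) with h0 | h0
  · simp [norm_eq_zero.mp h0.symm]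
  have hlt : ‖pz p Ω ρ L * z‖ < ‖-z‖ := by
    rw [norm_pz_mul, norm_neg, zpow_natCast]
    exact mul_lt_of_lt_one_left h0 (pow_lt_one₀ ρ.pos.le ρ.lt_one hL.ne')
  rw [sub_eq_add_neg, IsUltrametricDist.norm_add_eq_max_of_norm_ne_norm hlt.ne,
    max_eq_right hlt.le, norm_neg]

/-- Averaging over the roots of unity extracts a residue class of indices. -/
theorem classSum {f : ℤ → BB p Ω ρ} {z : (intRing Ω)} {S : (intRing Ω) → BB p Ω ρ} {L : ℕ} (hL : 0 < L) (τ0 : ℤ)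
    (hsum : ∀ c ∈ units p Ω L, HasSum (fun τ ↦ f τ * tch ρ (pw (p := p) τ (c * z))) (S c))
    {ε : ℝ} (hε : 0 ≤ ε) (hS : ∀ c ∈ units p Ω L, ‖S c‖ ≤ ε) :
    ∃ u, ‖u‖ ≤ ε ∧ HasSum
      (fun τ ↦ if (L : ℤ) ∣ τ - τ0 then f τ * tch ρ (pw (p := p) τ z) else 0) u := by
  classical
  have hN : IsUnit (1 : BB p Ω ρ) := isUnit_one
  have h1 : HasSum (fun τ ↦ ∑ c ∈ units p Ω L, f τ * tch ρ (pw (p := p) τ (c * z)) *
      tch ρ (pw (p := p) τ0 c ^ (p ^ L - 2)))
      (∑ c ∈ units p Ω L, S c * tch ρ (pw (p := p) τ0 c ^ (p ^ L - 2))) :=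
    hasSum_sum fun c hc ↦ (hsum c hc).mul_right _
  have h2 : ∀ τ, ∑ c ∈ units p Ω L, f τ * tch ρ (pw (p := p) τ (c * z)) *
      tch ρ (pw (p := p) τ0 c ^ (p ^ L - 2)) =
      ((p ^ L - 1 : ℕ) : BB p Ω ρ) *
        if (L : ℤ) ∣ τ - τ0 then f τ * tch ρ (pw (p := p) τ z) else 0 := by
    intro τ
    have h3 : ∀ c, f τ * tch ρ (pw (p := p) τ (c * z)) *
        tch ρ (pw (p := p) τ0 c ^ (p ^ L - 2)) = f τ * tch ρ (pw (p := p) τ z) *
          tch ρ (pw (p := p) τ c * pw (p := p) τ0 c ^ (p ^ L - 2)) := by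
      intro c
      rw [map_mul (pw (p := p) τ), map_mul, map_mul]
      ring
    rw [sum_congr rfl fun c _ ↦ h3 c, ← mul_sum, char_sum hL]
    split_ifs
    · rw [mul_comm]
    · rw [mul_zero, mul_zero]
  simp only [h2] at h1
  set T := ∑ c ∈ units p Ω L, S c * tch ρ (pw (p := p) τ0 c ^ (p ^ L - 2))
  set g := fun τ ↦ if (L : ℤ) ∣ τ - τ0 then f τ * tch ρ (pw (p := p) τ z) else 0
  have hg : Summable g := by
    refine summable_of_tendsto ?_
    rw [tendsto_zero_iff_norm_tendsto_zero]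
    have := tendsto_zero_iff_norm_tendsto_zero.mp h1.summable.tendsto_cofinite_zero
    simpa only [norm_card_mul hL] using this
  refine ⟨∑' τ, g τ, ?_, hg.hasSum⟩
  rw [← norm_card_mul hL, (hg.hasSum.mul_left _).unique h1]
  refine IsUltrametricDist.norm_sum_le_of_forall_le_of_nonneg hε fun c hc ↦ ?_
  exact (norm_mul_le _ _).trans ((mul_le_of_le_one_right (norm_nonneg _)
    ((norm_tch _).trans_le (pw (p := p) τ0 c ^ (p ^ L - 2)).2)).trans (hS c hc))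

/-- Each coefficient is bounded by the values on the rescaled argument. -/
theorem coef_bound {f : ℤ → BB p Ω ρ} {z : (intRing Ω)} {S : (intRing Ω) → BB p Ω ρ}
    (hsum : ∀ c : (intRing Ω), ‖(c : Ω)‖ = 1 → HasSum (fun τ ↦ f τ * tch ρ (pw (p := p) τ (c * z))) (S c))
    {ε : ℝ} (hε : 0 ≤ ε) (hS : ∀ c : (intRing Ω), ‖(c : Ω)‖ = 1 → ‖S c‖ ≤ ε) (τ0 : ℤ) :
    ‖f τ0 * tch ρ (pw (p := p) τ0 z)‖ ≤ ε := by
  classical
  refine le_of_forall_pos_le_add fun η hη ↦ ?_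
  have hone : ∀ (L : ℕ), 0 < L → ∀ c ∈ units p Ω L, ‖(c : Ω)‖ = 1 := by
    intro L hL c hc
    have h1 := congrArg (fun x : (intRing Ω) ↦ ‖(x : Ω)‖) (units_pow_card hL hc)
    simp only [SubmonoidClass.coe_pow, norm_pow, OneMemClass.coe_one, norm_one] at h1
    have hP : 2 ≤ p ^ L := Nat.one_lt_pow hL.ne' hp.out.one_lt
    exact (pow_eq_one_iff_of_nonneg (norm_nonneg _) (by omega)).mp h1
  have h0 := hsum 1 (by simp)
  simp only [one_mul] at h0
  have hfin : {τ : ℤ | ¬ ‖f τ * tch ρ (pw (p := p) τ z)‖ < η}.Finite :=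
    (tendsto_zero_iff_norm_tendsto_zero.mp h0.summable.tendsto_cofinite_zero).eventually
      (gt_mem_nhds hη)
  obtain ⟨B, hB⟩ := (hfin.image fun τ ↦ (τ - τ0).natAbs).bddAbove
  obtain ⟨u, hu, hg⟩ := classSum (L := B + 1) B.succ_pos τ0
    (fun c hc ↦ hsum c (hone _ B.succ_pos c hc)) hε (fun c hc ↦ hS c (hone _ B.succ_pos c hc))
  have hrest : HasSum (fun τ ↦ if τ = τ0 then 0 else
      if ((B + 1 : ℕ) : ℤ) ∣ τ - τ0 then f τ * tch ρ (pw (p := p) τ z) else 0)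
      (u - f τ0 * tch ρ (pw (p := p) τ0 z)) := by
    have h1 := hasSum_ite_sub_hasSum hg τ0
    simpa using h1
  have h2 := norm_le_of_hasSum hη.le hrest fun τ ↦ by
    split_ifs with hτ hd
    · simpa using hη.le
    · by_contra hlt
      have h3 : (τ - τ0).natAbs ≤ B := hB ⟨τ, fun h4 ↦ hlt h4.le, rfl⟩
      have h5 := Nat.le_of_dvd (by omega) (Int.natCast_dvd.mp hd)
      omega
    · simpa using hη.le
  calc ‖f τ0 * tch ρ (pw (p := p) τ0 z)‖
      = ‖u + -(u - f τ0 * tch ρ (pw (p := p) τ0 z))‖ := by congr 1; ring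
    _ ≤ max ‖u‖ ‖-(u - f τ0 * tch ρ (pw (p := p) τ0 z))‖ := IsUltrametricDist.norm_add_le_max _ _
    _ ≤ ε + η := max_le (by linarith) (by rw [norm_neg]; linarith)

theorem prSeq_eq (x : Haz.Pt p φ) (N : ℕ) (z : (intRing Ω)) (hx : x.val = pw (p := p) (-((n * N : ℕ) : ℤ)) z) :
    prSeq p n φ z N = ((p ^ N) • x).val := by
  have hroot : intRoot ((p ^ n) ^ N) z = x.val := by
    apply pw_injective (p := p) (((n * N : ℕ) : ℤ))
    rw [hx, pw_nat, pw_nat, pw_neg_pow, pow_mul,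
      intRoot_pow (pow_ne_zero _ (pow_ne_zero _ hp.out.ne_zero))]
  rw [prSeq, hroot, Haz.nsmul_val]
  push_cast
  rfl

/-- The `N`-th approximation of `l_h ∘ H ∘ pr`. -/
def approxF (ρ : Rad) (h n N : ℕ) (H : PowerSeries (intRing Ω)) (x : (intRing Ω)) : BB p Ω ρ :=
  pz p Ω ρ N * lh ρ h (ev H fun _ : Unit ↦ pw (p := p) (-((n * N : ℕ) : ℤ)) x)

/-- The point `x^(q^(-N))`. -/
def rootPt (x : (intRing Ω)) (hx : ‖(x : Ω)‖ < 1) (N : ℕ) : Haz.Pt p φ :=
  ⟨pw (p := p) (-((n * N : ℕ) : ℤ)) x, small_of_lt (norm_pw_lt hx _)⟩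

theorem approxF_eq (hh : 0 < h) (hH : IsFGHom ((Haz.law p n).map φ) (honda p h (intRing Ω)) H) (x : (intRing Ω))
    (hx : ‖(x : Ω)‖ < 1) (N : ℕ) :
    approxF ρ h n N H x = lhHom p Ω ρ hh (hPt φ hH ((p ^ N) • rootPt φ x hx N)) := by
  rw [map_nsmul, map_nsmul, nsmul_eq_mul, Nat.cast_pow, ← pz_nat, lhHom_apply, hPt_val]
  rfl

theorem pr_lt (pr : (intRing Ω) → (intRing Ω))
    (hpr : ∀ r : ℝ, r < 1 → ∀ ε : ℝ, 0 < ε → ∀ᶠ N in atTop, ∀ x : (intRing Ω),
      ‖(x : Ω)‖ ≤ r → ‖((prSeq p n φ x N - pr x : (intRing Ω)) : Ω)‖ ≤ ε) (x : (intRing Ω))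
    (hx : ‖(x : Ω)‖ < 1) : ‖((pr x : (intRing Ω)) : Ω)‖ < 1 := by
  obtain ⟨N, hN⟩ := (hpr ‖(x : Ω)‖ hx (1 / 2) one_half_pos).exists
  have h1 : ‖((prSeq p n φ x N : (intRing Ω)) : Ω)‖ < 1 := by
    rw [prSeq_eq φ (rootPt φ x hx N) N x rfl]
    exact lt_of_small ((p ^ N) • rootPt φ x hx N).small
  rw [show ((pr x : (intRing Ω)) : Ω) = (prSeq p n φ x N : Ω) + -((prSeq p n φ x N - pr x : (intRing Ω)) : Ω) by
    push_cast; ring]
  refine (IsUltrametricDist.norm_add_le_max _ _).trans_lt (max_lt h1 ?_)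
  rw [norm_neg]
  exact (hN x le_rfl).trans_lt (by norm_num)

theorem approxF_uniform (hh : 0 < h) (hH : IsFGHom ((Haz.law p n).map φ) (honda p h (intRing Ω)) H)
    (pr : (intRing Ω) → (intRing Ω))
    (hpr : ∀ r : ℝ, r < 1 → ∀ ε : ℝ, 0 < ε → ∀ᶠ N in atTop, ∀ x : (intRing Ω),
      ‖(x : Ω)‖ ≤ r → ‖((prSeq p n φ x N - pr x : (intRing Ω)) : Ω)‖ ≤ ε)
    {r : ℝ} (hr : r < 1) {ε : ℝ} (hε : 0 < ε) :
    ∀ᶠ N in atTop, ∀ x : (intRing Ω), ‖(x : Ω)‖ ≤ r →
      ‖approxF ρ h n N H x - lh ρ h (ev H fun _ : Unit ↦ pr x)‖ ≤ ε := by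
  obtain ⟨δ, hδ, hδ1, hsmall⟩ := lh_small (p := p) (Ω := Ω) hh ρ hε
  filter_upwards [hpr r hr δ hδ] with N hN x hx
  have hx1 := hx.trans_lt hr
  let P : Haz.Pt p φ := ⟨pr x, small_of_lt (pr_lt φ pr hpr x hx1)⟩
  rw [approxF_eq φ hh hH x hx1, show lh (p := p) ρ h (ev H fun _ : Unit ↦ pr x) =
    lhHom p Ω ρ hh (hPt φ hH P) from rfl, ← map_sub, ← map_sub, lhHom_apply]
  refine hsmall _ ((norm_evH_le φ hH (lt_of_small ((p ^ N) • rootPt φ x hx1 N - P).small)).trans ?_)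
  rw [← (norm_sub_pt φ _ _).1, ← prSeq_eq φ (rootPt φ x hx1 N) N x rfl]
  exact hN x hx

theorem hasSum_approxF (hh : 0 < h) (hH : IsFGHom ((Haz.law p n).map φ) (honda p h (intRing Ω)) H) (N : ℕ)
    (x : (intRing Ω)) (hx : ‖(x : Ω)‖ < 1) :
    HasSum (fun τ ↦ pz p Ω ρ N * coefC ρ h H (τ + (n * N : ℕ)) * tch ρ (pw (p := p) τ x))
      (approxF ρ h n N H x) := by
  have h1 := ((Equiv.addRight ((n * N : ℕ) : ℤ)).hasSum_iff).mpr
    (hasSum_coefC (ρ := ρ) φ hh hH (z := pw (p := p) (-((n * N : ℕ) : ℤ)) x) (norm_pw_lt hx _))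
  refine (h1.mul_left (pz p Ω ρ N)).congr_fun fun τ ↦ ?_
  simp only [Function.comp_apply, Equiv.coe_addRight]
  rw [← pw_add, add_neg_cancel_right, mul_assoc]

theorem approxF_cauchy (hh : 0 < h) (hH : IsFGHom ((Haz.law p n).map φ) (honda p h (intRing Ω)) H)
    (pr : (intRing Ω) → (intRing Ω))
    (hpr : ∀ r : ℝ, r < 1 → ∀ ε : ℝ, 0 < ε → ∀ᶠ N in atTop, ∀ x : (intRing Ω),
      ‖(x : Ω)‖ ≤ r → ‖((prSeq p n φ x N - pr x : (intRing Ω)) : Ω)‖ ≤ ε)
    (x : (intRing Ω)) (hx : ‖(x : Ω)‖ < 1) {ε : ℝ} (hε : 0 < ε) :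
    ∃ N₀ : ℕ, ∀ N ≥ N₀, ∀ M ≥ N₀, ∀ τ,
      ‖(pz p Ω ρ N * coefC ρ h H (τ + (n * N : ℕ)) -
        pz p Ω ρ M * coefC ρ h H (τ + (n * M : ℕ))) * tch ρ (pw (p := p) τ x)‖ ≤ ε := by
  obtain ⟨N₀, hN₀⟩ := eventually_atTop.mp (approxF_uniform (ρ := ρ) φ hh hH pr hpr hx hε)
  refine ⟨N₀, fun N hN M hM τ ↦ coef_bound
    (f := fun τ ↦ pz p Ω ρ N * coefC ρ h H (τ + (n * N : ℕ)) -
      pz p Ω ρ M * coefC ρ h H (τ + (n * M : ℕ))) (z := x)
    (S := fun c ↦ approxF ρ h n N H (c * x) - approxF ρ h n M H (c * x))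
    (fun c hc ↦ ?_) hε.le (fun c hc ↦ ?_) τ⟩
  · have hcx : ‖((c * x : (intRing Ω)) : Ω)‖ < 1 := by rwa [Subring.coe_mul, norm_mul, hc, one_mul]
    exact ((hasSum_approxF φ hh hH N _ hcx).sub (hasSum_approxF φ hh hH M _ hcx)).congr_fun
      fun τ ↦ sub_mul _ _ _
  · have hcx : ‖((c * x : (intRing Ω)) : Ω)‖ ≤ ‖(x : Ω)‖ := by
      rw [Subring.coe_mul, norm_mul, hc, one_mul]
    rw [show approxF ρ h n N H (c * x) - approxF ρ h n M H (c * x) =
      (approxF ρ h n N H (c * x) - lh ρ h (ev H fun _ : Unit ↦ pr (c * x))) +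
        -(approxF ρ h n M H (c * x) - lh ρ h (ev H fun _ : Unit ↦ pr (c * x))) by ring]
    refine (IsUltrametricDist.norm_add_le_max _ _).trans (max_le (hN₀ N hN _ hcx) ?_)
    rw [norm_neg]
    exact hN₀ M hM _ hcx

/-- The cover logarithm of `H ∘ pr` is a periodic Teichmüller series. -/
theorem exists_periodic (hh : 0 < h) (hH : IsFGHom ((Haz.law p n).map φ) (honda p h (intRing Ω)) H)
    (pr : (intRing Ω) → (intRing Ω))
    (hpr : ∀ r : ℝ, r < 1 → ∀ ε : ℝ, 0 < ε → ∀ᶠ N in atTop, ∀ x : (intRing Ω),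
      ‖(x : Ω)‖ ≤ r → ‖((prSeq p n φ x N - pr x : (intRing Ω)) : Ω)‖ ≤ ε) :
    ∃ Q : ℤ → BB p Ω ρ, (∀ τ, Q (τ - n) = pz p Ω ρ 1 * Q τ) ∧ ∀ x : (intRing Ω), ‖(x : Ω)‖ < 1 →
      ‖((pr x : (intRing Ω)) : Ω)‖ < 1 ∧
      HasSum (fun τ ↦ Q τ * tch ρ (pw (p := p) τ x)) (lh ρ h (ev H fun _ : Unit ↦ pr x)) := by
  have hprlt := pr_lt φ pr hpr
  have hunif := fun (r : ℝ) (hr : r < 1) (ε : ℝ) (hε : 0 < ε) ↦
    approxF_uniform (ρ := ρ) φ hh hH pr hpr hr hε
  have hsumN := hasSum_approxF (ρ := ρ) φ hh hH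
  have hclose := fun (x : (intRing Ω)) (hx : ‖(x : Ω)‖ < 1) (ε : ℝ) (hε : 0 < ε) ↦
    approxF_cauchy (ρ := ρ) φ hh hH pr hpr x hx hε
  obtain ⟨w, hw0, hw1⟩ := NormedField.exists_norm_lt Ω one_pos
  let x0 : (intRing Ω) := ⟨w, hw1.le⟩
  have hlim : ∀ τ : ℤ, ∃ a, Tendsto (fun N : ℕ ↦ pz p Ω ρ N * coefC ρ h H (τ + (n * N : ℕ)))
      atTop (𝓝 a) := by
    intro τ
    refine cauchySeq_tendsto_of_complete (Metric.cauchySeq_iff.mpr fun ε hε ↦ ?_)
    set c := ‖((pw (p := p) τ x0 : (intRing Ω)) : Ω)‖ with hc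
    have hcpos : 0 < c := by
      rw [hc, norm_pw]
      exact Real.rpow_pos_of_pos hw0 _
    obtain ⟨N₀, hN₀⟩ := hclose x0 hw1 (ε / 2 * c) (by positivity)
    refine ⟨N₀, fun N hN M hM ↦ ?_⟩
    have h1 := hN₀ N hN M hM τ
    rw [mul_comm, norm_tch_mul, ← hc, mul_comm (ε / 2)] at h1
    rw [dist_eq_norm]
    exact (le_of_mul_le_mul_left h1 hcpos).trans_lt (half_lt_self hε)
  choose Q hQ using hlim
  refine ⟨Q, fun τ ↦ ?_, fun x hx ↦ ⟨hprlt x hx, ?_⟩⟩
  · refine tendsto_nhds_unique ((hQ (τ - n)).comp (tendsto_add_atTop_nat 1))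
      (((hQ τ).const_mul (pz p Ω ρ 1)).congr fun N ↦ ?_)
    simp only [Function.comp_apply]
    rw [← mul_assoc, ← pz_add]
    congr 2
    · push_cast; ring
    · push_cast; ring
  have happ : ∀ ε : ℝ, 0 < ε → ∀ᶠ N : ℕ in atTop, ∀ τ,
      ‖(pz p Ω ρ N * coefC ρ h H (τ + (n * N : ℕ)) - Q τ) * tch ρ (pw (p := p) τ x)‖ ≤ ε := by
    intro ε hε
    obtain ⟨N₀, hN₀⟩ := hclose x hx ε hε
    filter_upwards [eventually_ge_atTop N₀] with N hN τ
    refine le_of_tendsto (((tendsto_const_nhds.sub (hQ τ)).mul_const _).norm) ?_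
    filter_upwards [eventually_ge_atTop N₀] with M hM
    exact hN₀ N hN M hM τ
  have hsm : Summable fun τ ↦ Q τ * tch ρ (pw (p := p) τ x) := by
    refine summable_of_tendsto ?_
    rw [tendsto_zero_iff_norm_tendsto_zero, Metric.tendsto_nhds]
    intro ε hε
    obtain ⟨N, hN⟩ := (happ (ε / 2) (half_pos hε)).exists
    filter_upwards [(tendsto_zero_iff_norm_tendsto_zero.mp
      (hsumN N x hx).summable.tendsto_cofinite_zero).eventually (gt_mem_nhds hε)] with τ hτ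
    rw [dist_zero_right, norm_norm]
    rw [show Q τ * tch ρ (pw (p := p) τ x) =
      pz p Ω ρ N * coefC ρ h H (τ + (n * N : ℕ)) * tch ρ (pw (p := p) τ x) +
        -((pz p Ω ρ N * coefC ρ h H (τ + (n * N : ℕ)) - Q τ) * tch ρ (pw (p := p) τ x)) by ring]
    refine (IsUltrametricDist.norm_add_le_max _ _).trans_lt (max_lt hτ ?_)
    rw [norm_neg]
    exact (hN τ).trans_lt (half_lt_self hε)
  have heq : ∑' τ, Q τ * tch ρ (pw (p := p) τ x) = lh ρ h (ev H fun _ : Unit ↦ pr x) := by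
    refine eq_of_norm_sub_eq_zero (le_antisymm (le_of_forall_pos_le_add fun ε hε ↦ ?_)
      (norm_nonneg _))
    obtain ⟨N, hN, hN'⟩ := ((hunif _ hx ε hε).and (happ ε hε)).exists
    have h1 := norm_le_of_hasSum hε.le ((hsumN N x hx).sub hsm.hasSum) fun τ ↦ by
      rw [← sub_mul]
      exact hN' τ
    rw [zero_add, show ∑' τ, Q τ * tch ρ (pw (p := p) τ x) - lh ρ h (ev H fun _ : Unit ↦ pr x) =
      -(approxF ρ h n N H x - ∑' τ, Q τ * tch ρ (pw (p := p) τ x)) +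
        (approxF ρ h n N H x - lh ρ h (ev H fun _ : Unit ↦ pr x)) by ring]
    refine (IsUltrametricDist.norm_add_le_max _ _).trans (max_le ?_ (hN x le_rfl))
    rw [norm_neg]
    exact h1
  exact heq ▸ hsm.hasSum

end Vale.Agent.P217.Indep
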