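import Vale.Agent.P217.Indep.Typical
import Mathlib.LinearAlgebra.InvariantBasisNumber
import Mathlib.LinearAlgebra.Matrix.ToLinearEquiv

/-!
Reduced tuples in the lattice spanned by points of a Honda group.
-/

noncomputable section

namespace Vale.Agent.P217.Indep

open Finset

variable {p : ℕ} [hp : Fact p.Prime] {Ω : Type} [NontriviallyNormedField Ω] [IsUltrametricDist Ω]
  [GoodField p Ω] {n : ℕ}

variable (p Ω) in
/-- Points of the Honda group of height `n`. -/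
abbrev HPt (n : ℕ) : Type := Haz.Pt p (zeroSpec n (intRing Ω))

/-- The absolute value of a point. -/
def lv (x : HPt p Ω n) : ℝ := ‖((x.val : intRing Ω) : Ω)‖

theorem lv_nonneg (x : HPt p Ω n) : 0 ≤ lv x := norm_nonneg _

theorem lv_lt_one (x : HPt p Ω n) : lv x < 1 := lt_of_small x.small

theorem lv_neg (x : HPt p Ω n) : lv (-x) = lv x := by
  have h := (norm_sub_pt (p := p) (zeroSpec n (intRing Ω)) 0 x).1
  rw [zero_sub x, Haz.zero_val, zero_sub, NegMemClass.coe_neg, norm_neg] at h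
  exact h.symm

theorem lv_add_le {x y : HPt p Ω n} {r : ℝ} (hx : lv x ≤ r) (hy : lv y ≤ r) :
    lv (x + y) ≤ r := by
  have h := norm_addVal_le' (p := p) (zeroSpec n (intRing Ω)) (u := x.val) (v := y.val)
    (max_lt (lv_lt_one x) (lv_lt_one y)) (le_max_left _ _) (le_max_right _ _)
  exact h.trans (max_le hx hy)

theorem lv_sub_le {x y : HPt p Ω n} {r : ℝ} (hx : lv x ≤ r) (hy : lv y ≤ r) :
    lv (x - y) ≤ r := by
  rw [sub_eq_add_neg]
  exact lv_add_le hx ((lv_neg y).trans_le hy)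

variable (p Ω n) in
/-- The subgroup of points of absolute value at most `r`. -/
def ball (r : ℝ) (hr : 0 ≤ r) : AddSubgroup (HPt p Ω n) where
  carrier := {x | lv x ≤ r}
  add_mem' hx hy := lv_add_le hx hy
  zero_mem' := by simpa [lv, Haz.zero_val] using hr
  neg_mem' {x} hx := (lv_neg x).trans_le hx

theorem mem_ball {r : ℝ} {hr : 0 ≤ r} {x : HPt p Ω n} : x ∈ ball p Ω n r hr ↔ lv x ≤ r := Iff.rfl

theorem lv_zsum_le {ι : Type*} (s : Finset ι) (a : ι → ℤ) (x : ι → HPt p Ω n) {r : ℝ}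
    (hr : 0 ≤ r) (hx : ∀ i ∈ s, lv (x i) ≤ r) : lv (∑ i ∈ s, a i • x i) ≤ r :=
  (ball p Ω n r hr).sum_mem fun i hi ↦ (ball p Ω n r hr).zsmul_mem (hx i hi) _

theorem p_nsmul_eq (hn : 0 < n) (z : HPt p Ω n) : p • z = pwPt p Ω n (n : ℤ) z := by
  let ρ : Rad := ⟨1 / 2, one_half_pos, by norm_num⟩
  apply lhHom_injective (ρ := ρ) hn
  rw [map_nsmul, lhHom_apply, lhHom_apply, pwPt_val, nsmul_eq_mul]
  have h := lh_pw_mul (p := p) (ρ := ρ) hn 1 (z := z.val) (lt_of_small z.small)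
  rw [mul_one] at h
  rw [h, show (1 : ℤ) = ((1 : ℕ) : ℤ) from rfl, pz_nat, pow_one]

theorem pow_nsmul_eq (hn : 0 < n) (k : ℕ) (z : HPt p Ω n) :
    p ^ k • z = pwPt p Ω n ((n * k : ℕ) : ℤ) z := by
  induction k with
  | zero => exact Haz.Pt.ext (by simp [pwPt_val, pw_zero])
  | succ k ih =>
    rw [pow_succ', mul_smul, ih, p_nsmul_eq hn]
    refine Haz.Pt.ext ?_
    rw [pwPt_val, pwPt_val, pwPt_val, ← pw_add]
    congr 2
    push_cast
    ring

theorem lv_pow_nsmul (hn : 0 < n) (k : ℕ) (z : HPt p Ω n) :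
    lv (p ^ k • z) = lv z ^ p ^ (n * k) := by
  rw [pow_nsmul_eq hn, lv, pwPt_val, pw_nat, SubmonoidClass.coe_pow, norm_pow]
  rfl

theorem exists_root (hn : 0 < n) (k : ℕ) (z : HPt p Ω n) : ∃ w : HPt p Ω n, p ^ k • w = z := by
  refine ⟨pwPt p Ω n (-((n * k : ℕ) : ℤ)) z, Haz.Pt.ext ?_⟩
  rw [pow_nsmul_eq hn, pwPt_val, pwPt_val, ← pw_add, add_neg_cancel, pw_zero]

theorem pow_nsmul_injective (hn : 0 < n) (k : ℕ) :
    Function.Injective fun z : HPt p Ω n ↦ p ^ k • z := by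
  intro a b hab
  simp only [pow_nsmul_eq hn] at hab
  exact Haz.Pt.ext (pw_injective _ (congrArg Haz.Pt.val hab))

theorem norm_sum_lt {ι : Type*} (s : Finset ι) (f : ι → Ω) {r : ℝ} (hr : 0 < r)
    (h : ∀ i ∈ s, ‖f i‖ < r) : ‖∑ i ∈ s, f i‖ < r := by
  classical
  induction s using Finset.induction with
  | empty => simpa using hr
  | @insert a s ha ih =>
    rw [sum_insert ha]
    exact (IsUltrametricDist.norm_add_le_max _ _).trans_lt
      (max_lt (h a (mem_insert_self a s)) (ih fun i hi ↦ h i (mem_insert_of_mem hi)))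

/-- Formal combinations with natural coefficients agree with linear ones to first order. -/
theorem norm_nsum {ι : Type*} (s : Finset ι) (a : ι → ℕ) (x : ι → HPt p Ω n) {r : ℝ} (hr0 : 0 ≤ r)
    (hr : r < 1) (hx : ∀ i ∈ s, lv (x i) ≤ r) :
    lv (∑ i ∈ s, a i • x i) ≤ r ∧
      ‖(((∑ i ∈ s, a i • x i).val : intRing Ω) : Ω) - ∑ i ∈ s, (a i : Ω) * ((x i).val : Ω)‖ ≤
        r * r := by
  have h1 : ∀ i ∈ s, lv (a i • x i) ≤ r ∧
      ‖(((a i • x i).val : intRing Ω) : Ω) - (a i : Ω) * ((x i).val : Ω)‖ ≤ r * r := by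
    intro i hi
    have h2 := norm_sum_pt (p := p) (zeroSpec n (intRing Ω)) (range (a i)) (fun _ ↦ x i) hr hr0
      fun _ _ ↦ hx i hi
    rw [sum_const, card_range, sum_const, card_range, nsmul_eq_mul (a i) (x i).val,
      AddSubgroupClass.coe_sub, Subring.coe_mul] at h2
    exact ⟨h2.1, by simpa using h2.2⟩
  obtain ⟨h3, h4⟩ := norm_sum_pt (p := p) (zeroSpec n (intRing Ω)) s (fun i ↦ a i • x i) hr hr0
    fun i hi ↦ (h1 i hi).1
  refine ⟨h3, ?_⟩
  rw [AddSubgroupClass.coe_sub, AddSubmonoidClass.coe_finsetSum] at h4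
  have h5 : ‖∑ i ∈ s, ((((a i • x i).val : intRing Ω) : Ω) - (a i : Ω) * ((x i).val : Ω))‖ ≤
      r * r :=
    IsUltrametricDist.norm_sum_le_of_forall_le_of_nonneg (mul_nonneg hr0 hr0) fun i hi ↦
      (h1 i hi).2
  rw [sum_sub_distrib] at h5
  calc ‖(((∑ i ∈ s, a i • x i).val : intRing Ω) : Ω) - ∑ i ∈ s, (a i : Ω) * ((x i).val : Ω)‖
      = ‖((((∑ i ∈ s, a i • x i).val : intRing Ω) : Ω) -
            ∑ i ∈ s, (((a i • x i).val : intRing Ω) : Ω)) +
          (∑ i ∈ s, (((a i • x i).val : intRing Ω) : Ω) -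
            ∑ i ∈ s, (a i : Ω) * ((x i).val : Ω))‖ := by congr 1; ring
    _ ≤ _ := (IsUltrametricDist.norm_add_le_max _ _).trans (max_le h4 h5)

/-- The members of each level have independent leading parts. -/
def Reduced {m : ℕ} (x : Fin m → HPt p Ω n) : Prop :=
  ∀ (a : Fin m → ℕ) (r : ℝ), (∃ j, lv (x j) = r ∧ ¬ p ∣ a j) →
    ‖∑ j ∈ univ.filter (fun j ↦ lv (x j) = r), (a j : Ω) * ((x j).val : Ω)‖ = r

/-- The saturation of the subgroup spanned by a tuple. -/
def satSpan {d : ℕ} (y : Fin d → HPt p Ω n) : AddSubgroup (HPt p Ω n) where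
  carrier := {v | ∃ (e : ℕ) (a : Fin d → ℤ), p ^ e • v = ∑ k, a k • y k}
  add_mem' := by
    rintro v w ⟨e, a, ha⟩ ⟨f, b, hb⟩
    refine ⟨e + f, fun k ↦ (p : ℤ) ^ f * a k + (p : ℤ) ^ e * b k, ?_⟩
    have h1 : ∀ (g : ℕ) (t : Fin d → ℤ),
        ∑ k, ((p : ℤ) ^ g * t k) • y k = p ^ g • ∑ k, t k • y k := fun g t ↦ by
      rw [smul_sum]
      refine sum_congr rfl fun k _ ↦ ?_
      rw [← Nat.cast_pow, mul_smul, natCast_zsmul]
    simp only [add_smul, sum_add_distrib]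
    rw [h1, h1, ← ha, ← hb, ← mul_smul, ← mul_smul, ← pow_add, ← pow_add, add_comm f e, smul_add]
  zero_mem' := ⟨0, 0, by simp⟩
  neg_mem' := by
    rintro v ⟨e, a, ha⟩
    exact ⟨e, -a, by simp [ha]⟩

variable {d : ℕ} {y : Fin d → HPt p Ω n}

theorem mem_satSpan {v : HPt p Ω n} :
    v ∈ satSpan y ↔ ∃ (e : ℕ) (a : Fin d → ℤ), p ^ e • v = ∑ k, a k • y k := Iff.rfl

theorem self_mem_satSpan (k : Fin d) : y k ∈ satSpan y := by
  classical
  refine mem_satSpan.mpr ⟨0, Pi.single k 1, ?_⟩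
  simp [Pi.single_apply, Finset.sum_ite_eq', ite_smul]

theorem root_mem_satSpan (k : ℕ) {v w : HPt p Ω n} (hv : v ∈ satSpan y) (hw : p ^ k • w = v) :
    w ∈ satSpan y := by
  obtain ⟨e, a, ha⟩ := hv
  exact ⟨e + k, a, by rw [pow_add, mul_smul, hw, ha]⟩

/-- A family which is in the span, in the shell, and reduced. -/
def IsGood (y : Fin d → HPt p Ω n) (c : ℝ) {m : ℕ} (x : Fin m → HPt p Ω n) : Prop :=
  (∀ j, x j ∈ satSpan y ∧ c ^ p ^ n < lv (x j) ∧ lv (x j) ≤ c) ∧ Reduced x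

theorem good_step {c : ℝ} (hc0 : 0 ≤ c) {m : ℕ} {x : Fin m → HPt p Ω n} (hx : IsGood y c x)
    (hmax : ∀ x' : Fin (m + 1) → HPt p Ω n, ¬ IsGood y c x') {v : HPt p Ω n}
    (hv : v ∈ satSpan y) (hlo : c ^ p ^ n < lv v) (hhi : lv v ≤ c) :
    (∃ j, lv (x j) = lv v) ∧ ∃ a : Fin m → ℕ, lv (v - ∑ j, a j • x j) < lv v := by
  classical
  have hvpos : 0 < lv v := lt_of_le_of_lt (pow_nonneg hc0 _) hlo
  have h1 : ¬ Reduced (Fin.snoc x v) := fun hR ↦ hmax _
    ⟨fun j ↦ by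
      induction j using Fin.lastCases with
      | last => simp [hv, hlo, hhi]
      | cast j => simpa using hx.1 j, hR⟩
  simp only [Reduced, not_forall] at h1
  obtain ⟨a, r, ⟨j0, hj0, haj0⟩, hne⟩ := h1
  rw [sum_filter, Fin.sum_univ_castSucc] at hne
  simp only [Fin.snoc_castSucc, Fin.snoc_last, ← sum_filter] at hne
  set aold : Fin m → ℕ := fun j ↦ a j.castSucc with haold
  set av := a (Fin.last m)
  by_cases hcase : lv v = r ∧ ¬ p ∣ av
  swap
  · have hz : (if lv v = r then (av : Ω) * ((v.val : intRing Ω) : Ω) else 0) = 0 := by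
      split_ifs with hvr
      · rw [(CharP.cast_eq_zero_iff Ω p av).mpr (not_not.mp fun hn' ↦ hcase ⟨hvr, hn'⟩), zero_mul]
      · rfl
    rw [hz, add_zero] at hne
    refine absurd (hx.2 aold r ?_) hne
    induction j0 using Fin.lastCases with
    | last =>
      simp only [Fin.snoc_last] at hj0
      exact absurd ⟨hj0, haj0⟩ hcase
    | cast j =>
      simp only [Fin.snoc_castSucc] at hj0
      exact ⟨j, hj0, haj0⟩
  obtain ⟨hvr, hav⟩ := hcase
  subst hvr
  rw [if_pos rfl] at hne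
  set old := univ.filter (fun j ↦ lv (x j) = lv v) with hold
  set S : Ω := ∑ j ∈ old, (aold j : Ω) * ((x j).val : Ω) with hS
  set V : Ω := ((v.val : intRing Ω) : Ω)
  have hV : ‖V‖ = lv v := rfl
  have hcast : ∀ i : ℕ, ‖(i : Ω)‖ ≤ 1 := fun i ↦ (i : intRing Ω).2
  have hterm : ∀ j ∈ old, ‖(aold j : Ω) * ((x j).val : Ω)‖ ≤ lv v := fun j hj ↦ by
    rw [norm_mul]
    exact (mul_le_of_le_one_left (norm_nonneg _) (hcast _)).trans_eq (mem_filter.mp hj).2
  have hlt : ‖S + (av : Ω) * V‖ < lv v := by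
    refine lt_of_le_of_ne ((IsUltrametricDist.norm_add_le_max _ _).trans (max_le ?_ ?_)) hne
    · exact IsUltrametricDist.norm_sum_le_of_forall_le_of_nonneg hvpos.le hterm
    · rw [norm_mul]
      exact (mul_le_of_le_one_left (norm_nonneg _) (hcast _)).trans_eq hV
  obtain ⟨b, hb⟩ : ∃ b : ℕ, ((b : ℕ) : Ω) * (av : Ω) = 1 := by
    refine ⟨((av : ZMod p)⁻¹).val, ?_⟩
    have hne0 : (av : ZMod p) ≠ 0 := by
      rwa [Ne, CharP.cast_eq_zero_iff (ZMod p) p]
    rw [← Nat.cast_mul, ← Nat.cast_one (R := Ω), CharP.natCast_eq_natCast Ω p,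
      ← ZMod.natCast_eq_natCast_iff]
    push_cast
    rw [ZMod.natCast_val, ZMod.cast_id, inv_mul_cancel₀ hne0]
  have hVS : ‖(b : Ω) * S + V‖ < lv v := by
    have : (b : Ω) * (S + (av : Ω) * V) = (b : Ω) * S + V := by
      rw [mul_add, ← mul_assoc, hb, one_mul]
    rw [← this, norm_mul]
    exact (mul_le_of_le_one_left (norm_nonneg _) (hcast _)).trans_lt hlt
  refine ⟨?_, fun j ↦ if lv (x j) = lv v then (p - 1) * b * aold j else 0, ?_⟩
  · by_contra hno
    have hempty : old = ∅ := filter_eq_empty_iff.mpr fun j _ hj ↦ hno ⟨j, hj⟩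
    rw [hS, hempty, sum_empty, mul_zero, zero_add, hV] at hVS
    exact lt_irrefl _ hVS
  · have hsum : (∑ j, (if lv (x j) = lv v then (p - 1) * b * aold j else 0) • x j) =
        ∑ j ∈ old, ((p - 1) * b * aold j) • x j := by
      simp only [ite_smul, zero_smul, hold, sum_filter]
    rw [hsum]
    obtain ⟨hle, hlin⟩ := norm_nsum old (fun j ↦ (p - 1) * b * aold j) x hvpos.le (lv_lt_one v)
      fun j hj ↦ (mem_filter.mp hj).2.le
    set P := ∑ j ∈ old, ((p - 1) * b * aold j) • x j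
    have hlin' : ‖((P.val : intRing Ω) : Ω) + (b : Ω) * S‖ ≤ lv v * lv v := by
      have hs : ∑ j ∈ old, (((p - 1) * b * aold j : ℕ) : Ω) * ((x j).val : Ω) = -((b : Ω) * S) := by
        rw [hS, mul_sum, ← sum_neg_distrib]
        refine sum_congr rfl fun j _ ↦ ?_
        rw [Nat.cast_mul, Nat.cast_mul, Nat.cast_sub hp.out.one_le, CharP.cast_eq_zero, Nat.cast_one]
        ring
      rw [hs, sub_neg_eq_add] at hlin
      exact hlin
    show lv (v - P) < lv v
    rw [lv, ← (norm_sub_pt (p := p) (zeroSpec n (intRing Ω)) v P).1, AddSubgroupClass.coe_sub,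
      show V - ((P.val : intRing Ω) : Ω) = ((b : Ω) * S + V) +
        -(((P.val : intRing Ω) : Ω) + (b : Ω) * S) by ring]
    refine (IsUltrametricDist.norm_add_le_max _ _).trans_lt (max_lt hVS ?_)
    rw [norm_neg]
    exact hlin'.trans_lt (mul_lt_of_lt_one_left hvpos (lv_lt_one v))

theorem good_reduce {c : ℝ} (hc0 : 0 ≤ c) {m : ℕ} {x : Fin m → HPt p Ω n} (hx : IsGood y c x)
    (hmax : ∀ x' : Fin (m + 1) → HPt p Ω n, ¬ IsGood y c x') (v : HPt p Ω n)
    (hv : v ∈ satSpan y) (hhi : lv v ≤ c) :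
    ∃ a : Fin m → ℤ, lv (v - ∑ j, a j • x j) ≤ c ^ p ^ n := by
  classical
  obtain ⟨K, hK⟩ : ∃ K, (univ.filter fun j ↦ lv (x j) ≤ lv v).card = K := ⟨_, rfl⟩
  induction K using Nat.strong_induction_on generalizing v with
  | _ K ih =>
    by_cases hlo : c ^ p ^ n < lv v
    · obtain ⟨⟨j, hj⟩, a, ha⟩ := good_step hc0 hx hmax hv hlo hhi
      set v' := v - ∑ j, a j • x j
      have hmem : v' ∈ satSpan y :=
        sub_mem hv (sum_mem fun j _ ↦ nsmul_mem (hx.1 j).1 _)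
      have hcard : (univ.filter fun i ↦ lv (x i) ≤ lv v').card < K := by
        rw [← hK]
        refine card_lt_card ((ssubset_iff_of_subset ?_).mpr ⟨j, ?_, ?_⟩)
        · exact fun i hi ↦ mem_filter.mpr ⟨mem_univ i, (mem_filter.mp hi).2.trans ha.le⟩
        · exact mem_filter.mpr ⟨mem_univ j, hj.le⟩
        · simp only [mem_filter, mem_univ, true_and, not_le, hj]
          exact ha
      obtain ⟨b, hb⟩ := ih _ hcard v' hmem (ha.le.trans hhi) rfl
      refine ⟨fun j ↦ (a j : ℤ) + b j, ?_⟩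
      simp only [add_smul, natCast_zsmul, sum_add_distrib, ← sub_sub]
      exact hb
    · exact ⟨0, by simpa using not_lt.mp hlo⟩

theorem good_reduce_pow (hn : 0 < n) {c : ℝ} (hc0 : 0 ≤ c) {m : ℕ} {x : Fin m → HPt p Ω n}
    (hx : IsGood y c x) (hmax : ∀ x' : Fin (m + 1) → HPt p Ω n, ¬ IsGood y c x') (N : ℕ)
    (v : HPt p Ω n) (hv : v ∈ satSpan y) (hhi : lv v ≤ c) :
    ∃ a : Fin m → ℤ, lv (v - ∑ j, a j • x j) ≤ c ^ p ^ (n * N) := by
  induction N with
  | zero => exact ⟨0, by simpa using hhi⟩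
  | succ N ih =>
    obtain ⟨a, ha⟩ := ih
    set w := v - ∑ j, a j • x j with hw
    obtain ⟨w', hw'⟩ := exists_root hn N w
    have hmem : w' ∈ satSpan y :=
      root_mem_satSpan N (sub_mem hv (sum_mem fun j _ ↦ zsmul_mem (hx.1 j).1 _)) hw'
    have hle : lv w' ≤ c := by
      have h1 := lv_pow_nsmul hn N w'
      rw [hw'] at h1
      exact (pow_le_pow_iff_left₀ (lv_nonneg _) hc0 (pow_ne_zero _ hp.out.ne_zero)).mp (h1 ▸ ha)
    obtain ⟨b, hb⟩ := good_reduce hc0 hx hmax w' hmem hle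
    refine ⟨fun j ↦ a j + (p : ℤ) ^ N * b j, ?_⟩
    have heq : v - ∑ j, (a j + (p : ℤ) ^ N * b j) • x j = p ^ N • (w' - ∑ j, b j • x j) := by
      simp only [add_smul, mul_smul, sum_add_distrib, ← smul_sum, ← Nat.cast_pow, natCast_zsmul,
        smul_sub, hw', hw]
      abel
    rw [heq, lv_pow_nsmul hn, Nat.mul_succ, pow_add, mul_comm (p ^ (n * N)), pow_mul c]
    exact pow_le_pow_left₀ (lv_nonneg _) hb _

theorem good_indep (hn : 0 < n) {c : ℝ} (hc0 : 0 ≤ c) (hc : c < 1) {m : ℕ}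
    {x : Fin m → HPt p Ω n} (hx : IsGood y c x) (a : Fin m → ℤ) (ha : ∃ j, ¬ (p : ℤ) ∣ a j) :
    c ^ p ^ n < lv (∑ j, a j • x j) := by
  classical
  have hp0 : (0 : ℤ) < p := by exact_mod_cast hp.out.pos
  set r : Fin m → ℕ := fun j ↦ (a j % (p : ℤ)).toNat with hr
  set b : Fin m → ℤ := fun j ↦ a j / (p : ℤ) with hb
  have hab : ∀ j, a j = (r j : ℤ) + (p : ℤ) * b j := fun j ↦ by
    simp only [hr, hb, Int.toNat_of_nonneg (Int.emod_nonneg _ hp0.ne')]
    exact (Int.emod_add_mul_ediv _ _).symm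
  have hrlt : ∀ j, r j < p := fun j ↦ by
    have := Int.emod_lt_of_pos (a j) hp0
    simp only [hr]
    omega
  set T := univ.filter fun j ↦ r j ≠ 0 with hT
  have hTne : T.Nonempty := by
    obtain ⟨j, hj⟩ := ha
    refine ⟨j, mem_filter.mpr ⟨mem_univ j, fun h0 ↦ hj ?_⟩⟩
    rw [hab j, h0, Nat.cast_zero, zero_add]
    exact dvd_mul_right _ _
  obtain ⟨j0, hj0, hmaxj⟩ := exists_max_image T (fun j ↦ lv (x j)) hTne
  set R := lv (x j0) with hR
  have hRpos : 0 < R := lt_of_le_of_lt (pow_nonneg hc0 _) (hx.1 j0).2.1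
  obtain ⟨hle, hlin⟩ := norm_nsum T r x hRpos.le (lv_lt_one _) hmaxj
  have hlead := hx.2 r R ⟨j0, rfl, fun hd ↦ (mem_filter.mp hj0).2
    (Nat.eq_zero_of_dvd_of_lt hd (hrlt j0))⟩
  have hlow : ‖∑ j ∈ univ.filter (fun j ↦ ¬ lv (x j) = R), (r j : Ω) * ((x j).val : Ω)‖ < R := by
    refine norm_sum_lt _ _ hRpos fun j hj ↦ ?_
    by_cases h0 : r j = 0
    · simpa [h0] using hRpos
    · rw [norm_mul]
      refine (mul_le_of_le_one_left (norm_nonneg _) ((r j : intRing Ω)).2).trans_lt ?_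
      exact lt_of_le_of_ne (hmaxj j (mem_filter.mpr ⟨mem_univ j, h0⟩)) (mem_filter.mp hj).2
  have hlin0 : ‖∑ j ∈ T, (r j : Ω) * ((x j).val : Ω)‖ = R := by
    have hsub : ∑ j ∈ T, (r j : Ω) * ((x j).val : Ω) = ∑ j, (r j : Ω) * ((x j).val : Ω) :=
      sum_subset (subset_univ _) fun j _ hj ↦ by
        simp only [hT, mem_filter, mem_univ, true_and, not_not] at hj
        simp [hj]
    rw [hsub, ← sum_filter_add_sum_filter_not univ (fun j ↦ lv (x j) = R),
      IsUltrametricDist.norm_add_eq_max_of_norm_ne_norm (by rw [hlead]; exact hlow.ne'),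
      hlead, max_eq_left hlow.le]
  have hlv : lv (∑ j ∈ T, r j • x j) = R := by
    set P := ∑ j ∈ T, r j • x j
    have hlt : ‖((P.val : intRing Ω) : Ω) - ∑ j ∈ T, (r j : Ω) * ((x j).val : Ω)‖ <
        ‖∑ j ∈ T, (r j : Ω) * ((x j).val : Ω)‖ := by
      rw [hlin0]
      exact hlin.trans_lt (mul_lt_of_lt_one_left hRpos (lv_lt_one _))
    rw [lv, show ((P.val : intRing Ω) : Ω) =
      (((P.val : intRing Ω) : Ω) - ∑ j ∈ T, (r j : Ω) * ((x j).val : Ω)) +
        ∑ j ∈ T, (r j : Ω) * ((x j).val : Ω) by ring,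
      IsUltrametricDist.norm_add_eq_max_of_norm_ne_norm hlt.ne, max_eq_right hlt.le, hlin0]
  have hsum : ∑ j, a j • x j = ∑ j ∈ T, r j • x j + p ^ 1 • ∑ j, b j • x j := by
    rw [sum_subset (subset_univ T) fun j _ hj ↦ by
      simp only [hT, mem_filter, mem_univ, true_and, not_not] at hj
      simp [hj], smul_sum, ← sum_add_distrib]
    refine sum_congr rfl fun j _ ↦ ?_
    rw [hab j, add_smul, natCast_zsmul, mul_smul, natCast_zsmul, pow_one]
  have hsmall : lv (p ^ 1 • ∑ j, b j • x j) ≤ c ^ p ^ n := by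
    rw [lv_pow_nsmul hn, mul_one]
    exact pow_le_pow_left₀ (lv_nonneg _)
      (lv_zsum_le _ _ _ hc0 fun j _ ↦ (hx.1 j).2.2) _
  by_contra hcon
  rw [not_lt] at hcon
  have := lv_sub_le hcon hsmall
  rw [hsum, add_sub_cancel_right, hlv] at this
  exact absurd this (not_le.mpr (hx.1 j0).2.1)

theorem exists_primitive_kernel {d m : ℕ} (hdm : m < d) (A : Fin d → Fin m → ℤ) :
    ∃ a : Fin d → ℤ, (∃ k, ¬ (p : ℤ) ∣ a k) ∧ ∀ j, ∑ k, a k * A k j = 0 := by
  classical
  let f : (Fin d → ℤ) →ₗ[ℤ] (Fin m → ℤ) :=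
    { toFun := fun a j ↦ ∑ k, a k * A k j
      map_add' := fun a b ↦ by funext j; simp [add_mul, sum_add_distrib]
      map_smul' := fun c a ↦ by funext j; simp [mul_sum, mul_assoc] }
  have hex : ∃ a : Fin d → ℤ, a ≠ 0 ∧ f a = 0 := by
    by_contra hnone
    push Not at hnone
    have hinj : Function.Injective f := (injective_iff_map_eq_zero f).mpr fun a ha ↦ by
      by_contra hne
      exact hnone a hne ha
    exact absurd (le_of_fin_injective ℤ f hinj) (not_le.mpr hdm)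
  obtain ⟨a0, ha0, hfa0⟩ := hex
  have hmin : ∀ (S : ℕ) (a : Fin d → ℤ), ∑ k, (a k).natAbs = S → a ≠ 0 → f a = 0 →
      ∃ a : Fin d → ℤ, (∃ k, ¬ (p : ℤ) ∣ a k) ∧ ∀ j, ∑ k, a k * A k j = 0 := by
    intro S
    induction S using Nat.strong_induction_on with
    | _ S ih =>
      intro a hS hne hfa
      by_cases hk : ∃ k, ¬ (p : ℤ) ∣ a k
      · exact ⟨a, hk, fun j ↦ congrFun hfa j⟩
      push Not at hk
      choose b hb using hk
      have hab : a = (p : ℤ) • b := funext fun k ↦ by simp [hb k]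
      have hpz : (p : ℤ) ≠ 0 := by exact_mod_cast hp.out.ne_zero
      have hfb : f b = 0 := by
        rw [hab, map_smul] at hfa
        exact (smul_eq_zero.mp hfa).resolve_left hpz
      have hbne : b ≠ 0 := fun h0 ↦ hne (by rw [hab, h0, smul_zero])
      refine ih _ ?_ b rfl hbne hfb
      rw [← hS]
      obtain ⟨k0, hk0⟩ := Function.ne_iff.mp hbne
      refine sum_lt_sum (fun k _ ↦ ?_) ⟨k0, mem_univ k0, ?_⟩
      · rw [hb k, Int.natAbs_mul, Int.natAbs_natCast]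
        exact Nat.le_mul_of_pos_left _ hp.out.pos
      · rw [hb k0, Int.natAbs_mul, Int.natAbs_natCast]
        exact lt_mul_of_one_lt_left (Int.natAbs_pos.mpr hk0) hp.out.one_lt
  exact hmin _ a0 rfl ha0 hfa0

/-- A reduced tuple commensurable with `y`. -/
theorem exists_reduced (hn : 0 < n) (hd : 0 < d)
    (hy : ∃ c > (0 : ℝ), ∀ a : Fin d → ℤ, (∃ j, ¬ (p : ℤ) ∣ a j) → c ≤ lv (∑ j, a j • y j)) :
    ∃ (x : Fin d → HPt p Ω n) (c : ℝ) (E : ℕ) (M : Matrix (Fin d) (Fin d) ℤ),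
      0 < c ∧ c < 1 ∧ (∀ j, c ^ p ^ n < lv (x j) ∧ lv (x j) ≤ c) ∧ Reduced x ∧ M.det ≠ 0 ∧
      ∀ j, p ^ E • x j = ∑ k, M j k • y k := by
  classical
  obtain ⟨c0, hc0, hlow⟩ := hy
  have hypos : ∀ k, 0 < lv (y k) := fun k ↦ by
    have h1 := hlow (Pi.single k 1) ⟨k, by
      simp only [Pi.single_eq_same]
      exact fun hd1 ↦ hp.out.ne_one (by
        have := Int.eq_one_of_dvd_one (by positivity) hd1
        exact_mod_cast this)⟩
    refine lt_of_lt_of_le hc0 (h1.trans_eq ?_)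
    congr 1
    simp [Pi.single_apply, Finset.sum_ite_eq', ite_smul]
  obtain ⟨k0, -, hk0⟩ := exists_max_image (univ : Finset (Fin d)) (fun k ↦ lv (y k))
    ⟨⟨0, hd⟩, mem_univ _⟩
  set c := lv (y k0)
  have hc1 : c < 1 := lv_lt_one _
  set m := Nat.findGreatest (fun m ↦ ∃ x : Fin m → HPt p Ω n, IsGood y c x) d with hm
  obtain ⟨x, hx⟩ : ∃ x : Fin m → HPt p Ω n, IsGood y c x :=
    Nat.findGreatest_spec (P := fun m ↦ ∃ x : Fin m → HPt p Ω n, IsGood y c x) (Nat.zero_le d)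
      ⟨Fin.elim0, fun j ↦ j.elim0, fun a r ⟨j, _⟩ ↦ j.elim0⟩
  have hmd : m = d := by
    by_contra hne
    have hlt : m < d := lt_of_le_of_ne (Nat.findGreatest_le d) hne
    have hmax : ∀ x' : Fin (m + 1) → HPt p Ω n, ¬ IsGood y c x' := fun x' hx' ↦
      Nat.findGreatest_is_greatest (P := fun m ↦ ∃ x : Fin m → HPt p Ω n, IsGood y c x)
        (Nat.lt_succ_self m) hlt ⟨x', hx'⟩
    obtain ⟨N, hN⟩ := exists_pow_lt_of_lt_one hc0 hc1
    have hNle : N ≤ p ^ (n * N) :=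
      ((Nat.le_mul_of_pos_left N hn).trans (Nat.lt_pow_self hp.out.one_lt).le)
    choose A hA using fun k ↦ good_reduce_pow hn (hypos k0).le hx hmax N (y k)
      (self_mem_satSpan k) (hk0 k (mem_univ k))
    obtain ⟨a, hap, haA⟩ := exists_primitive_kernel (p := p) hlt A
    have hrem : ∑ k, a k • y k = ∑ k, a k • (y k - ∑ j, A k j • x j) := by
      have hz : ∑ k, a k • ∑ j, A k j • x j = 0 := by
        simp only [smul_sum, ← mul_smul]
        rw [sum_comm]
        exact sum_eq_zero fun j _ ↦ by rw [← sum_smul, haA j, zero_smul]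
      simp only [smul_sub, sum_sub_distrib, hz, sub_zero]
    have h1 := (hlow a hap).trans_eq (congrArg lv hrem)
    have h2 := lv_zsum_le univ a (fun k ↦ y k - ∑ j, A k j • x j)
      (pow_nonneg (hypos k0).le _) fun k _ ↦ hA k
    exact absurd ((h1.trans h2).trans (pow_le_pow_of_le_one (hypos k0).le hc1.le hNle))
      (not_le.mpr hN)
  clear_value m
  subst hmd
  choose e a hea using fun j ↦ (hx.1 j).1
  set E := ∑ j, e j
  set M : Matrix (Fin m) (Fin m) ℤ :=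
    Matrix.of fun j k ↦ (p : ℤ) ^ (E - e j) * a j k with hM
  have hMx : ∀ j, p ^ E • x j = ∑ k, M j k • y k := by
    intro j
    have hle : e j ≤ E := single_le_sum (fun i _ ↦ Nat.zero_le _) (mem_univ j)
    conv_lhs => rw [← Nat.sub_add_cancel hle, pow_add, mul_smul, hea j]
    simp only [hM, Matrix.of_apply, mul_smul, ← smul_sum, ← Nat.cast_pow, natCast_zsmul]
  refine ⟨x, c, E, M, hypos k0, hc1, fun j ↦ (hx.1 j).2, hx.2, fun hdet ↦ ?_, hMx⟩
  obtain ⟨v, hv0, hvM⟩ := Matrix.exists_vecMul_eq_zero_iff.mpr hdet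
  have hzero : ∀ w : Fin m → ℤ, (∀ k, ∑ j, w j * M j k = 0) → ∑ j, w j • x j = 0 := by
    intro w hw
    refine pow_nsmul_injective hn E ?_
    simp only [smul_sum, smul_comm (p ^ E), hMx, smul_zero]
    simp only [smul_sum, ← mul_smul]
    rw [sum_comm]
    exact sum_eq_zero fun k _ ↦ by rw [← sum_smul, hw k, zero_smul]
  have hgen : ∀ (S : ℕ) (w : Fin m → ℤ), ∑ j, (w j).natAbs = S → w ≠ 0 →
      (∀ k, ∑ j, w j * M j k = 0) → False := by
    intro S
    induction S using Nat.strong_induction_on with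
    | _ S ih =>
      intro w hS hne hw
      by_cases hk : ∃ j, ¬ (p : ℤ) ∣ w j
      · have h1 := good_indep hn (hypos k0).le hc1 hx w hk
        rw [hzero w hw] at h1
        simp only [lv, Haz.zero_val, ZeroMemClass.coe_zero, norm_zero] at h1
        exact absurd h1 (not_lt.mpr (pow_nonneg (hypos k0).le _))
      push Not at hk
      choose b hb using hk
      have hpz : (p : ℤ) ≠ 0 := by exact_mod_cast hp.out.ne_zero
      have hbne : b ≠ 0 := fun h0 ↦ hne (funext fun j ↦ by rw [hb j, h0]; simp)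
      refine ih _ ?_ b rfl hbne fun k ↦ ?_
      · rw [← hS]
        obtain ⟨j0, hj0⟩ := Function.ne_iff.mp hbne
        refine sum_lt_sum (fun j _ ↦ ?_) ⟨j0, mem_univ j0, ?_⟩
        · rw [hb j, Int.natAbs_mul, Int.natAbs_natCast]
          exact Nat.le_mul_of_pos_left _ hp.out.pos
        · rw [hb j0, Int.natAbs_mul, Int.natAbs_natCast]
          exact lt_mul_of_one_lt_left (Int.natAbs_pos.mpr hj0) hp.out.one_lt
      · have h1 := hw k
        simp only [hb, mul_assoc, ← mul_sum] at h1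
        exact (mul_eq_zero.mp h1).resolve_left hpz
  exact hgen _ v rfl hv0 fun k ↦ congrFun hvM k

end Vale.Agent.P217.Indep
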