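import Vale.Agent.P217.Indep.Witt

/-!
The completed ring of lifts `WI` (closure of `W(O)`), its residue map to `O`, and congruences.
-/

noncomputable section

namespace Vale.Agent.P217.Indep

open WittVector Filter
open scoped Topology

variable {p : ℕ} [hp : Fact p.Prime] {Ω : Type} [NontriviallyNormedField Ω] [IsUltrametricDist Ω]
  [GoodField p Ω]

variable (p Ω) in
/-- `W(O)` with its Gauss norm. -/
def WN (_ρ : Rad) : Type := WittVector p (intRing Ω)

variable {ρ : Rad}

namespace WN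

instance : CommRing (WN p Ω ρ) := inferInstanceAs (CommRing (WittVector p (intRing Ω)))

/-- The norm as a group norm. -/
def groupNorm : AddGroupNorm (WN p Ω ρ) where
  toFun x := ν ρ (x : (WittVector p (intRing Ω)))
  map_zero' := ν_zero ρ
  add_le' x y := (ν_add ρ x y).trans (max_le_add_of_nonneg (ν_nonneg ρ _) (ν_nonneg ρ _))
  neg' x := ν_neg ρ x
  eq_zero_of_map_eq_zero' _ h := ν_eq_zero ρ h

instance : NormedCommRing (WN p Ω ρ) :=
  { AddGroupNorm.toNormedAddCommGroup (groupNorm (p := p) (Ω := Ω) (ρ := ρ)),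
    (inferInstance : CommRing (WN p Ω ρ)) with
    norm_mul_le := fun x y ↦ ν_mul ρ x y }

instance : IsUltrametricDist (WN p Ω ρ) :=
  IsUltrametricDist.isUltrametricDist_of_forall_norm_add_le_max_norm (ν_add ρ)

theorem norm_def (x : WN p Ω ρ) : ‖x‖ = ν ρ (x : (WittVector p (intRing Ω))) := rfl

end WN

variable (p Ω) in
/-- The completion of `W(O)`. -/
abbrev WI (ρ : Rad) : Type := UniformSpace.Completion (WN p Ω ρ)

instance : IsUltrametricDist (WI p Ω ρ) := by
  refine IsUltrametricDist.isUltrametricDist_of_forall_norm_add_le_max_norm fun x y ↦ ?_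
  induction x, y using UniformSpace.Completion.induction_on₂ with
  | hp => exact isClosed_le (by fun_prop) (by fun_prop)
  | ih a b =>
    rw [← UniformSpace.Completion.coe_add]
    simp only [UniformSpace.Completion.norm_coe]
    exact IsUltrametricDist.norm_add_le_max a b

theorem norm_WI_le_one (x : WI p Ω ρ) : ‖x‖ ≤ 1 := by
  induction x using UniformSpace.Completion.induction_on with
  | hp => exact isClosed_le continuous_norm continuous_const
  | ih a =>
    rw [UniformSpace.Completion.norm_coe, WN.norm_def]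
    exact ν_le_one ρ _

/-- The ideal of elements of norm at most `r`. -/
def WI.normIdeal (r : ℝ) (hr : 0 ≤ r) : Ideal (WI p Ω ρ) where
  carrier := {x | ‖x‖ ≤ r}
  add_mem' {x y} hx hy := (IsUltrametricDist.norm_add_le_max x y).trans (max_le hx hy)
  zero_mem' := by simpa using hr
  smul_mem' c x hx := (norm_mul_le c x).trans
    ((mul_le_mul (norm_WI_le_one c) hx (norm_nonneg _) zero_le_one).trans_eq (one_mul r))

instance : IsLinearTopology (WI p Ω ρ) (WI p Ω ρ) := by
  refine IsLinearTopology.mk_of_hasBasis (p := fun r : ℝ ↦ 0 < r)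
    (s := fun r ↦ if hr : 0 ≤ r then WI.normIdeal (p := p) (Ω := Ω) (ρ := ρ) r hr else ⊤)
    (WI p Ω ρ) ?_
  refine (Metric.nhds_basis_closedBall (α := WI p Ω ρ) (x := 0)).congr (fun r ↦ Iff.rfl)
    fun r hr ↦ ?_
  rw [dif_pos hr.le]
  ext x
  simp [WI.normIdeal, dist_eq_norm]

instance : CLRing (WI p Ω ρ) where

/-- The inclusion before completion. -/
def jPre : WN p Ω ρ →+* BB p Ω ρ := incB ρ

theorem continuous_jPre : Continuous (jPre (p := p) (Ω := Ω) (ρ := ρ)) :=
  AddMonoidHomClass.continuous_of_bound (jPre (p := p) (Ω := Ω) (ρ := ρ)) 1 fun x ↦ by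
    rw [one_mul]
    exact (norm_incB (ρ := ρ) (x : (WittVector p (intRing Ω)))).le

variable (ρ) in
/-- The inclusion into `BB`. -/
def jB : WI p Ω ρ →+* BB p Ω ρ :=
  UniformSpace.Completion.extensionHom jPre continuous_jPre

theorem jB_coe (x : WN p Ω ρ) : jB ρ (x : WI p Ω ρ) = incB ρ (x : (WittVector p (intRing Ω))) :=
  UniformSpace.Completion.extensionHom_coe _ _ _

theorem continuous_jB : Continuous (jB (p := p) (Ω := Ω) ρ) :=
  UniformSpace.Completion.continuous_extension

theorem norm_jB (x : WI p Ω ρ) : ‖jB ρ x‖ = ‖x‖ := by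
  induction x using UniformSpace.Completion.induction_on with
  | hp => exact isClosed_eq (continuous_norm.comp continuous_jB) continuous_norm
  | ih a =>
    rw [jB_coe, UniformSpace.Completion.norm_coe, WN.norm_def]
    exact norm_incB _

/-- The residue map before completion. -/
def resPre : WN p Ω ρ →+* (intRing Ω) := WittVector.constantCoeff

theorem continuous_resPre : Continuous (resPre (p := p) (Ω := Ω) (ρ := ρ)) := by
  refine AddMonoidHomClass.continuous_of_bound (resPre (p := p) (Ω := Ω) (ρ := ρ)) 1 fun x ↦ ?_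
  rw [one_mul]
  exact νk_le_ν ρ 0 (x : (WittVector p (intRing Ω)))

variable (ρ) in
/-- The residue map. -/
def res : WI p Ω ρ →+* (intRing Ω) := UniformSpace.Completion.extensionHom resPre continuous_resPre

theorem res_coe (x : WN p Ω ρ) : res ρ (x : WI p Ω ρ) = (x : (WittVector p (intRing Ω))).coeff 0 :=
  UniformSpace.Completion.extensionHom_coe _ _ _

theorem continuous_res : Continuous (res (p := p) (Ω := Ω) ρ) :=
  UniformSpace.Completion.continuous_extension

variable (ρ) in
/-- The Teichmüller map into `WI`. -/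
def tW : (intRing Ω) →* WI p Ω ρ :=
  MonoidHom.comp (UniformSpace.Completion.coeRingHom (α := WN p Ω ρ)).toMonoidHom
    (show (intRing Ω) →* WN p Ω ρ from teichmuller p)

theorem tW_eq (a : (intRing Ω)) :
    tW (p := p) ρ a = ((show WN p Ω ρ from teichmuller p a) : WI p Ω ρ) := rfl

theorem jB_tW (a : (intRing Ω)) : jB ρ (tW (p := p) ρ a) = tch ρ a := jB_coe _

theorem res_tW (a : (intRing Ω)) : res ρ (tW (p := p) ρ a) = a :=
  (res_coe _).trans (teichmuller_coeff_zero p a)

theorem norm_tW (a : (intRing Ω)) : ‖tW (p := p) ρ a‖ = ‖(a : Ω)‖ := by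
  rw [← norm_jB, jB_tW, norm_tch]

theorem tW_zero : tW (p := p) ρ (0 : (intRing Ω)) = 0 := norm_le_zero_iff.mp (by simp [norm_tW])

theorem norm_res_le (x : WI p Ω ρ) : ‖((res ρ x : (intRing Ω)) : Ω)‖ ≤ ‖x‖ := by
  induction x using UniformSpace.Completion.induction_on with
  | hp =>
    have h : Continuous fun x : WI p Ω ρ ↦ ((res ρ x : (intRing Ω)) : Ω) :=
      (continuous_subtype_val (p := fun y : Ω ↦ y ∈ intRing Ω)).comp
        (continuous_res (p := p) (Ω := Ω) (ρ := ρ))
    exact isClosed_le (continuous_norm.comp h) continuous_norm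
  | ih a =>
    rw [res_coe, UniformSpace.Completion.norm_coe, WN.norm_def]
    exact νk_le_ν ρ 0 (a : (WittVector p (intRing Ω)))

theorem norm_teich_sub_le (a b : (intRing Ω)) :
    ‖tch (p := p) ρ (a + b) - (tch ρ a + tch ρ b)‖ ≤ ρ.val * max ‖(a : Ω)‖ ‖(b : Ω)‖ := by
  obtain ⟨m, z, hm, hz⟩ := teich_add (p := p) a b
  have h := congrArg (incB ρ) hz
  rw [map_add, map_add] at h
  have h' : tch (p := p) ρ (a + b) - (tch ρ a + tch ρ b) =
      -incB ρ ((p : (WittVector p (intRing Ω))) * (teichmuller p m * z)) := by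
    show incB ρ (teichmuller p (a + b)) -
      (incB ρ (teichmuller p a) + incB ρ (teichmuller p b)) = _
    rw [h]
    ring
  rw [h', norm_neg, norm_incB, ν_p_mul, ν_teich_mul]
  refine mul_le_mul_of_nonneg_left ?_ ρ.pos.le
  calc ‖(m : Ω)‖ * ν ρ z ≤ ‖(m : Ω)‖ * 1 :=
        mul_le_mul_of_nonneg_left (ν_le_one ρ z) (norm_nonneg _)
    _ ≤ _ := by rw [mul_one]; exact hm

theorem norm_tch_sub_le (a b : (intRing Ω)) :
    ‖tch (p := p) ρ a - tch ρ b‖ ≤ max ρ.val ‖((a - b : (intRing Ω)) : Ω)‖ := by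
  have h2 := norm_teich_sub_le (p := p) (ρ := ρ) (a - b) b
  rw [sub_add_cancel] at h2
  calc ‖tch (p := p) ρ a - tch ρ b‖
      = ‖(tch ρ a - (tch ρ (a - b) + tch ρ b)) + tch (p := p) ρ (a - b)‖ := by
        congr 1; ring
    _ ≤ max ‖tch (p := p) ρ a - (tch ρ (a - b) + tch ρ b)‖ ‖tch (p := p) ρ (a - b)‖ :=
        IsUltrametricDist.norm_add_le_max _ _
    _ ≤ _ := max_le_max (h2.trans (mul_le_of_le_one_right ρ.pos.le
        (max_le (a - b).2 b.2))) (norm_tch _).le

/-- An element of `WI` is congruent to the lift of its residue. -/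
theorem norm_sub_tch_res (x : WI p Ω ρ) : ‖jB ρ x - tch ρ (res ρ x)‖ ≤ ρ.val := by
  obtain ⟨a, ha⟩ := UniformSpace.Completion.denseRange_coe.exists_dist_lt x ρ.pos
  rw [dist_eq_norm] at ha
  have h1 : ‖jB ρ (a : WI p Ω ρ) - tch ρ (res ρ (a : WI p Ω ρ))‖ ≤ ρ.val := by
    rw [jB_coe, res_coe]
    show ‖incB ρ (a : (WittVector p (intRing Ω))) - incB ρ (teichmuller p ((a : (WittVector p (intRing Ω))).coeff 0))‖ ≤ ρ.val
    conv_lhs => rw [← decomp (a : (WittVector p (intRing Ω))), coeff_zero_comb, map_add, add_sub_cancel_left]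
    rw [norm_incB, ν_p_mul]
    exact mul_le_of_le_one_right ρ.pos.le (ν_le_one ρ _)
  have h2 : ‖jB ρ x - jB ρ (a : WI p Ω ρ)‖ ≤ ρ.val := by
    rw [← map_sub, norm_jB]
    exact ha.le
  have h3 : ‖tch (p := p) ρ (res ρ (a : WI p Ω ρ)) - tch ρ (res ρ x)‖ ≤ ρ.val := by
    refine (norm_tch_sub_le _ _).trans (max_le le_rfl ?_)
    rw [← map_sub]
    refine (norm_res_le _).trans ?_
    rw [← norm_neg, neg_sub]
    exact ha.le
  calc ‖jB ρ x - tch ρ (res ρ x)‖
      = ‖((jB ρ x - jB ρ (a : WI p Ω ρ)) + (jB ρ (a : WI p Ω ρ) - tch ρ (res ρ (a : WI p Ω ρ))))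
          + (tch (p := p) ρ (res ρ (a : WI p Ω ρ)) - tch ρ (res ρ x))‖ := by
        congr 1; ring
    _ ≤ _ := (IsUltrametricDist.norm_add_le_max _ _).trans
        (max_le ((IsUltrametricDist.norm_add_le_max _ _).trans (max_le h2 h1)) h3)

end Vale.Agent.P217.Indep
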