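import Vale.Agent.P217.Indep.LogV
import Mathlib.Analysis.SpecialFunctions.Pow.Continuity

/-!
The logarithm of the universal cover of a Honda group with values in `BB`.
-/

noncomputable section

namespace Vale.Agent.P217.Indep

open Filter Finset
open scoped Topology

variable {p : ℕ} [hp : Fact p.Prime] {Ω : Type} [NontriviallyNormedField Ω] [IsUltrametricDist Ω]
  [GoodField p Ω] {ρ : Rad}

/-- A finite sum of monomials has norm at least that of each monomial. -/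
theorem le_norm_monos (S : Finset ℤ) (c : ℤ → (intRing Ω)) {k : ℤ} (hk : k ∈ S) :
    ρ.val ^ k * ‖(c k : Ω)‖ ≤ ‖∑ j ∈ S, pz p Ω ρ j * tch ρ (c j)‖ := by
  classical
  obtain ⟨k0, hk0⟩ : ∃ k0, ∀ j ∈ S, k0 ≤ j := ⟨S.min' ⟨k, hk⟩, fun j hj ↦ S.min'_le j hj⟩
  obtain ⟨K, hK⟩ : ∃ K : ℕ, ∀ j ∈ S, j < k0 + K := by
    refine ⟨(S.sup fun j ↦ (j - k0).toNat) + 1, fun j hj ↦ ?_⟩
    have : (j - k0).toNat ≤ S.sup fun j : ℤ ↦ (j - k0).toNat :=
      Finset.le_sup (f := fun j : ℤ ↦ (j - k0).toNat) hj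
    omega
  let c' : ℕ → (intRing Ω) := fun i ↦ if k0 + i ∈ S then c (k0 + i) else 0
  have hsum : ∑ j ∈ S, pz p Ω ρ j * tch ρ (c j) = pz p Ω ρ k0 *
      incB ρ (∑ i ∈ range K, (p : WittVector p (intRing Ω)) ^ i * WittVector.teichmuller p (c' i)) := by
    rw [map_sum, mul_sum]
    have h1 : ∀ i ∈ range K, pz p Ω ρ k0 *
        incB ρ ((p : WittVector p (intRing Ω)) ^ i * WittVector.teichmuller p (c' i)) =
        if k0 + (i : ℤ) ∈ S then pz p Ω ρ (k0 + i) * tch ρ (c (k0 + i)) else 0 := by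
      intro i _
      rw [map_mul, map_pow, map_natCast, ← pz_nat, ← mul_assoc, ← pz_add]
      show pz p Ω ρ (k0 + i) * tch ρ (c' i) = _
      simp only [c']
      split_ifs
      · rfl
      · rw [tch_zero, mul_zero]
    rw [sum_congr rfl h1, ← sum_filter]
    refine sum_bij' (fun j _ ↦ (j - k0).toNat) (fun i _ ↦ k0 + (i : ℤ)) ?_ ?_ ?_ ?_ ?_
    · intro j hj
      have := hk0 j hj
      have := hK j hj
      simp only [mem_filter, mem_range]
      refine ⟨by omega, ?_⟩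
      convert hj using 1
      omega
    · intro i hi
      exact (mem_filter.mp hi).2
    · intro j hj
      have := hk0 j hj
      omega
    · intro i _
      omega
    · intro j hj
      have := hk0 j hj
      congr <;> omega
  obtain ⟨i, hi⟩ : ∃ i : ℕ, k = k0 + i := ⟨(k - k0).toNat, by have := hk0 k hk; omega⟩
  have := hK k hk
  have hle := le_ν_sum (ρ := ρ) K c' i (by omega)
  rw [hsum, norm_pz_mul, norm_incB, hi, zpow_add₀ ρ.pos.ne', zpow_natCast, mul_assoc]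
  refine mul_le_mul_of_nonneg_left (le_trans (le_of_eq ?_) hle) (zpow_nonneg ρ.pos.le _)
  simp only [c', ← hi, if_pos hk]

/-- A term of the cover logarithm. -/
def lterm (ρ : Rad) (h : ℕ) (z : (intRing Ω)) (k : ℤ) : BB p Ω ρ :=
  pz p Ω ρ (-k) * tch ρ (pw (p := p) ((h : ℤ) * k) z)

/-- The cover logarithm `∑_k p^(-k) [z^(p^(h k))]`. -/
def lh (ρ : Rad) (h : ℕ) (z : (intRing Ω)) : BB p Ω ρ := ∑' k, lterm (p := p) ρ h z k

theorem norm_lterm (h : ℕ) (z : (intRing Ω)) (k : ℤ) : ‖lterm (p := p) ρ h z k‖ =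
    (ρ.val ^ k)⁻¹ * ‖(z : Ω)‖ ^ ((p : ℝ) ^ ((h : ℤ) * k)) := by
  rw [lterm, norm_pz_mul, norm_tch, norm_pw, zpow_neg]

theorem rpow_le_one' (z : (intRing Ω)) (t : ℤ) : ‖(z : Ω)‖ ^ ((p : ℝ) ^ t) ≤ 1 :=
  Real.rpow_le_one (norm_nonneg _) z.2 (zpow_nonneg (Nat.cast_nonneg p) _)

theorem norm_lterm_neg_le (h : ℕ) (z : (intRing Ω)) (j : ℕ) :
    ‖lterm (p := p) ρ h z (-(j : ℤ))‖ ≤ ρ.val ^ j := by
  rw [norm_lterm, zpow_neg, inv_inv, zpow_natCast]
  exact mul_le_of_le_one_right (pow_nonneg ρ.pos.le _) (rpow_le_one' z _)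

theorem norm_lterm_nat_le {h : ℕ} (hh : 0 < h) (z : (intRing Ω)) (j : ℕ) :
    ‖lterm (p := p) ρ h z (j : ℤ)‖ ≤ (ρ.val⁻¹) ^ j * ‖(z : Ω)‖ ^ p ^ j := by
  rw [norm_lterm, zpow_natCast, inv_pow]
  refine mul_le_mul_of_nonneg_left ?_ (inv_nonneg.mpr (pow_nonneg ρ.pos.le _))
  rw [show (h : ℤ) * (j : ℤ) = ((h * j : ℕ) : ℤ) by push_cast; ring, zpow_natCast,
    ← Nat.cast_pow, Real.rpow_natCast]
  exact pow_le_pow_of_le_one (norm_nonneg _) z.2
    (Nat.pow_le_pow_right hp.out.pos (Nat.le_mul_of_pos_left j hh))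

theorem tendsto_lterm {h : ℕ} (hh : 0 < h) {z : (intRing Ω)} (hz : ‖(z : Ω)‖ < 1) :
    Tendsto (lterm (p := p) ρ h z) cofinite (𝓝 0) := by
  rw [Int.cofinite_eq, tendsto_sup]
  constructor
  · have h1 : Tendsto (fun j : ℕ ↦ lterm (p := p) ρ h z (-(j : ℤ))) atTop (𝓝 0) :=
      squeeze_zero_norm (norm_lterm_neg_le h z)
        (tendsto_pow_atTop_nhds_zero_of_lt_one ρ.pos.le ρ.lt_one)
    have h2 : Tendsto (fun k : ℤ ↦ (-k).toNat) atBot atTop :=
      tendsto_atTop.mpr fun b ↦ eventually_atBot.mpr ⟨-(b : ℤ), fun k hk ↦ by omega⟩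
    refine (h1.comp h2).congr' ?_
    filter_upwards [eventually_le_atBot (0 : ℤ)] with k hk
    simp only [Function.comp_apply]
    congr
    omega
  · have h1 : Tendsto (fun j : ℕ ↦ lterm (p := p) ρ h z (j : ℤ)) atTop (𝓝 0) :=
      squeeze_zero_norm (norm_lterm_nat_le hh z)
        (tendsto_gauge (inv_nonneg.mpr ρ.pos.le) (norm_nonneg _) hz)
    have h2 : Tendsto (fun k : ℤ ↦ k.toNat) atTop atTop :=
      tendsto_atTop.mpr fun b ↦ eventually_atTop.mpr ⟨(b : ℤ), fun k hk ↦ by omega⟩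
    refine (h1.comp h2).congr' ?_
    filter_upwards [eventually_ge_atTop (0 : ℤ)] with k hk
    simp only [Function.comp_apply]
    congr
    omega

theorem hasSum_lh {h : ℕ} (hh : 0 < h) {z : (intRing Ω)} (hz : ‖(z : Ω)‖ < 1) :
    HasSum (lterm (p := p) ρ h z) (lh ρ h z) :=
  (summable_of_tendsto (tendsto_lterm hh hz)).hasSum

/-- All terms of the cover logarithm of a small element are small. -/
theorem lterm_small {h : ℕ} (hh : 0 < h) (ρ : Rad) {ε : ℝ} (hε : 0 < ε) :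
    ∃ δ > (0 : ℝ), δ < 1 ∧ ∀ z : (intRing Ω), ‖(z : Ω)‖ ≤ δ →
      ∀ k, ‖lterm (p := p) ρ h z k‖ ≤ ε := by
  obtain ⟨J, hJ⟩ := exists_pow_lt_of_lt_one hε ρ.lt_one
  refine ⟨min (min ρ.val ε) (ε ^ ((p : ℝ) ^ (h * J))), lt_min (lt_min ρ.pos hε)
    (Real.rpow_pos_of_pos hε _),
    ((min_le_left _ _).trans (min_le_left _ _)).trans_lt ρ.lt_one, fun z hz k ↦ ?_⟩
  obtain ⟨j, rfl | rfl⟩ := Int.eq_nat_or_neg k
  · refine (norm_lterm_nat_le hh z j).trans ?_
    obtain ⟨t, ht⟩ : ∃ t, p ^ j = t + 1 := Nat.exists_eq_add_of_le' (Nat.one_le_pow _ _ hp.out.pos)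
    have hjt : j ≤ t := by
      have := Nat.lt_pow_self (n := j) hp.out.one_lt
      omega
    rw [ht, pow_succ, ← mul_assoc]
    calc (ρ.val⁻¹) ^ j * ‖(z : Ω)‖ ^ t * ‖(z : Ω)‖ ≤ 1 * ε := by
          refine mul_le_mul ?_ (hz.trans ((min_le_left _ _).trans (min_le_right _ _)))
            (norm_nonneg _) zero_le_one
          rw [inv_pow, inv_mul_le_one₀ (pow_pos ρ.pos _)]
          exact (pow_le_pow_of_le_one (norm_nonneg _) z.2 hjt).trans
            (pow_le_pow_left₀ (norm_nonneg _)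
              (hz.trans ((min_le_left _ _).trans (min_le_left _ _))) j)
      _ = ε := one_mul ε
  · by_cases hjJ : J ≤ j
    · exact (norm_lterm_neg_le h z j).trans
        ((pow_le_pow_of_le_one ρ.pos.le ρ.lt_one.le hjJ).trans hJ.le)
    · rw [norm_lterm, zpow_neg, inv_inv, zpow_natCast]
      refine (mul_le_of_le_one_left (Real.rpow_nonneg (norm_nonneg _) _)
        (pow_le_one₀ ρ.pos.le ρ.lt_one.le)).trans ?_
      have he : ((p : ℝ) ^ (h * J))⁻¹ ≤ (p : ℝ) ^ ((h : ℤ) * -(j : ℤ)) := by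
        rw [show (h : ℤ) * -(j : ℤ) = -((h * j : ℕ) : ℤ) by push_cast; ring, zpow_neg,
          zpow_natCast]
        exact inv_anti₀ (pow_pos (Nat.cast_pos.mpr hp.out.pos) _)
          (pow_le_pow_right₀ (Nat.one_le_cast.mpr hp.out.one_le)
            (Nat.mul_le_mul_left h (not_le.mp hjJ).le))
      rcases eq_or_lt_of_le (norm_nonneg (z : Ω)) with h0 | h0
      · rw [← h0, Real.zero_rpow (zpow_ne_zero _ (Nat.cast_ne_zero.mpr hp.out.ne_zero))]
        exact hε.le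
      · refine (Real.rpow_le_rpow_of_exponent_ge h0 z.2 he).trans ?_
        calc ‖(z : Ω)‖ ^ ((p : ℝ) ^ (h * J))⁻¹
            ≤ (ε ^ ((p : ℝ) ^ (h * J))) ^ ((p : ℝ) ^ (h * J))⁻¹ :=
              Real.rpow_le_rpow (norm_nonneg _) (hz.trans (min_le_right _ _))
                (inv_nonneg.mpr (pow_nonneg (Nat.cast_nonneg p) _))
          _ = ε := by
              rw [← Real.rpow_mul hε.le, mul_inv_cancel₀
                (pow_ne_zero _ (Nat.cast_ne_zero.mpr hp.out.ne_zero)), Real.rpow_one]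

/-- The cover logarithm is continuous at zero. -/
theorem lh_small {h : ℕ} (hh : 0 < h) (ρ : Rad) {ε : ℝ} (hε : 0 < ε) :
    ∃ δ > (0 : ℝ), δ < 1 ∧ ∀ z : (intRing Ω), ‖(z : Ω)‖ ≤ δ → ‖lh (p := p) ρ h z‖ ≤ ε := by
  obtain ⟨δ, hδ, hδ1, hk⟩ := lterm_small (p := p) (Ω := Ω) hh ρ hε
  exact ⟨δ, hδ, hδ1, fun z hz ↦
    norm_le_of_hasSum hε.le (hasSum_lh hh (hz.trans_lt hδ1)) (hk z hz)⟩

theorem lh_eq_zero {h : ℕ} (hh : 0 < h) {z : (intRing Ω)} (hz : ‖(z : Ω)‖ < 1)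
    (h0 : lh (p := p) ρ h z = 0) : z = 0 := by
  classical
  by_contra hne
  have hzpos : 0 < ‖(z : Ω)‖ := norm_pos_iff.mpr fun h' ↦ hne (Subtype.ext h')
  set v := ‖lterm (p := p) ρ h z 0‖ with hv
  have hvpos : 0 < v := by
    rw [hv, norm_lterm]
    exact mul_pos (inv_pos.mpr (zpow_pos ρ.pos _)) (Real.rpow_pos_of_pos hzpos _)
  have hfin : {k : ℤ | ¬ ‖lterm (p := p) ρ h z k‖ < v / 2}.Finite :=
    (tendsto_zero_iff_norm_tendsto_zero.mp (tendsto_lterm hh hz)).eventually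
      (gt_mem_nhds (half_pos hvpos))
  set S := hfin.toFinset with hS
  have hmem : ∀ k, k ∈ S ↔ ¬ ‖lterm (p := p) ρ h z k‖ < v / 2 := fun k ↦
    hfin.mem_toFinset
  have hsum : HasSum (fun k ↦ if k ∈ S then 0 else lterm (p := p) ρ h z k)
      (0 - ∑ k ∈ S, lterm (p := p) ρ h z k) := by
    have h1 := hasSum_lh (ρ := ρ) hh hz
    rw [h0] at h1
    have h2 : HasSum (fun k ↦ if k ∈ S then lterm (p := p) ρ h z k else 0)
        (∑ k ∈ S, lterm (p := p) ρ h z k) := by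
      have := hasSum_sum_of_ne_finset_zero (L := SummationFilter.unconditional ℤ)
        (f := fun k ↦ if k ∈ S then lterm (p := p) ρ h z k else 0) (s := S)
        (fun k hk ↦ if_neg hk)
      simpa [sum_congr rfl fun k hk ↦ if_pos hk] using this
    refine (h1.sub h2).congr_fun fun k ↦ ?_
    split_ifs <;> simp
  have h3 : ‖(0 : BB p Ω ρ) - ∑ k ∈ S, lterm ρ h z k‖ ≤ v / 2 := by
    refine norm_le_of_hasSum (half_pos hvpos).le hsum fun k ↦ ?_
    split_ifs with hk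
    · simpa using (half_pos hvpos).le
    · exact (not_not.mp (mt (hmem k).mpr hk)).le
  rw [zero_sub, norm_neg] at h3
  have h4 : v ≤ ‖∑ k ∈ S, lterm (p := p) ρ h z k‖ := by
    have h0S : (0 : ℤ) ∈ S := (hmem 0).mpr (by linarith)
    have := le_norm_monos (p := p) (ρ := ρ) (S.image Neg.neg)
      (fun j ↦ pw (p := p) ((h : ℤ) * -j) z) (k := 0) (mem_image.mpr ⟨0, h0S, neg_zero⟩)
    rw [sum_image fun a _ b _ hab ↦ neg_injective hab] at this
    simp only [neg_neg, neg_zero] at this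
    refine le_trans ?_ this
    rw [hv, norm_lterm, norm_pw]
    simp
  linarith

theorem continuous_pw (m : ℤ) : Continuous (pw (p := p) (Ω := Ω) m) := by
  refine continuous_of_continuousAt_zero (pw (p := p) (Ω := Ω) m).toAddMonoidHom ?_
  show Tendsto (fun z : (intRing Ω) ↦ pw (p := p) m z) (𝓝 0) (𝓝 (pw (p := p) m 0))
  rw [map_zero, tendsto_zero_iff_norm_tendsto_zero]
  have h1 : Tendsto (fun z : (intRing Ω) ↦ ‖(z : Ω)‖ ^ ((p : ℝ) ^ m)) (𝓝 0) (𝓝 0) := by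
    have h2 : Tendsto (fun z : (intRing Ω) ↦ ‖(z : Ω)‖) (𝓝 0) (𝓝 0) := by
      simpa [Function.comp_def] using (continuous_norm.comp continuous_subtype_val).tendsto (0 : (intRing Ω))
    have hpos : (0 : ℝ) < (p : ℝ) ^ m := zpow_pos (Nat.cast_pos.mpr hp.out.pos) m
    have h3 := h2.rpow_const (p := (p : ℝ) ^ m) (Or.inr hpos.le)
    rwa [Real.zero_rpow hpos.ne'] at h3
  exact h1.congr fun z ↦ (norm_pw m z).symm

theorem pw_comp_zeroSpec (h : ℕ) (m : ℤ) :
    (pw (p := p) (Ω := Ω) m).comp (zeroSpec h (intRing Ω)) = zeroSpec h (intRing Ω) := by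
  refine MvPolynomial.ringHom_ext (fun r ↦ ?_) fun i ↦ ?_
  · simp [zeroSpec]
  · simp [zeroSpec]

variable (p Ω) in
/-- Frobenius powers act on the points of a Honda group. -/
def pwPt (h : ℕ) (m : ℤ) : Haz.Pt p (zeroSpec h (intRing Ω)) →+ Haz.Pt p (zeroSpec h (intRing Ω)) :=
  mapPt' _ _ (continuous_pw m) (pw_comp_zeroSpec h m)

theorem pwPt_val (h : ℕ) (m : ℤ) (x : Haz.Pt p (zeroSpec h (intRing Ω))) :
    (pwPt p Ω h m x).val = pw (p := p) m x.val := rfl

theorem norm_pow_p_sub_le {a b : WI p Ω ρ} {e : ℝ} (he : e ≤ ρ.val) (hab : ‖a - b‖ ≤ e) :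
    ‖a ^ p - b ^ p‖ ≤ ρ.val * e := by
  have hpn : ‖(p : WI p Ω ρ)‖ ≤ ρ.val := by
    rw [← norm_jB, map_natCast, ← mul_one ((p : ℕ) : BB p Ω ρ), norm_p_mul]
    refine mul_le_of_le_one_right ρ.pos.le ?_
    rw [← map_one (jB (p := p) (Ω := Ω) ρ), norm_jB]
    exact norm_WI_le_one _
  have hg : ‖∑ i ∈ range p, a ^ i * b ^ (p - 1 - i)‖ ≤ ρ.val := by
    have h1 : ∑ i ∈ range p, a ^ i * b ^ (p - 1 - i) =
        ∑ i ∈ range p, (a ^ i - b ^ i) * b ^ (p - 1 - i) + (p : WI p Ω ρ) * b ^ (p - 1) := by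
      have h2 : ∀ i ∈ range p, a ^ i * b ^ (p - 1 - i) =
          (a ^ i - b ^ i) * b ^ (p - 1 - i) + b ^ (p - 1) := fun i hi ↦ by
        have h4 : i ≤ p - 1 := by simp only [mem_range] at hi; omega
        rw [sub_mul, ← pow_add, Nat.add_sub_cancel' h4, sub_add_cancel]
      rw [sum_congr rfl h2, sum_add_distrib, sum_const, card_range, nsmul_eq_mul]
    rw [h1]
    refine (IsUltrametricDist.norm_add_le_max _ _).trans (max_le ?_ ?_)
    · refine IsUltrametricDist.norm_sum_le_of_forall_le_of_nonneg ρ.pos.le fun i _ ↦ ?_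
      obtain ⟨w, hw⟩ := sub_dvd_pow_sub_pow a b i
      rw [hw, mul_assoc]
      exact (norm_mul_le _ _).trans ((mul_le_of_le_one_right (norm_nonneg _)
        (norm_WI_le_one _)).trans (hab.trans he))
    · exact (norm_mul_le _ _).trans ((mul_le_of_le_one_right (norm_nonneg _)
        (norm_WI_le_one _)).trans hpn)
  rw [← (Commute.all a b).geom_sum₂_mul]
  exact (norm_mul_le _ _).trans (mul_le_mul hg hab (norm_nonneg _) ρ.pos.le)

theorem norm_pow_sub_le {a b : WI p Ω ρ} (hab : ‖a - b‖ ≤ ρ.val) (j : ℕ) :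
    ‖a ^ p ^ j - b ^ p ^ j‖ ≤ ρ.val ^ (j + 1) := by
  induction j with
  | zero => simpa using hab
  | succ j ih =>
    rw [pow_succ p, pow_mul, pow_mul, pow_succ' ρ.val]
    exact norm_pow_p_sub_le (pow_le_of_le_one ρ.pos.le ρ.lt_one.le (by omega)) ih

theorem hasSum_logV_zero {h : ℕ} (hh : 0 < h) {x : WI p Ω ρ} (hx : ‖x‖ < 1) :
    HasSum (fun k : ℕ ↦ pz p Ω ρ (-(k : ℤ)) * jB ρ (x ^ p ^ (h * k)))
      (logV (zeroSpec h (WI p Ω ρ)) x) := by
  have h1 : HasSum (logTerm (zeroSpec h (WI p Ω ρ)) x) (logV (zeroSpec h (WI p Ω ρ)) x) :=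
    (summable_logTerm _ hx).hasSum
  have hinj : Function.Injective fun k : ℕ ↦ h * k := fun a b hab ↦
    Nat.eq_of_mul_eq_mul_left hh hab
  rw [← hinj.hasSum_iff (fun m hm ↦ by
    rw [logTerm, zeroSpec_dA hh, if_neg, zero_mul, map_zero, mul_zero]
    rintro ⟨k, rfl⟩
    exact hm ⟨k, rfl⟩)] at h1
  refine h1.congr_fun fun k ↦ ?_
  simp only [Function.comp_apply, logTerm, zeroSpec_dA hh, dvd_mul_right, if_pos,
    Nat.mul_div_cancel_left k hh, map_mul, map_pow, map_natCast]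
  rw [← pz_nat, ← mul_assoc, ← pz_add]
  congr 2
  have : k ≤ h * k := Nat.le_mul_of_pos_left k hh
  push_cast [Nat.cast_sub this]
  ring

/-- The cover logarithm is additive. -/
theorem lh_addVal {h : ℕ} (hh : 0 < h) {a b : (intRing Ω)} (ha : ‖(a : Ω)‖ < 1) (hb : ‖(b : Ω)‖ < 1) :
    lh (p := p) ρ h (Haz.addVal p (zeroSpec h (intRing Ω)) a b) = lh ρ h a + lh ρ h b := by
  set c := Haz.addVal p (zeroSpec h (intRing Ω)) a b with hc
  have hcn : ‖(c : Ω)‖ < 1 := isTopologicallyNilpotent_intRing.mp (Haz.addVal_small p _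
    (isTopologicallyNilpotent_intRing.mpr ha) (isTopologicallyNilpotent_intRing.mpr hb))
  let S : (intRing Ω) → ℕ → BB p Ω ρ := fun z N ↦
    pz p Ω ρ N * logV (zeroSpec h (WI p Ω ρ)) (tW ρ (pw (p := p) (-((h * N : ℕ) : ℤ)) z))
  have hnorm : ∀ (z : (intRing Ω)) (m : ℤ), ‖(z : Ω)‖ < 1 → ‖tW (p := p) ρ (pw (p := p) m z)‖ < 1 := by
    intro z m hz
    rw [norm_tW, norm_pw]
    exact Real.rpow_lt_one (norm_nonneg _) hz (zpow_pos (Nat.cast_pos.mpr hp.out.pos) _)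
  have hlim : ∀ z : (intRing Ω), ‖(z : Ω)‖ < 1 → Tendsto (S z) atTop (𝓝 (lh ρ h z)) := by
    intro z hz
    have hS : ∀ N : ℕ, HasSum (fun k : ℤ ↦ if -(N : ℤ) ≤ k then lterm (p := p) ρ h z k else 0)
        (S z N) := by
      intro N
      have h1 := (hasSum_logV_zero (ρ := ρ) hh (hnorm z (-((h * N : ℕ) : ℤ)) hz)).mul_left
        (pz p Ω ρ N)
      have hinj : Function.Injective fun k : ℕ ↦ (k : ℤ) - N := fun x y hxy ↦ by
        simpa using hxy
      refine (hinj.hasSum_iff fun k hk ↦ if_neg ?_).mp (h1.congr_fun fun k ↦ ?_)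
      · intro hk'
        exact hk ⟨(k + N).toNat, by simp only; omega⟩
      · simp only [Function.comp_apply]
        rw [if_pos (by omega), lterm, ← mul_assoc, ← pz_add, ← map_pow (tW (p := p) (Ω := Ω) ρ),
          jB_tW, ← pw_nat, ← pw_add]
        congr 2
        · ring
        · congr 1
          push_cast
          ring
    rw [tendsto_iff_norm_sub_tendsto_zero]
    refine squeeze_zero (fun N ↦ norm_nonneg _) (fun N ↦ ?_)
      (tendsto_pow_atTop_nhds_zero_of_lt_one ρ.pos.le ρ.lt_one)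
    refine norm_le_of_hasSum (pow_nonneg ρ.pos.le N) ((hS N).sub (hasSum_lh hh hz)) fun k ↦ ?_
    split_ifs with hk
    · simp [pow_nonneg ρ.pos.le N]
    · obtain ⟨j, rfl⟩ : ∃ j : ℕ, k = -(j : ℤ) := ⟨(-k).toNat, by omega⟩
      rw [zero_sub, norm_neg]
      exact (norm_lterm_neg_le h z j).trans (pow_le_pow_of_le_one ρ.pos.le ρ.lt_one.le (by omega))
  have hdiff : Tendsto (fun N ↦ S c N - (S a N + S b N)) atTop (𝓝 0) := by
    refine squeeze_zero_norm (fun N ↦ ?_) (tendsto_pow_atTop_nhds_zero_of_lt_one ρ.pos.le ρ.lt_one)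
    set m : ℤ := -((h * N : ℕ) : ℤ)
    set A := tW (p := p) ρ (pw (p := p) m a) with hA
    set B := tW (p := p) ρ (pw (p := p) m b) with hB
    have hA1 := hnorm a m ha
    have hB1 := hnorm b m hb
    set C := Haz.addVal p (zeroSpec h (WI p Ω ρ)) A B with hC
    have hC1 : ‖C‖ < 1 :=
      (norm_addVal_le _ (max_lt hA1 hB1) (le_max_left _ _) (le_max_right _ _)).trans_lt
        (max_lt hA1 hB1)
    have hres : res ρ C = pw (p := p) m c := by
      have hspec : (res ρ).comp (zeroSpec h (WI p Ω ρ)) = zeroSpec h (intRing Ω) := by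
        rw [← hatPhi_zeroSpec, res_hatPhi]
      let PA : Haz.Pt p (zeroSpec h (WI p Ω ρ)) := mkPt _ A hA1
      let PB : Haz.Pt p (zeroSpec h (WI p Ω ρ)) := mkPt _ B hB1
      have h1 := congrArg Haz.Pt.val
        ((mapPt' (p := p) _ _ continuous_res hspec).map_add PA PB)
      have h2 := congrArg Haz.Pt.val ((pwPt p Ω h m).map_add
        ⟨a, isTopologicallyNilpotent_intRing.mpr ha⟩ ⟨b, isTopologicallyNilpotent_intRing.mpr hb⟩)
      simp only [mapPt'_val, pwPt_val, Haz.add_val, PA, PB, mkPt, A, B, res_tW] at h1 h2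
      rw [hC, hc, h2]
      exact h1
    have hadd : logV (zeroSpec h (WI p Ω ρ)) C =
        logV (zeroSpec h (WI p Ω ρ)) A + logV (zeroSpec h (WI p Ω ρ)) B := logV_addVal _ hA1 hB1
    have hCT : ‖C - tW ρ (pw (p := p) m c)‖ ≤ ρ.val := by
      rw [← norm_jB, map_sub, jB_tW, ← hres]
      exact norm_sub_tch_res C
    have hle : ‖logV (zeroSpec h (WI p Ω ρ)) (tW ρ (pw (p := p) m c)) -
        logV (zeroSpec h (WI p Ω ρ)) C‖ ≤ 1 := by
      refine norm_le_of_hasSum zero_le_one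
        ((hasSum_logV_zero hh (hnorm c m hcn)).sub (hasSum_logV_zero hh hC1)) fun k ↦ ?_
      rw [← mul_sub, ← map_sub, norm_pz_mul, norm_jB, zpow_neg, zpow_natCast,
        inv_mul_le_one₀ (pow_pos ρ.pos _), norm_sub_rev]
      refine (norm_pow_sub_le hCT (h * k)).trans
        (pow_le_pow_of_le_one ρ.pos.le ρ.lt_one.le ?_)
      have : k ≤ h * k := Nat.le_mul_of_pos_left k hh
      omega
    simp only [S]
    rw [← mul_add, ← hadd, ← mul_sub, norm_pz_mul, zpow_natCast]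
    exact mul_le_of_le_one_right (pow_nonneg ρ.pos.le N) hle
  exact sub_eq_zero.mp
    (tendsto_nhds_unique ((hlim c hcn).sub ((hlim a ha).add (hlim b hb))) hdiff)

theorem lh_zero (h : ℕ) : lh (p := p) ρ h (0 : (intRing Ω)) = 0 := by
  simp [lh, lterm, tch_zero]

variable (p Ω) in
/-- The cover logarithm as a homomorphism. -/
def lhHom (ρ : Rad) {h : ℕ} (hh : 0 < h) : Haz.Pt p (zeroSpec h (intRing Ω)) →+ BB p Ω ρ where
  toFun x := lh ρ h x.val
  map_zero' := lh_zero h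
  map_add' x y := lh_addVal hh (isTopologicallyNilpotent_intRing.mp x.small)
    (isTopologicallyNilpotent_intRing.mp y.small)

theorem lhHom_apply {h : ℕ} (hh : 0 < h) (x : Haz.Pt p (zeroSpec h (intRing Ω))) :
    lhHom p Ω ρ hh x = lh ρ h x.val := rfl

theorem lhHom_injective {h : ℕ} (hh : 0 < h) :
    Function.Injective (lhHom p Ω ρ hh) :=
  (injective_iff_map_eq_zero _).mpr fun x hx ↦
    Haz.Pt.ext (lh_eq_zero hh (isTopologicallyNilpotent_intRing.mp x.small) hx)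

theorem lh_pw_mul {h : ℕ} (hh : 0 < h) (N : ℤ) {z : (intRing Ω)} (hz : ‖(z : Ω)‖ < 1) :
    lh (p := p) ρ h (pw (p := p) ((h : ℤ) * N) z) = pz p Ω ρ N * lh ρ h z := by
  have hz' : ‖((pw (p := p) ((h : ℤ) * N) z : (intRing Ω)) : Ω)‖ < 1 := by
    rw [norm_pw]
    exact Real.rpow_lt_one (norm_nonneg _) hz (zpow_pos (Nat.cast_pos.mpr hp.out.pos) _)
  refine (hasSum_lh hh hz').unique ?_
  have h1 := ((Equiv.addRight N).hasSum_iff (f := lterm (p := p) ρ h z)).mpr (hasSum_lh hh hz)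
  refine (h1.mul_left (pz p Ω ρ N)).congr_fun fun k ↦ ?_
  simp only [Function.comp_apply, Equiv.coe_addRight, lterm]
  rw [← mul_assoc, ← pz_add, ← pw_add]
  congr 2
  · ring
  · congr 1
    ring

end Vale.Agent.P217.Indep
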