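import Vale.Agent.P217.Indep.Lift
import Mathlib.Topology.Algebra.InfiniteSum.Nonarchimedean

/-!
Hazewinkel's logarithm evaluated on lifted points, and its additivity.
-/

noncomputable section

namespace Vale.Agent.P217.Indep

open Filter Finset
open scoped Topology

variable {p : ℕ} [hp : Fact p.Prime]

/-- `p^m ℓ_m` as an element of the parameter ring. -/
def dA (p n : ℕ) : ℕ → Haz.A n
  | 0 => 1
  | k + 1 => ∑ i : Fin (k + 1),
      (p : Haz.A n) ^ (i : ℕ) * dA p n (k - (i : ℕ)) * Haz.uA n ((i : ℕ) + 1) ^ p ^ (k - (i : ℕ))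

theorem dA_succ (n k : ℕ) : dA p n (k + 1) =
    ∑ i ∈ range (k + 1), (p : Haz.A n) ^ i * dA p n (k - i) * Haz.uA n (i + 1) ^ p ^ (k - i) := by
  rw [dA, Fin.sum_univ_eq_sum_range
    fun i ↦ (p : Haz.A n) ^ i * dA p n (k - i) * Haz.uA n (i + 1) ^ p ^ (k - i)]

theorem algebraMap_dA (n m : ℕ) :
    algebraMap (Haz.A n) (Haz.K n) (dA p n m) = (p : Haz.K n) ^ m * Haz.ell p n m := by
  induction m using Nat.strong_induction_on with
  | _ m ih =>
    rcases m with _ | k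
    · simp [dA, Haz.ell_zero]
    · rw [dA_succ, map_sum, pow_succ, mul_assoc, Haz.ell_succ, mul_sum]
      refine sum_congr rfl fun i hi ↦ ?_
      have hi' : i ≤ k := Nat.lt_succ_iff.mp (mem_range.mp hi)
      rw [map_mul, map_mul, map_pow, map_pow, map_natCast, ih _ (by omega), Haz.uK]
      calc (p : Haz.K n) ^ i * ((p : Haz.K n) ^ (k - i) * Haz.ell p n (k - i)) * _
          = (p : Haz.K n) ^ (i + (k - i)) * (Haz.ell p n (k - i) *
              algebraMap (Haz.A n) (Haz.K n) (Haz.uA n (i + 1)) ^ p ^ (k - i)) := by ring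
        _ = _ := by rw [Nat.add_sub_cancel' hi']

theorem zeroSpec_uA {h : ℕ} (R : Type*) [CommRing R] (i : ℕ) (hi : i ≠ 0) :
    zeroSpec h R (Haz.uA h i) = if i = h then 1 else 0 := by
  unfold Haz.uA zeroSpec
  split_ifs with h1 h2 <;> first | (exfalso; omega) | simp

theorem zeroSpec_dA {h : ℕ} (hh : 0 < h) (R : Type*) [CommRing R] (m : ℕ) :
    zeroSpec h R (dA p h m) = if h ∣ m then (p : R) ^ (m - m / h) else 0 := by
  induction m using Nat.strong_induction_on with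
  | _ m ih =>
    rcases m with _ | k
    · simp [dA]
    rw [dA_succ, map_sum]
    have hterm : ∀ i ∈ range (k + 1), zeroSpec h R
        ((p : Haz.A h) ^ i * dA p h (k - i) * Haz.uA h (i + 1) ^ p ^ (k - i)) =
        if i = h - 1 then (p : R) ^ i * zeroSpec h R (dA p h (k - i)) else 0 := by
      intro i _
      rw [map_mul, map_mul, map_pow, map_pow, map_natCast, zeroSpec_uA R _ (by omega)]
      by_cases hi : i = h - 1
      · rw [if_pos hi, if_pos (by omega), one_pow, mul_one]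
      · rw [if_neg hi, if_neg (by omega), zero_pow (pow_ne_zero _ hp.out.ne_zero), mul_zero]
    rw [sum_congr rfl hterm, sum_ite_eq']
    by_cases hk : h ≤ k + 1
    · rw [if_pos (mem_range.mpr (by omega)), ih _ (by omega)]
      obtain ⟨j, hj⟩ : ∃ j, k + 1 = j + h := ⟨k + 1 - h, by omega⟩
      rw [show k - (h - 1) = j by omega, hj]
      simp only [Nat.dvd_add_self_right]
      split_ifs with hdvd
      · rw [← pow_add, Nat.add_div_right _ hh]
        congr 1
        have := Nat.div_le_self j h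
        omega
      · rw [mul_zero]
    · rw [if_neg (by simp only [mem_range]; omega), if_neg]
      exact fun hd ↦ hk (Nat.le_of_dvd (by omega) hd)

/-- The truncated logarithm, cleared of denominators. -/
def PM (p n M : ℕ) {τ : Type*} (f : MvPowerSeries τ (Haz.A n)) : MvPowerSeries τ (Haz.A n) :=
  ∑ m ∈ range (M + 1), MvPowerSeries.C ((p : Haz.A n) ^ (M - m) * dA p n m) * f ^ p ^ m

theorem coeff_PM_law (n M : ℕ) (d : Fin 2 →₀ ℕ) (hd : d.degree < p ^ (M + 1)) :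
    MvPowerSeries.coeff d (PM p n M (Haz.law p n).toPowerSeries - PM p n M (MvPowerSeries.X 0) -
      PM p n M (MvPowerSeries.X 1)) = 0 := by
  classical
  set g := algebraMap (Haz.A n) (Haz.K n)
  have hcoe : ∀ f : MvPowerSeries (Fin 2) (Haz.A n), MvPowerSeries.constantCoeff f = 0 →
      g (MvPowerSeries.coeff d (PM p n M f)) =
        (p : Haz.K n) ^ M * MvPowerSeries.coeff d (Haz.logOf p n f) := by
    intro f hf
    have h0 := Haz.constantCoeff_mapK n hf
    rw [Haz.logOf, FESetting.coeff_subst_eq_sum (p := p) (Haz.setting p n).L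
      (Haz.setting p n).L_zero (Haz.setting p n).L_typ h0 (N := d.degree + M) le_self_add, PM,
      map_sum, map_sum, mul_sum]
    rw [← sum_subset (range_subset_range.mpr (by omega : M + 1 ≤ d.degree + M + 1))]
    · refine sum_congr rfl fun m hm ↦ ?_
      have hm' : m ≤ M := Nat.lt_succ_iff.mp (mem_range.mp hm)
      rw [MvPowerSeries.coeff_C_mul, map_mul, map_mul, map_pow, map_natCast, algebraMap_dA,
        ← MvPowerSeries.coeff_map, map_pow]
      show _ = _ * (PowerSeries.coeff (p ^ m) (Haz.logSeries p n) * _)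
      rw [Haz.coeff_logSeries]
      obtain ⟨j, rfl⟩ := Nat.exists_eq_add_of_le hm'
      rw [Nat.add_sub_cancel_left, pow_add]
      ring
    · intro m _ hm
      rw [FESetting.coeff_pow_eq_zero h0, mul_zero, mul_zero]
      refine lt_of_lt_of_le hd (Nat.pow_le_pow_right hp.out.pos ?_)
      simp only [mem_range] at hm
      omega
  apply IsFractionRing.injective (Haz.A n) (Haz.K n)
  show g _ = g 0
  rw [map_sub, map_sub, map_sub, map_sub, hcoe _ (Haz.law p n).zero_constantCoeff,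
    hcoe _ (MvPowerSeries.constantCoeff_X _), hcoe _ (MvPowerSeries.constantCoeff_X _), map_zero]
  have hsum := Haz.logOf_fsum p n (MvPowerSeries.constantCoeff_X (R := Haz.A n) (0 : Fin 2))
    (MvPowerSeries.constantCoeff_X (R := Haz.A n) (1 : Fin 2))
  have hid : Haz.fsum p n (MvPowerSeries.X (0 : Fin 2)) (MvPowerSeries.X 1) =
      (Haz.law p n).toPowerSeries := by
    rw [Haz.fsum]
    have h' : (![MvPowerSeries.X 0, MvPowerSeries.X 1] :
        Fin 2 → MvPowerSeries (Fin 2) (Haz.A n)) = MvPowerSeries.X := by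
      funext i; fin_cases i <;> rfl
    rw [h', MvPowerSeries.subst_self]
    rfl
  rw [hid] at hsum
  rw [hsum, map_add]
  ring

variable {Ω : Type} [NontriviallyNormedField Ω] [IsUltrametricDist Ω] [GoodField p Ω] {ρ : Rad}

instance : NormOneClass (WI p Ω ρ) :=
  ⟨by rw [← map_one (tW (p := p) (Ω := Ω) ρ), norm_tW]; simp⟩

theorem norm_le_of_hasSum {ι E : Type*} [SeminormedAddCommGroup E] [IsUltrametricDist E]
    {f : ι → E} {a : E} {C : ℝ} (hC : 0 ≤ C) (h : HasSum f a) (hf : ∀ i, ‖f i‖ ≤ C) : ‖a‖ ≤ C :=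
  (isClosed_le continuous_norm continuous_const).mem_of_tendsto h
    (Eventually.of_forall fun _ ↦
      IsUltrametricDist.norm_sum_le_of_forall_le_of_nonneg hC fun i _ ↦ hf i)

theorem summable_of_tendsto {ι E : Type*} [NormedAddCommGroup E] [IsUltrametricDist E]
    [CompleteSpace E] {f : ι → E} (h : Tendsto f cofinite (𝓝 0)) : Summable f :=
  NonarchimedeanAddGroup.summable_of_tendsto_cofinite_zero h

theorem isTopNilp_of_norm_lt {x : WI p Ω ρ} (hx : ‖x‖ < 1) : IsTopologicallyNilpotent x :=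
  tendsto_pow_atTop_nhds_zero_of_norm_lt_one hx

theorem norm_ev_le {σ : Type*} [Finite σ] {a : σ → WI p Ω ρ} {r : ℝ} (hr : r < 1) (hr0 : 0 ≤ r)
    (ha : ∀ i, ‖a i‖ ≤ r) (f : MvPowerSeries σ (WI p Ω ρ)) (D : ℕ)
    (hD : ∀ d : σ →₀ ℕ, d.degree < D → MvPowerSeries.coeff d f = 0) :
    ‖ev f a‖ ≤ r ^ D := by
  have hsm : IsSmall a := fun i ↦ isTopNilp_of_norm_lt ((ha i).trans_lt hr)
  refine norm_le_of_hasSum (pow_nonneg hr0 _) (hasSum_ev hsm f) fun d ↦ ?_
  by_cases hd : d.degree < D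
  · rw [hD d hd, zero_mul, norm_zero]
    exact pow_nonneg hr0 _
  · refine (norm_mul_le _ _).trans ((mul_le_of_le_one_left (norm_nonneg _) (norm_WI_le_one _)).trans
      ?_)
    refine le_trans ?_ (pow_le_pow_of_le_one hr0 hr.le (not_lt.mp hd))
    rw [Finsupp.degree_apply, ← prod_pow_eq_pow_sum, Finsupp.prod]
    exact (Finset.norm_prod_le _ _).trans (prod_le_prod (fun i _ ↦ norm_nonneg _) fun i _ ↦
      (norm_pow_le _ _).trans (pow_le_pow_left₀ (norm_nonneg _) (ha i) _))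

theorem norm_addVal_le {n : ℕ} (ψ : Haz.A n →+* WI p Ω ρ) {x y : WI p Ω ρ} {r : ℝ} (hr : r < 1)
    (hx : ‖x‖ ≤ r) (hy : ‖y‖ ≤ r) : ‖Haz.addVal p ψ x y‖ ≤ r := by
  refine (norm_ev_le hr ((norm_nonneg x).trans hx)
    (by intro i; fin_cases i <;> assumption) _ 1 fun d hd ↦ ?_).trans_eq (pow_one r)
  obtain rfl : d = 0 := by
    rw [← Finsupp.degree_eq_zero_iff]
    omega
  rw [MvPowerSeries.coeff_map, MvPowerSeries.coeff_zero_eq_constantCoeff_apply,
    (Haz.law p n).zero_constantCoeff, map_zero]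

/-- Super-geometric decay. -/
theorem tendsto_gauge {b r : ℝ} (hb : 0 ≤ b) (hr0 : 0 ≤ r) (hr : r < 1) :
    Tendsto (fun m : ℕ ↦ b ^ m * r ^ p ^ m) atTop (𝓝 0) := by
  obtain ⟨K, hK⟩ : ∃ K : ℕ, b * r ^ K < 1 := by
    have := (tendsto_pow_atTop_nhds_zero_of_lt_one hr0 hr).const_mul b
    rw [mul_zero] at this
    exact ((tendsto_order.mp this).2 1 one_pos).exists
  refine squeeze_zero' (Eventually.of_forall fun m ↦ mul_nonneg (pow_nonneg hb m) (pow_nonneg hr0 _))
    ?_ (tendsto_pow_atTop_nhds_zero_of_lt_one (mul_nonneg hb (pow_nonneg hr0 K)) hK)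
  have h2 : Tendsto (fun m : ℕ ↦ (K : ℝ) * ((m : ℝ) ^ 1 / (2 : ℝ) ^ m)) atTop (𝓝 0) := by
    simpa using (tendsto_pow_const_div_const_pow_of_one_lt 1 one_lt_two).const_mul (K : ℝ)
  filter_upwards [(tendsto_order.mp h2).2 1 one_pos] with m hm
  have hKm : K * m ≤ p ^ m := by
    have h3 : (K * m : ℝ) < 2 ^ m := by
      rw [pow_one, ← mul_div_assoc, div_lt_one (pow_pos two_pos m)] at hm
      exact hm
    have h4 : K * m < 2 ^ m := by exact_mod_cast h3
    exact h4.le.trans (Nat.pow_le_pow_left hp.out.two_le m)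
  rw [mul_pow, ← pow_mul]
  exact mul_le_mul_of_nonneg_left (pow_le_pow_of_le_one hr0 hr.le hKm) (pow_nonneg hb m)

variable {n : ℕ}

/-- A term of the logarithm. -/
def logTerm (ψ : Haz.A n →+* WI p Ω ρ) (x : WI p Ω ρ) (m : ℕ) : BB p Ω ρ :=
  pz p Ω ρ (-(m : ℤ)) * jB ρ (ψ (dA p n m) * x ^ p ^ m)

/-- The logarithm of a lifted point. -/
def logV (ψ : Haz.A n →+* WI p Ω ρ) (x : WI p Ω ρ) : BB p Ω ρ := ∑' m, logTerm ψ x m

theorem norm_logTerm_le (ψ : Haz.A n →+* WI p Ω ρ) (x : WI p Ω ρ) (m : ℕ) :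
    ‖logTerm ψ x m‖ ≤ (ρ.val⁻¹) ^ m * ‖x‖ ^ p ^ m := by
  rw [logTerm, norm_pz_mul, norm_jB, zpow_neg, zpow_natCast, inv_pow]
  refine mul_le_mul_of_nonneg_left ?_ (inv_nonneg.mpr (pow_nonneg ρ.pos.le _))
  exact (norm_mul_le _ _).trans
    ((mul_le_of_le_one_left (norm_nonneg _) (norm_WI_le_one _)).trans (norm_pow_le _ _))

theorem summable_logTerm (ψ : Haz.A n →+* WI p Ω ρ) {x : WI p Ω ρ} (hx : ‖x‖ < 1) :
    Summable (logTerm ψ x) := by
  refine summable_of_tendsto ?_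
  rw [Nat.cofinite_eq_atTop]
  exact squeeze_zero_norm (norm_logTerm_le ψ x)
    (tendsto_gauge (inv_nonneg.mpr ρ.pos.le) (norm_nonneg x) hx)

theorem logV_zero (ψ : Haz.A n →+* WI p Ω ρ) : logV ψ 0 = 0 := by
  simp [logV, logTerm, zero_pow (pow_ne_zero _ hp.out.ne_zero)]

theorem logV_addVal (ψ : Haz.A n →+* WI p Ω ρ) {x y : WI p Ω ρ} (hx : ‖x‖ < 1) (hy : ‖y‖ < 1) :
    logV ψ (Haz.addVal p ψ x y) = logV ψ x + logV ψ y := by
  set r := max ‖x‖ ‖y‖ with hr
  have hr1 : r < 1 := max_lt hx hy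
  have hr0 : 0 ≤ r := le_max_of_le_left (norm_nonneg x)
  set c := Haz.addVal p ψ x y with hc
  have hcn : ‖c‖ < 1 := (norm_addVal_le ψ hr1 (le_max_left _ _) (le_max_right _ _)).trans_lt hr1
  have ha : ∀ i, ‖(![x, y] : Fin 2 → WI p Ω ρ) i‖ ≤ r := by
    intro i
    fin_cases i
    · exact le_max_left _ _
    · exact le_max_right _ _
  have hsm : IsSmall ![x, y] := fun i ↦ isTopNilp_of_norm_lt ((ha i).trans_lt hr1)
  have hlim : Tendsto (fun M ↦ ∑ m ∈ range (M + 1), logTerm ψ c m -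
      (∑ m ∈ range (M + 1), logTerm ψ x m + ∑ m ∈ range (M + 1), logTerm ψ y m)) atTop
      (𝓝 (logV ψ c - (logV ψ x + logV ψ y))) := by
    have h := fun (z : WI p Ω ρ) (hz : ‖z‖ < 1) ↦
      ((summable_logTerm ψ hz).hasSum.tendsto_sum_nat.comp (tendsto_add_atTop_nat 1))
    exact (h c hcn).sub ((h x hx).add (h y hy))
  have hzero : Tendsto (fun M ↦ ∑ m ∈ range (M + 1), logTerm ψ c m -
      (∑ m ∈ range (M + 1), logTerm ψ x m + ∑ m ∈ range (M + 1), logTerm ψ y m)) atTop (𝓝 0) := by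
    have hev : ∀ (M : ℕ) (f : MvPowerSeries (Fin 2) (Haz.A n)) (z : WI p Ω ρ),
        ev (MvPowerSeries.map ψ f) ![x, y] = z →
        ev (MvPowerSeries.map ψ (PM p n M f)) ![x, y] =
          ∑ m ∈ range (M + 1), (p : WI p Ω ρ) ^ (M - m) * (ψ (dA p n m) * z ^ p ^ m) := by
      intro M f z hz
      rw [PM, map_sum, ev_sum hsm]
      refine sum_congr rfl fun m _ ↦ ?_
      rw [map_mul, MvPowerSeries.map_C, map_pow, ev_mul hsm, ev_C, ev_pow hsm, hz, map_mul,
        map_pow, map_natCast, mul_assoc]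
    have hscale : ∀ (M : ℕ) (z : WI p Ω ρ), ∑ m ∈ range (M + 1), logTerm ψ z m =
        pz p Ω ρ (-(M : ℤ)) * jB ρ
          (∑ m ∈ range (M + 1), (p : WI p Ω ρ) ^ (M - m) * (ψ (dA p n m) * z ^ p ^ m)) := by
      intro M z
      rw [map_sum, mul_sum]
      refine sum_congr rfl fun m hm ↦ ?_
      have hm' : m ≤ M := Nat.lt_succ_iff.mp (mem_range.mp hm)
      rw [map_mul, map_pow, map_natCast, ← pz_nat, ← mul_assoc, ← pz_add, logTerm]
      congr 2
      push_cast [Nat.cast_sub hm']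
      ring
    refine squeeze_zero_norm (fun M ↦ ?_) (by
      simpa [pow_succ'] using (((tendsto_gauge (p := p) (inv_nonneg.mpr ρ.pos.le) hr0 hr1).comp
        (tendsto_add_atTop_nat 1)).const_mul ρ.val))
    rw [hscale, hscale, hscale, ← mul_add, ← mul_sub, ← map_add, ← map_sub,
      ← hev M (Haz.law p n).toPowerSeries c (by rw [hc]; rfl), ← hev M (MvPowerSeries.X 0) x (by rw [MvPowerSeries.map_X, ev_X]; rfl),
      ← hev M (MvPowerSeries.X 1) y (by rw [MvPowerSeries.map_X, ev_X]; rfl), ← sub_sub, ← ev_sub hsm,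
      ← map_sub (MvPowerSeries.map ψ), ← ev_sub hsm, ← map_sub (MvPowerSeries.map ψ),
      norm_pz_mul, norm_jB, zpow_neg, zpow_natCast]
    have := norm_ev_le hr1 hr0 ha (MvPowerSeries.map ψ (PM p n M (Haz.law p n).toPowerSeries -
      PM p n M (MvPowerSeries.X 0) - PM p n M (MvPowerSeries.X 1))) (p ^ (M + 1)) fun d hd ↦ by
      rw [MvPowerSeries.coeff_map, coeff_PM_law n M d hd, map_zero]
    refine (mul_le_mul_of_nonneg_left this (inv_nonneg.mpr (pow_nonneg ρ.pos.le _))).trans_eq ?_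
    have hρ := ρ.pos.ne'
    rw [pow_succ' p M]
    field_simp
  exact sub_eq_zero.mp (tendsto_nhds_unique hlim hzero)

/-- A point with norm less than one. -/
def mkPt (ψ : Haz.A n →+* WI p Ω ρ) (x : WI p Ω ρ) (hx : ‖x‖ < 1) : Haz.Pt p ψ :=
  ⟨x, isTopNilp_of_norm_lt hx⟩

theorem logV_sum {ι : Type*} (ψ : Haz.A n →+* WI p Ω ρ) (s : Finset ι) (P : ι → Haz.Pt p ψ)
    {r : ℝ} (hr : r < 1) (hr0 : 0 ≤ r) (hP : ∀ i ∈ s, ‖(P i).val‖ ≤ r) :
    ‖(∑ i ∈ s, P i).val‖ ≤ r ∧ logV ψ (∑ i ∈ s, P i).val = ∑ i ∈ s, logV ψ (P i).val := by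
  classical
  induction s using Finset.induction with
  | empty => simp [Haz.zero_val, logV_zero, hr0]
  | @insert a s ha ih =>
    obtain ⟨h1, h2⟩ := ih fun i hi ↦ hP i (mem_insert_of_mem hi)
    have h3 := hP a (mem_insert_self a s)
    rw [sum_insert ha, sum_insert ha, Haz.add_val]
    refine ⟨norm_addVal_le ψ hr h3 h1, ?_⟩
    rw [logV_addVal ψ (h3.trans_lt hr) (h1.trans_lt hr), h2]

/-- The lift of parameters. -/
def hatPhi (ρ : Rad) (φ : Haz.A n →+* (intRing Ω)) : Haz.A n →+* WI p Ω ρ :=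
  MvPolynomial.eval₂Hom (Int.castRingHom _) fun i ↦ tW ρ (φ (MvPolynomial.X i))

theorem res_hatPhi (φ : Haz.A n →+* (intRing Ω)) : (res ρ).comp (hatPhi (p := p) ρ φ) = φ := by
  refine MvPolynomial.ringHom_ext (fun r ↦ ?_) fun i ↦ ?_
  · simp [hatPhi]
  · simp [hatPhi, res_tW]

theorem hatPhi_zeroSpec (h : ℕ) : hatPhi (p := p) ρ (zeroSpec h (intRing Ω)) = zeroSpec h (WI p Ω ρ) := by
  refine MvPolynomial.ringHom_ext (fun r ↦ ?_) fun i ↦ ?_
  · simp [hatPhi, zeroSpec]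
  · simp [hatPhi, zeroSpec, tW_zero]

/-- Continuous ring maps induce maps of points. -/
def mapPt' {R S : Type*} [CommRing R] [UniformSpace R] [CLRing R] [CommRing S] [UniformSpace S]
    [CLRing S] (ψ : Haz.A n →+* R) (φ : Haz.A n →+* S) {ε : R →+* S} (hε : Continuous ε)
    (h : ε.comp ψ = φ) : Haz.Pt p ψ →+ Haz.Pt p φ where
  toFun x := ⟨ε x.val, x.small.map hε⟩
  map_zero' := Haz.Pt.ext (map_zero ε)
  map_add' x y := by
    subst h
    exact Haz.Pt.ext (congrArg (fun P ↦ P.val) ((Haz.mapPt p ψ hε).map_add x y) :)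

theorem mapPt'_val {R S : Type*} [CommRing R] [UniformSpace R] [CLRing R] [CommRing S]
    [UniformSpace S] [CLRing S] (ψ : Haz.A n →+* R) (φ : Haz.A n →+* S) {ε : R →+* S}
    (hε : Continuous ε) (h : ε.comp ψ = φ) (x : Haz.Pt p ψ) :
    (mapPt' ψ φ hε h x).val = ε x.val := rfl

/-- Sums of points of `φ` lift to points whose logarithm is the sum of the logarithms. -/
theorem exists_lift_sum {ι : Type*} (ρ : Rad) (φ : Haz.A n →+* (intRing Ω)) (s : Finset ι)
    (P : ι → Haz.Pt p φ) {r : ℝ} (hr : r < 1) (hr0 : 0 ≤ r)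
    (hP : ∀ i ∈ s, ‖((P i).val : Ω)‖ ≤ r) :
    ∃ c : WI p Ω ρ, ‖c‖ ≤ r ∧ res ρ c = (∑ i ∈ s, P i).val ∧
      logV (hatPhi ρ φ) c = ∑ i ∈ s, logV (hatPhi ρ φ) (tW ρ (P i).val) := by
  have hsm : ∀ i, ‖tW (p := p) ρ (P i).val‖ < 1 := fun i ↦ by
    rw [norm_tW]
    exact isTopologicallyNilpotent_intRing.mp (P i).small
  let Q : ι → Haz.Pt p (hatPhi (p := p) ρ φ) := fun i ↦ mkPt _ (tW ρ (P i).val) (hsm i)
  obtain ⟨h1, h2⟩ := logV_sum (hatPhi ρ φ) s Q hr hr0 fun i hi ↦ (norm_tW _).trans_le (hP i hi)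
  refine ⟨_, h1, ?_, h2⟩
  rw [← mapPt'_val (hatPhi ρ φ) φ continuous_res (res_hatPhi φ), map_sum]
  congr 1
  exact sum_congr rfl fun i _ ↦ Haz.Pt.ext (res_tW _)

end Vale.Agent.P217.Indep
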