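import Vale.Agent.P217.Indep.Lattice
import Vale.Agent.P217.Indep.Envelope
import Mathlib.Algebra.BigOperators.Field
import Mathlib.Analysis.SpecialFunctions.Log.Basic

/-!
A reduced tuple of fewer than `n` points has independent cover logarithms: Newton lines and the
Moore argument.
-/

noncomputable section

namespace Vale.Agent.P217.Indep

open Finset Filter
open scoped Topology

variable {p : ℕ} [hp : Fact p.Prime] {Ω : Type} [NontriviallyNormedField Ω] [IsUltrametricDist Ω]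
  [GoodField p Ω] {ρ : Rad} {n : ℕ}

theorem norm_sub_le_max'' {E : Type*} [SeminormedAddCommGroup E] [IsUltrametricDist E] (a b : E) :
    ‖a - b‖ ≤ max ‖a‖ ‖b‖ := by
  rw [sub_eq_add_neg]
  exact (IsUltrametricDist.norm_add_le_max a (-b)).trans_eq (by rw [norm_neg])

theorem exists_natCast_close {w : Ω} (hw : ‖w‖ ≤ 1) (h : ‖w ^ p - w‖ < 1) :
    ∃ t : ℕ, ‖w - (t : Ω)‖ < 1 := by
  classical
  obtain ⟨c, m, hm, hc, hwc⟩ := GoodField.residue (p := p) w hw
  set z := c ^ p - c with hz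
  have hz1 : ‖z‖ < 1 := by
    rw [hz, show c ^ p - c = -((w - c) ^ p) + ((w ^ p - w) + (w - c)) by
      rw [sub_pow_char]; ring]
    refine (IsUltrametricDist.norm_add_le_max _ _).trans_lt (max_lt ?_
      ((IsUltrametricDist.norm_add_le_max _ _).trans_lt (max_lt h hwc)))
    rw [norm_neg, norm_pow]
    exact pow_lt_one₀ (norm_nonneg _) hwc hp.out.ne_zero
  have hz0 : z = 0 := by
    by_contra hne
    have h1 : z ^ p ^ m = z := by
      rw [hz, sub_pow_char_pow, ← pow_mul, mul_comm, pow_mul, hc]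
    have h2 := congrArg norm h1
    rw [norm_pow] at h2
    have h3 : ‖z‖ ^ p ^ m < ‖z‖ ^ 1 := pow_lt_pow_right_of_lt_one₀ (norm_pos_iff.mpr hne) hz1
      (Nat.one_lt_pow hm.ne' hp.out.one_lt)
    rw [h2, pow_one] at h3
    exact lt_irrefl _ h3
  set f : Polynomial Ω := Polynomial.X ^ p - Polynomial.X with hf
  have hfdeg : f.natDegree = p := FiniteField.X_pow_card_sub_X_natDegree_eq Ω hp.out.one_lt
  have hfne : f ≠ 0 := fun h0 ↦ by
    rw [h0, Polynomial.natDegree_zero] at hfdeg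
    exact hp.out.ne_zero hfdeg.symm
  have hmem : ∀ u : Ω, u ∈ f.roots.toFinset ↔ u ^ p = u := fun u ↦ by
    simp only [Multiset.mem_toFinset, Polynomial.mem_roots hfne, f, Polynomial.IsRoot,
      Polynomial.eval_sub, Polynomial.eval_pow, Polynomial.eval_X, sub_eq_zero]
  have hS : (range p).image (fun i : ℕ ↦ (i : Ω)) = f.roots.toFinset := by
    refine eq_of_subset_of_card_le (fun u hu ↦ ?_) ?_
    · obtain ⟨i, -, rfl⟩ := mem_image.mp hu
      exact (hmem _).mpr (map_natCast (frobenius Ω p) i)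
    · rw [card_image_of_injOn, card_range]
      · exact ((Multiset.toFinset_card_le _).trans (Polynomial.card_roots' f)).trans_eq hfdeg
      · intro a ha b hb hab
        simp only [coe_range, Set.mem_Iio] at ha hb
        have h := (CharP.natCast_eq_natCast Ω p).mp hab
        rwa [Nat.ModEq, Nat.mod_eq_of_lt ha, Nat.mod_eq_of_lt hb] at h
  have hc' : c ∈ (range p).image (fun i : ℕ ↦ (i : Ω)) := by
    rw [hS, hmem]
    exact sub_eq_zero.mp hz0
  obtain ⟨t, -, ht⟩ := mem_image.mp hc'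
  exact ⟨t, ht.symm ▸ hwc⟩

/-- Moore's lemma: independent residues have independent Frobenius orbits. -/
theorem moore {ι : Type*} [DecidableEq ι] (J : Finset ι) (μ c : ι → Ω)
    (hμ : ∀ j ∈ J, ‖μ j‖ ≤ 1)
    (hind : ∀ a : ι → ℕ, (∃ j ∈ J, ¬ p ∣ a j) → ‖∑ j ∈ J, (a j : Ω) * μ j‖ = 1)
    (hc : ∀ j ∈ J, ‖c j‖ ≤ 1)
    (hsum : ∀ i, i < J.card → ‖∑ j ∈ J, c j * μ j ^ p ^ i‖ < 1) :
    ∀ j ∈ J, ‖c j‖ < 1 := by
  obtain ⟨N, hN⟩ : ∃ N, J.card = N := ⟨_, rfl⟩
  induction N generalizing J μ with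
  | zero =>
    intro j hj
    rw [card_eq_zero.mp hN] at hj
    exact absurd hj (notMem_empty j)
  | succ N ih =>
    obtain ⟨j1, hj1⟩ : J.Nonempty := card_pos.mp (by omega)
    have hμ1 : ‖μ j1‖ = 1 := by
      have h := hind (Pi.single j1 1) ⟨j1, hj1, by simp [hp.out.ne_one]⟩
      rwa [sum_eq_single j1 (fun j _ hne ↦ by simp [hne]) (fun h0 ↦ absurd hj1 h0),
        Pi.single_eq_same, Nat.cast_one, one_mul] at h
    have hμne : μ j1 ≠ 0 := norm_pos_iff.mp (by rw [hμ1]; exact one_pos)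
    set ν : ι → Ω := fun j ↦ μ j / μ j1 with hν
    have hνn : ∀ j ∈ J, ‖ν j‖ ≤ 1 := fun j hj ↦ by
      rw [norm_div, hμ1, div_one]
      exact hμ j hj
    have hν1 : ν j1 = 1 := div_self hμne
    have hindν : ∀ a : ι → ℕ, (∃ j ∈ J, ¬ p ∣ a j) → ‖∑ j ∈ J, (a j : Ω) * ν j‖ = 1 := by
      intro a ha
      simp only [hν, mul_div_assoc', ← Finset.sum_div, norm_div, hμ1, div_one]
      exact hind a ha
    have hS : ∀ i, i < N + 1 → ‖∑ j ∈ J, c j * ν j ^ p ^ i‖ < 1 := by
      intro i hi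
      simp only [hν, div_pow, mul_div_assoc', ← Finset.sum_div, norm_div, norm_pow, hμ1, one_pow, div_one]
      exact hsum i (by omega)
    set μ' : ι → Ω := fun j ↦ ν j ^ p - ν j with hμ'
    have hrest : ∀ j ∈ J.erase j1, ‖c j‖ < 1 := by
      refine ih (J.erase j1) μ' (fun j hj ↦ ?_) (fun a ha ↦ ?_)
        (fun j hj ↦ hc j (mem_of_mem_erase hj)) (fun i hi ↦ ?_)
        (by rw [card_erase_of_mem hj1, hN, Nat.add_sub_cancel])
      · refine (norm_sub_le_max'' _ _).trans (max_le ?_ ?_)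
        · rw [norm_pow]
          exact pow_le_one₀ (norm_nonneg _) (hνn j (mem_of_mem_erase hj))
        · exact hνn j (mem_of_mem_erase hj)
      · set w := ∑ j ∈ J.erase j1, (a j : Ω) * ν j with hw
        have hw1 : ‖w‖ ≤ 1 := IsUltrametricDist.norm_sum_le_of_forall_le_of_nonneg zero_le_one
          fun j hj ↦ by
            rw [norm_mul]
            exact (mul_le_of_le_one_left (norm_nonneg _) ((a j : intRing Ω)).2).trans
              (hνn j (mem_of_mem_erase hj))
        have heq : ∑ j ∈ J.erase j1, (a j : Ω) * μ' j = w ^ p - w := by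
          rw [hw, ← frobenius_def p, map_sum, ← sum_sub_distrib]
          refine sum_congr rfl fun j _ ↦ ?_
          rw [map_mul, map_natCast, frobenius_def, mul_sub]
        rw [heq]
        refine le_antisymm ?_ (not_lt.mp fun hlt ↦ ?_)
        · refine (norm_sub_le_max'' _ _).trans (max_le ?_ hw1)
          rw [norm_pow]
          exact pow_le_one₀ (norm_nonneg _) hw1
        · obtain ⟨t, ht⟩ := exists_natCast_close (p := p) hw1 hlt
          obtain ⟨j, hj, haj⟩ := ha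
          have h1 := hindν (fun i ↦ if i = j1 then (p - 1) * t else a i)
            ⟨j, mem_of_mem_erase hj, by rwa [if_neg (ne_of_mem_erase hj)]⟩
          rw [← add_sum_erase J _ hj1, if_pos rfl, hν1, mul_one,
            sum_congr rfl fun i hi ↦ by rw [if_neg (ne_of_mem_erase hi)], ← hw,
            Nat.cast_mul, Nat.cast_sub hp.out.one_le, CharP.cast_eq_zero, Nat.cast_one,
            zero_sub, neg_one_mul, neg_add_eq_sub] at h1
          rw [h1] at ht
          exact lt_irrefl _ ht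
      · rw [card_erase_of_mem hj1, hN, Nat.add_sub_cancel] at hi
        have h0 : ∑ j ∈ J.erase j1, c j * μ' j ^ p ^ i =
            ∑ j ∈ J, c j * ν j ^ p ^ (i + 1) - ∑ j ∈ J, c j * ν j ^ p ^ i := by
          rw [← sum_sub_distrib, ← add_sum_erase J _ hj1, hν1, one_pow, one_pow, sub_self,
            zero_add]
          refine sum_congr rfl fun j _ ↦ ?_
          rw [hμ', sub_pow_char_pow, ← pow_mul, ← pow_succ', mul_sub]
        rw [h0]
        exact (norm_sub_le_max'' _ _).trans_lt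
          (max_lt (hS (i + 1) (by omega)) (hS i (by omega)))
    intro j hj
    rcases eq_or_ne j j1 with rfl | hne
    · have h1 := hS 0 (Nat.succ_pos N)
      rw [← add_sum_erase J _ hj1, hν1, one_pow, mul_one] at h1
      have h2 : ‖∑ i ∈ J.erase j, c i * ν i ^ p ^ 0‖ < 1 :=
        norm_sum_lt _ _ one_pos fun i hi ↦ by
          rw [norm_mul, pow_zero, pow_one]
          exact (mul_le_of_le_one_right (norm_nonneg _) (hνn i (mem_of_mem_erase hi))).trans_lt
            (hrest i hi)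
      rw [show c j = (c j + ∑ i ∈ J.erase j, c i * ν i ^ p ^ 0) +
        -(∑ i ∈ J.erase j, c i * ν i ^ p ^ 0) by ring]
      exact (IsUltrametricDist.norm_add_le_max _ _).trans_lt (max_lt h1 (by rwa [norm_neg]))
    · exact hrest j (mem_erase.mpr ⟨hne, hj⟩)

/-- Finite sums of monomials are dense. -/
theorem approx_monos (z : BB p Ω ρ) {ε : ℝ} (hε : 0 < ε) :
    ∃ (S : Finset ℤ) (a : ℤ → intRing Ω),
      ‖z - ∑ k ∈ S, pz p Ω ρ k * tch ρ (a k)‖ < ε := by
  classical
  obtain ⟨x, hx⟩ := UniformSpace.Completion.denseRange_coe.exists_dist_lt z hε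
  rw [dist_eq_norm] at hx
  obtain ⟨K, w, hw⟩ := Pre.surj x
  obtain ⟨N, hN⟩ := exists_pow_lt_of_lt_one (mul_pos hε (pow_pos ρ.pos K)) ρ.lt_one
  obtain ⟨c, w', hw'⟩ := expansion (p := p) N w
  refine ⟨(range N).image fun i : ℕ ↦ (i : ℤ) - K,
    fun k ↦ if 0 ≤ k + K then c (k + K).toNat else 0, ?_⟩
  have hsum : ∑ k ∈ (range N).image (fun i : ℕ ↦ (i : ℤ) - K),
      pz p Ω ρ k * tch ρ (if 0 ≤ k + K then c (k + K).toNat else 0) =
      pz p Ω ρ (-(K : ℤ)) * incB ρ
        (∑ i ∈ range N, (p : WittVector p (intRing Ω)) ^ i * WittVector.teichmuller p (c i)) := by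
    rw [sum_image fun a _ b _ hab ↦ by omega, map_sum, mul_sum]
    refine sum_congr rfl fun i _ ↦ ?_
    rw [map_mul, map_pow, map_natCast, ← pz_nat, ← mul_assoc, ← pz_add, sub_add_cancel,
      if_pos (by positivity), Int.toNat_natCast, show (i : ℤ) - K = -(K : ℤ) + i by ring]
    rfl
  have hxw : (x : BB p Ω ρ) = pz p Ω ρ (-(K : ℤ)) * incB ρ w := by
    have h := congrArg (fun u : Pre p Ω ρ ↦ (u : BB p Ω ρ)) hw
    simp only [UniformSpace.Completion.coe_mul] at h
    have hpow : (((p : Pre p Ω ρ) ^ K : Pre p Ω ρ) : BB p Ω ρ) = pz p Ω ρ K := by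
      rw [pz_nat, ← natCast_coe]
      exact map_pow UniformSpace.Completion.coeRingHom _ K
    rw [hpow] at h
    rw [show incB ρ w = (x : BB p Ω ρ) * pz p Ω ρ K from h.symm, mul_left_comm, ← pz_add,
      neg_add_cancel, pz_zero, mul_one]
  have herr : ‖(x : BB p Ω ρ) - ∑ k ∈ (range N).image (fun i : ℕ ↦ (i : ℤ) - K),
      pz p Ω ρ k * tch ρ (if 0 ≤ k + K then c (k + K).toNat else 0)‖ < ε := by
    rw [hsum, hxw, hw', map_add, ← mul_sub, add_sub_cancel_left, norm_pz_mul, norm_incB,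
      ν_pow_mul, zpow_neg, zpow_natCast, inv_mul_lt_iff₀ (pow_pos ρ.pos K), mul_comm (ρ.val ^ K)]
    exact (mul_le_of_le_one_right (pow_nonneg ρ.pos.le N) (ν_le_one ρ w')).trans_lt hN
  calc ‖z - _‖ = ‖(z - (x : BB p Ω ρ)) + ((x : BB p Ω ρ) - _)‖ := by congr 1; ring
    _ < ε := (IsUltrametricDist.norm_add_le_max _ _).trans_lt (max_lt hx herr)

theorem norm_sum_tch_sub {ι : Type*} (J : Finset ι) (u : ι → intRing Ω) {B : ℝ} (hB : 0 ≤ B)
    (hu : ∀ j ∈ J, ‖(u j : Ω)‖ ≤ B) :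
    ‖∑ j ∈ J, tch (p := p) ρ (u j) - tch ρ (∑ j ∈ J, u j)‖ ≤ ρ.val * B := by
  classical
  induction J using Finset.induction with
  | empty => simpa [tch_zero] using mul_nonneg ρ.pos.le hB
  | @insert a J ha ih =>
    have h1 := ih fun j hj ↦ hu j (mem_insert_of_mem hj)
    have h2 : ‖((∑ j ∈ J, u j : intRing Ω) : Ω)‖ ≤ B := by
      rw [AddSubmonoidClass.coe_finsetSum]
      exact IsUltrametricDist.norm_sum_le_of_forall_le_of_nonneg hB fun j hj ↦
        hu j (mem_insert_of_mem hj)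
    rw [sum_insert ha, sum_insert ha,
      show tch ρ (u a) + ∑ j ∈ J, tch ρ (u j) - tch ρ (u a + ∑ j ∈ J, u j) =
        (∑ j ∈ J, tch ρ (u j) - tch (p := p) ρ (∑ j ∈ J, u j)) +
          -(tch (p := p) ρ (u a + ∑ j ∈ J, u j) -
            (tch ρ (u a) + tch ρ (∑ j ∈ J, u j))) by ring]
    refine (IsUltrametricDist.norm_add_le_max _ _).trans (max_le h1 ?_)
    rw [norm_neg]
    exact (norm_teich_sub_le _ _).trans (mul_le_mul_of_nonneg_left
      (max_le (hu a (mem_insert_self a J)) h2) ρ.pos.le)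

theorem norm_sub_lead {h : ℕ} (hh : 0 < h) {z : intRing Ω} (hz : ‖(z : Ω)‖ < 1) {l : ℤ}
    (hl : ∀ k, k ≠ l → ‖lterm (p := p) ρ h z k‖ < ‖lterm (p := p) ρ h z l‖) :
    ‖lh (p := p) ρ h z - lterm ρ h z l‖ < ‖lterm (p := p) ρ h z l‖ := by
  classical
  set M := ‖lterm (p := p) ρ h z l‖ with hM
  have hMpos : 0 < M := by
    have := hl (l + 1) (by omega)
    exact (norm_nonneg _).trans_lt this
  have ht : Tendsto (fun k ↦ ‖lterm (p := p) ρ h z k‖) cofinite (𝓝 0) :=
    tendsto_zero_iff_norm_tendsto_zero.mp (tendsto_lterm (ρ := ρ) hh hz)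
  have hfin : {k : ℤ | ¬ ‖lterm (p := p) ρ h z k‖ < M / 2}.Finite :=
    Filter.eventually_cofinite.mp (ht.eventually_lt_const (half_pos hMpos))
  obtain ⟨θ, hθ0, hθM, hθ⟩ : ∃ θ, 0 ≤ θ ∧ θ < M ∧
      ∀ k, k ≠ l → ‖lterm (p := p) ρ h z k‖ ≤ θ := by
    rcases (hfin.toFinset.erase l).eq_empty_or_nonempty with he | hne
    · refine ⟨M / 2, (half_pos hMpos).le, half_lt_self hMpos, fun k hk ↦ ?_⟩
      by_contra hlt
      have hmem : k ∈ hfin.toFinset.erase l := mem_erase.mpr ⟨hk, by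
        rw [Set.Finite.mem_toFinset]
        exact fun h' ↦ hlt h'.le⟩
      rw [he] at hmem
      exact notMem_empty k hmem
    · obtain ⟨k0, hk0, hmax⟩ :=
        exists_max_image (hfin.toFinset.erase l) (fun k ↦ ‖lterm (p := p) ρ h z k‖) hne
      refine ⟨max (M / 2) ‖lterm (p := p) ρ h z k0‖, le_max_of_le_left (half_pos hMpos).le,
        max_lt (half_lt_self hMpos) (hl k0 (ne_of_mem_erase hk0)), fun k hk ↦ ?_⟩
      by_cases hsm : ‖lterm (p := p) ρ h z k‖ < M / 2
      · exact hsm.le.trans (le_max_left _ _)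
      · exact (hmax k (mem_erase.mpr ⟨hk, by rwa [Set.Finite.mem_toFinset]⟩)).trans
          (le_max_right _ _)
  have hl0 : HasSum (lterm (p := p) ρ h z) (lh (p := p) ρ h z) := hasSum_lh hh hz
  have hs := hasSum_ite_sub_hasSum (α := BB p Ω ρ) hl0 l
  refine (norm_le_of_hasSum hθ0 hs fun k ↦ ?_).trans_lt hθM
  split_ifs with hk
  · simpa using hθ0
  · exact hθ k hk

theorem norm_beta_lterm (hn : 0 < n) (β : BB p Ω ρ) (hβ : β ≠ 0) (x : HPt p Ω n)
    (hx : 0 < lv x) (l m : ℤ) :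
    ‖β‖ * ‖lterm (p := p) ρ n (pw (p := p) m x.val) l‖ =
      Real.exp (Real.log ‖β‖ + l * (-Real.log ρ.val) -
        (-Real.log (lv x)) * (p : ℝ) ^ ((n : ℤ) * l + m)) := by
  rw [norm_lterm, norm_pw, ← Real.rpow_mul (norm_nonneg _),
    ← zpow_add₀ (Nat.cast_ne_zero.mpr hp.out.ne_zero), add_comm m]
  show ‖β‖ * ((ρ.val ^ l)⁻¹ * lv x ^ ((p : ℝ) ^ ((n : ℤ) * l + m))) = _
  rw [Real.rpow_def_of_pos hx, ← Real.rpow_intCast ρ.val l, Real.rpow_def_of_pos ρ.pos,
    ← Real.exp_neg, ← Real.exp_add]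
  conv_lhs => rw [← Real.exp_log (norm_pos_iff.mpr hβ), ← Real.exp_add]
  congr 1
  ring

theorem tch_pw_lterm (x : HPt p Ω n) (l m : ℤ) :
    lterm (p := p) ρ n (pw (p := p) m x.val) l =
      pz p Ω ρ (-l) * tch ρ (pw (p := p) ((n : ℤ) * l + m) x.val) := by
  rw [lterm, ← pw_add]

/-- Residual independence of one level. -/
theorem level_contra {d : ℕ} (x : Fin d → HPt p Ω n) (hred : Reduced x) (J : Finset (Fin d))
    {j1 : Fin d} (hj1 : j1 ∈ J) (hlev : ∀ j ∈ J, lv (x j) = lv (x j1)) (hpos : 0 < lv (x j1))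
    (b : Fin d → intRing Ω) (hb1 : 0 < ‖(b j1 : Ω)‖) (hb : ∀ j ∈ J, ‖(b j : Ω)‖ ≤ ‖(b j1 : Ω)‖)
    (P0 : ℤ) (hsmall : ∀ i : ℕ, i < J.card →
      ‖((∑ j ∈ J, b j * pw (p := p) (P0 + i) (x j).val : intRing Ω) : Ω)‖ <
        ‖((b j1 * pw (p := p) (P0 + i) (x j1).val : intRing Ω) : Ω)‖) : False := by
  classical
  set b' : Fin d → intRing Ω := fun j ↦ pw (p := p) (-P0) (b j) with hb'
  have hE : 0 < (p : ℝ) ^ (-P0) := zpow_pos (Nat.cast_pos.mpr hp.out.pos) _
  have hb1' : 0 < ‖(b' j1 : Ω)‖ := by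
    rw [hb', norm_pw]
    exact Real.rpow_pos_of_pos hb1 _
  have hb1ne : (b' j1 : Ω) ≠ 0 := norm_pos_iff.mp hb1'
  have hx1ne : ((x j1).val : Ω) ≠ 0 := norm_pos_iff.mp hpos
  set μ : Fin d → Ω := fun j ↦ ((x j).val : Ω) / ((x j1).val : Ω) with hμ
  set c : Fin d → Ω := fun j ↦ (b' j : Ω) / (b' j1 : Ω) with hc
  have hlast := moore (p := p) J μ c (fun j hj ↦ by
      rw [hμ, norm_div]
      exact div_le_one_of_le₀ (hlev j hj).le (norm_nonneg _)) (fun a ha ↦ by
      simp only [hμ, mul_div_assoc', ← Finset.sum_div, norm_div]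
      obtain ⟨j, hj, haj⟩ := ha
      have h := hred (fun i ↦ if i ∈ J then a i else 0) (lv (x j1))
        ⟨j, hlev j hj, by rwa [if_pos hj]⟩
      have heq : ∑ i ∈ univ.filter (fun i ↦ lv (x i) = lv (x j1)),
          ((if i ∈ J then a i else 0 : ℕ) : Ω) * ((x i).val : Ω) =
          ∑ i ∈ J, (a i : Ω) * ((x i).val : Ω) := by
        rw [← sum_subset (s₁ := J) (fun i hi ↦ mem_filter.mpr ⟨mem_univ i, hlev i hi⟩)
          (fun i _ hi ↦ by rw [if_neg hi]; simp)]
        exact sum_congr rfl fun i hi ↦ by rw [if_pos hi]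
      rw [heq] at h
      rw [h]
      exact div_self hpos.ne')
    (fun j hj ↦ by
      rw [hc, norm_div, div_le_one hb1']
      simp only [hb', norm_pw]
      exact Real.rpow_le_rpow (norm_nonneg _) (hb j hj) hE.le)
    (fun i hi ↦ by
      have h1 := Real.rpow_lt_rpow (norm_nonneg _) (hsmall i hi) hE
      rw [← norm_pw, ← norm_pw, map_sum] at h1
      simp only [map_mul, ← pw_add, neg_add_cancel_left, pw_nat] at h1
      push_cast at h1
      rw [norm_mul, norm_pow] at h1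
      simp only [hc, hμ, div_pow, div_mul_div_comm, ← Finset.sum_div, norm_div, norm_mul, norm_pow]
      exact (div_lt_one (mul_pos hb1' (pow_pos hpos _))).mpr h1)
    j1 hj1
  rw [hc, norm_div, div_self hb1'.ne'] at hlast
  exact lt_irrefl _ hlast

/-- Fewer than `n` reduced points have no linear relation among their cover logarithms. -/
theorem newton {d : ℕ} (hdn : d < n) (x : Fin d → HPt p Ω n) {c : ℝ} (hc0 : 0 < c)
    (hshell : ∀ j, c ^ p ^ n < lv (x j) ∧ lv (x j) ≤ c) (hred : Reduced x)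
    (hgen : ∀ j, ∀ m : ℤ,
      ((p : ℝ) ^ n - 1) * (-Real.log (lv (x j))) * (p : ℝ) ^ m ≠ -Real.log ρ.val)
    (β : Fin d → BB p Ω ρ) (hrel : ∀ m : ℤ, ∑ j, β j * lh ρ n (pw (p := p) m (x j).val) = 0) :
    β = 0 := by
  classical
  by_contra hne
  have hn : 0 < n := lt_of_le_of_lt (Nat.zero_le d) hdn
  set J0 : Finset (Fin d) := univ.filter fun j ↦ β j ≠ 0 with hJ0
  have hJ0ne : J0.Nonempty := by
    obtain ⟨j, hj⟩ := Function.ne_iff.mp hne
    exact ⟨j, mem_filter.mpr ⟨mem_univ j, hj⟩⟩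
  have hxpos : ∀ j, 0 < lv (x j) := fun j ↦ (pow_pos hc0 _).trans (hshell j).1
  set s : Fin d → ℝ := fun j ↦ -Real.log (lv (x j)) with hs
  set lb : Fin d → ℝ := fun j ↦ Real.log ‖β j‖ with hlb
  set R := -Real.log ρ.val with hR
  have hspos : ∀ j, 0 < s j := fun j ↦ by
    simp only [hs, neg_pos]
    exact Real.log_neg (hxpos j) (lv_lt_one _)
  have hsh : ∀ j ∈ J0, ∀ k ∈ J0, s j < (p : ℝ) ^ n * s k := by
    intro j _ k _
    have h1 : Real.log (c ^ p ^ n) < Real.log (lv (x j)) :=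
      Real.log_lt_log (pow_pos hc0 _) (hshell j).1
    have h2 : Real.log (lv (x k)) ≤ Real.log c := Real.log_le_log (hxpos k) (hshell k).2
    rw [Real.log_pow, Nat.cast_pow] at h1
    have h3 := mul_le_mul_of_nonneg_left h2 (pow_nonneg (Nat.cast_nonneg p) n)
    simp only [hs]
    linarith
  obtain ⟨L, hL, j1, hj1, l1, m0, hlbmax, hcarry⟩ := exists_lonely_level (p := p) (n := n) lb s R
    hp.out.one_lt J0 hJ0ne
    ((card_le_univ J0).trans_lt (by rwa [Fintype.card_fin]))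
    (neg_pos.mpr (Real.log_neg ρ.pos ρ.lt_one)) (fun j _ ↦ hspos j) hsh (fun j _ ↦ hgen j)
  have hβ1 : β j1 ≠ 0 := (mem_filter.mp hj1).2
  set v := ‖β j1‖ with hv
  have hvpos : 0 < v := norm_pos_iff.mpr hβ1
  set r := lv (x j1) with hr
  have hval : ∀ j ∈ J0, ∀ l m, ‖β j‖ * ‖lterm (p := p) ρ n (pw (p := p) m (x j).val) l‖ =
      Real.exp (lineVal p n lb s R j l m) := fun j hj l m ↦
    norm_beta_lterm hn (β j) (mem_filter.mp hj).2 (x j) (hxpos j) l m
  have hzlt : ∀ j m, ‖((pw (p := p) m (x j).val : intRing Ω) : Ω)‖ < 1 := fun j m ↦ by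
    rw [norm_pw]
    exact Real.rpow_lt_one (norm_nonneg _) (lv_lt_one _)
      (zpow_pos (Nat.cast_pos.mpr hp.out.pos) _)
  have hleadlt : ∀ j ∈ J0, ∀ m, ∀ k, k ≠ L j m →
      ‖lterm (p := p) ρ n (pw (p := p) m (x j).val) k‖ <
        ‖lterm (p := p) ρ n (pw (p := p) m (x j).val) (L j m)‖ := by
    intro j hj m k hk
    refine lt_of_mul_lt_mul_left ?_ (norm_nonneg (β j))
    rw [hval j hj, hval j hj]
    exact Real.exp_lt_exp.mpr (hL j hj m k hk)
  set J := J0.filter fun j ↦ s j = s j1 ∧ lb j = lb j1 with hJ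
  have hj1J : j1 ∈ J := mem_filter.mpr ⟨hj1, rfl, rfl⟩
  have hJlev : ∀ j ∈ J, lv (x j) = r := fun j hj ↦
    Real.log_injOn_pos (hxpos j) (hxpos j1) (neg_injective (mem_filter.mp hj).2.1)
  have hJnorm : ∀ j ∈ J, ‖β j‖ = v := fun j hj ↦
    Real.log_injOn_pos (norm_pos_iff.mpr (mem_filter.mp (mem_filter.mp hj).1).2) hvpos
      (mem_filter.mp hj).2.2
  have hJg : J.card ≤ (J0.filter fun k ↦ s k = s j1).card :=
    card_le_card fun j hj ↦ mem_filter.mpr ⟨(mem_filter.mp hj).1, (mem_filter.mp hj).2.1⟩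
  -- the residual relation on the level
  have hres : ∀ i : ℕ, i < J.card →
      ‖∑ j ∈ J, β j * tch ρ (pw (p := p) ((n : ℤ) * l1 + m0 + i) (x j).val)‖ <
        v * ‖((pw (p := p) ((n : ℤ) * l1 + m0 + i) (x j1).val : intRing Ω) : Ω)‖ := by
    intro i hi
    obtain ⟨hL1, hother⟩ := hcarry i (hi.trans_le hJg)
    set m := m0 + (i : ℤ) with hm
    set M := ‖β j1‖ * ‖lterm (p := p) ρ n (pw (p := p) m (x j1).val) (L j1 m)‖ with hM
    have hMexp : M = Real.exp (lineVal p n lb s R j1 (L j1 m) m) := hval j1 hj1 _ _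
    have hMpos : 0 < M := hMexp ▸ Real.exp_pos _
    have hLs : ∀ j ∈ J0, s j = s j1 → L j m = L j1 m := by
      intro j hj hsj
      by_contra hne'
      have h1 := hL j hj m _ (Ne.symm hne')
      have h2 := hL j1 hj1 m _ hne'
      simp only [lineVal, hsj] at h1 h2
      linarith
    have htop : ∀ j ∈ J0, j ∉ J →
        Real.exp (lineVal p n lb s R j (L j m) m) < M := by
      intro j hj hjJ
      rw [hMexp, Real.exp_lt_exp]
      by_cases hsj : s j = s j1
      · have hlt : lb j < lb j1 := lt_of_le_of_ne (hlbmax j hj hsj) fun h' ↦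
          hjJ (mem_filter.mpr ⟨hj, hsj, h'⟩)
        rw [hLs j hj hsj]
        simp only [lineVal, hsj]
        linarith
      · exact hother j hj hsj
    have hsumeq : ∑ j ∈ J0, β j * lh ρ n (pw (p := p) m (x j).val) = 0 := by
      rw [← hrel m]
      exact sum_subset (subset_univ _) fun j _ hj ↦ by
        simp only [hJ0, mem_filter, mem_univ, true_and, not_not] at hj
        rw [hj, zero_mul]
    have hsmall : ‖∑ j ∈ J, β j * lterm (p := p) ρ n (pw (p := p) m (x j).val) (L j m)‖ < M := by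
      have hsplit : ∑ j ∈ J, β j * lterm (p := p) ρ n (pw (p := p) m (x j).val) (L j m) =
          -(∑ j ∈ J0, if j ∈ J then β j * (lh ρ n (pw (p := p) m (x j).val) -
              lterm (p := p) ρ n (pw (p := p) m (x j).val) (L j m))
            else β j * lh ρ n (pw (p := p) m (x j).val)) := by
        have h1 : ∀ j, (if j ∈ J then β j * (lh ρ n (pw (p := p) m (x j).val) -
              lterm (p := p) ρ n (pw (p := p) m (x j).val) (L j m))
            else β j * lh ρ n (pw (p := p) m (x j).val)) =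
            β j * lh ρ n (pw (p := p) m (x j).val) -
              (if j ∈ J then β j * lterm (p := p) ρ n (pw (p := p) m (x j).val) (L j m)
                else 0) := fun j ↦ by
          split_ifs <;> ring
        rw [sum_congr rfl fun j _ ↦ h1 j, sum_sub_distrib, hsumeq, sum_ite_mem,
          inter_eq_right.mpr (filter_subset _ J0), zero_sub, neg_neg]
      rw [hsplit, norm_neg]
      have key : ∀ j ∈ J0, ‖if j ∈ J then β j * (lh ρ n (pw (p := p) m (x j).val) -
            lterm (p := p) ρ n (pw (p := p) m (x j).val) (L j m))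
          else β j * lh ρ n (pw (p := p) m (x j).val)‖ < M := by
        intro j hj
        have hlead := norm_sub_lead (p := p) (ρ := ρ) hn (hzlt j m) (hleadlt j hj m)
        have hβj : 0 < ‖β j‖ := norm_pos_iff.mpr (mem_filter.mp hj).2
        split_ifs with hjJ
        · refine (norm_mul_le _ _).trans_lt ((mul_lt_mul_of_pos_left hlead hβj).trans_eq ?_)
          rw [hval j hj, hMexp, hLs j hj (mem_filter.mp hjJ).2.1]
          simp only [lineVal, (mem_filter.mp hjJ).2.1, (mem_filter.mp hjJ).2.2]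
        · have hlh : ‖lh (p := p) ρ n (pw (p := p) m (x j).val)‖ =
              ‖lterm (p := p) ρ n (pw (p := p) m (x j).val) (L j m)‖ := by
            conv_lhs => rw [← sub_add_cancel (lh ρ n (pw (p := p) m (x j).val))
              (lterm (p := p) ρ n (pw (p := p) m (x j).val) (L j m))]
            rw [IsUltrametricDist.norm_add_eq_max_of_norm_ne_norm hlead.ne,
              max_eq_right hlead.le]
          refine (norm_mul_le _ _).trans_lt ?_
          rw [hlh, hval j hj]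
          exact htop j hj hjJ
      obtain ⟨j', hj', hmax⟩ := exists_max_image J0
        (fun j ↦ ‖if j ∈ J then β j * (lh ρ n (pw (p := p) m (x j).val) -
            lterm (p := p) ρ n (pw (p := p) m (x j).val) (L j m))
          else β j * lh ρ n (pw (p := p) m (x j).val)‖) hJ0ne
      exact (IsUltrametricDist.norm_sum_le_of_forall_le_of_nonneg (norm_nonneg _) hmax).trans_lt
        (key j' hj')
    have hfac : ∑ j ∈ J, β j * lterm (p := p) ρ n (pw (p := p) m (x j).val) (L j m) =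
        pz p Ω ρ (-l1) *
          ∑ j ∈ J, β j * tch ρ (pw (p := p) ((n : ℤ) * l1 + m0 + i) (x j).val) := by
      rw [mul_sum]
      refine sum_congr rfl fun j hj ↦ ?_
      rw [hLs j (mem_filter.mp hj).1 (mem_filter.mp hj).2.1, hL1, tch_pw_lterm, mul_left_comm,
        hm, add_assoc]
    rw [hfac, norm_pz_mul, hM, hL1, tch_pw_lterm, norm_pz_mul, norm_tch, ← hv, mul_left_comm,
      hm, ← add_assoc] at hsmall
    exact lt_of_mul_lt_mul_left hsmall (zpow_nonneg ρ.pos.le _)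
  choose S a ha using fun j ↦ approx_monos (p := p) (β j) hvpos
  set T := J.biUnion S with hT
  set a' : Fin d → ℤ → intRing Ω := fun j k ↦ if k ∈ S j then a j k else 0 with ha'
  set A : Fin d → BB p Ω ρ := fun j ↦ ∑ k ∈ T, pz p Ω ρ k * tch ρ (a' j k) with hA
  have hAclose : ∀ j ∈ J, ‖β j - A j‖ < v := by
    intro j hj
    have heq : A j = ∑ k ∈ S j, pz p Ω ρ k * tch ρ (a j k) := by
      simp only [hA]
      rw [← sum_subset (subset_biUnion_of_mem S hj) (fun k _ hk ↦ by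
        simp only [ha', if_neg hk, tch_zero, mul_zero])]
      exact sum_congr rfl fun k hk ↦ by simp only [ha', if_pos hk]
    rw [heq]
    exact ha j
  have hAle : ∀ j ∈ J, ‖A j‖ ≤ v := fun j hj ↦ by
    rw [show A j = β j + -(β j - A j) by ring]
    exact (IsUltrametricDist.norm_add_le_max _ _).trans
      (max_le (hJnorm j hj).le (by rw [norm_neg]; exact (hAclose j hj).le))
  have hcoef : ∀ j ∈ J, ∀ k ∈ T, ρ.val ^ k * ‖(a' j k : Ω)‖ ≤ v := fun j hj k hk ↦
    (le_norm_monos T (a' j) hk).trans (hAle j hj)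
  obtain ⟨k, hkT, hk⟩ : ∃ k ∈ T, v ≤ ρ.val ^ k * ‖(a' j1 k : Ω)‖ := by
    by_contra hnone
    push Not at hnone
    have h1 : ‖A j1‖ = v := by
      rw [show A j1 = -(β j1 - A j1) + β j1 by ring,
        IsUltrametricDist.norm_add_eq_max_of_norm_ne_norm, norm_neg,
        max_eq_right (hAclose j1 hj1J).le]
      rw [norm_neg]
      exact (hAclose j1 hj1J).ne
    rcases T.eq_empty_or_nonempty with hTe | hTne
    · simp only [hA, hTe, sum_empty, norm_zero] at h1
      linarith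
    obtain ⟨k', hk', hmax⟩ := exists_max_image T (fun k ↦ ρ.val ^ k * ‖(a' j1 k : Ω)‖) hTne
    have h2 : ‖A j1‖ ≤ ρ.val ^ k' * ‖(a' j1 k' : Ω)‖ :=
      IsUltrametricDist.norm_sum_le_of_forall_le_of_nonneg
        (mul_nonneg (zpow_nonneg ρ.pos.le _) (norm_nonneg _)) fun k hk ↦ by
          rw [norm_pz_mul, norm_tch]
          exact hmax k hk
    linarith [hnone k' hk']
  have hkeq : ρ.val ^ k * ‖(a' j1 k : Ω)‖ = v := le_antisymm (hcoef j1 hj1J k hkT) hk
  have hρk : 0 < ρ.val ^ k := zpow_pos ρ.pos k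
  refine level_contra x hred J hj1J hJlev (hxpos j1) (fun j ↦ a' j k) ?_ (fun j hj ↦ ?_)
    ((n : ℤ) * l1 + m0) (fun i hi ↦ ?_)
  · have hprod : 0 < ρ.val ^ k * ‖(a' j1 k : Ω)‖ := hkeq ▸ hvpos
    exact pos_of_mul_pos_right hprod hρk.le
  · exact le_of_mul_le_mul_left ((hcoef j hj k hkT).trans_eq hkeq.symm) hρk
  set u : Fin d → intRing Ω := fun j ↦ pw (p := p) ((n : ℤ) * l1 + m0 + i) (x j).val with hu
  set U := ‖((u j1 : intRing Ω) : Ω)‖ with hU
  have hUpos : 0 < U := by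
    rw [hU, hu, norm_pw]
    exact Real.rpow_pos_of_pos (hxpos j1) _
  have hulev : ∀ j ∈ J, ‖((u j : intRing Ω) : Ω)‖ = U := fun j hj ↦ by
    simp only [hU, hu, norm_pw]
    show lv (x j) ^ _ = lv (x j1) ^ _
    rw [hJlev j hj]
  have h1 : ‖∑ j ∈ J, A j * tch ρ (u j)‖ < v * U := by
    rw [show ∑ j ∈ J, A j * tch ρ (u j) =
      ∑ j ∈ J, β j * tch ρ (u j) + ∑ j ∈ J, -((β j - A j) * tch ρ (u j)) by
      rw [← sum_add_distrib]; exact sum_congr rfl fun j _ ↦ by ring]
    refine (IsUltrametricDist.norm_add_le_max _ _).trans_lt (max_lt (hres i hi) ?_)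
    obtain ⟨j', hj', hmax⟩ := exists_max_image J
      (fun j ↦ ‖-((β j - A j) * tch ρ (u j))‖) ⟨j1, hj1J⟩
    refine (IsUltrametricDist.norm_sum_le_of_forall_le_of_nonneg (norm_nonneg _) hmax).trans_lt ?_
    rw [norm_neg, mul_comm, norm_tch_mul, hulev j' hj', mul_comm]
    exact mul_lt_mul_of_pos_right (hAclose j' hj') hUpos
  have h2 : ‖∑ k ∈ T, pz p Ω ρ k * tch ρ (∑ j ∈ J, a' j k * u j)‖ < v * U := by
    have heq : ∑ k ∈ T, pz p Ω ρ k * tch ρ (∑ j ∈ J, a' j k * u j) =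
        ∑ j ∈ J, A j * tch ρ (u j) - ∑ k ∈ T, pz p Ω ρ k *
          (∑ j ∈ J, tch ρ (a' j k * u j) - tch ρ (∑ j ∈ J, a' j k * u j)) := by
      simp only [hA, sum_mul, map_mul, mul_sub, sum_sub_distrib, mul_sum, mul_assoc]
      rw [sum_comm]
      ring
    rw [heq, sub_eq_add_neg]
    refine (IsUltrametricDist.norm_add_le_max _ _).trans_lt (max_lt h1 ?_)
    rw [norm_neg]
    refine (IsUltrametricDist.norm_sum_le_of_forall_le_of_nonneg
      (mul_nonneg ρ.pos.le (mul_nonneg hvpos.le hUpos.le)) fun k hk ↦ ?_).trans_lt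
      (mul_lt_of_lt_one_left (mul_pos hvpos hUpos) ρ.lt_one)
    rw [norm_pz_mul]
    have hk0 : 0 < ρ.val ^ k := zpow_pos ρ.pos k
    have hb := norm_sum_tch_sub (p := p) (ρ := ρ) J (fun j ↦ a' j k * u j)
      (B := v * U / ρ.val ^ k) (by positivity) fun j hj ↦ by
        rw [Subring.coe_mul, norm_mul, hulev j hj, le_div_iff₀ hk0]
        calc ‖(a' j k : Ω)‖ * U * ρ.val ^ k = (ρ.val ^ k * ‖(a' j k : Ω)‖) * U := by ring
          _ ≤ v * U := mul_le_mul_of_nonneg_right (hcoef j hj k hk) hUpos.le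
    refine (mul_le_mul_of_nonneg_left hb hk0.le).trans_eq ?_
    field_simp
  have h3 := (le_norm_monos T (fun k ↦ ∑ j ∈ J, a' j k * u j) hkT).trans_lt h2
  rw [← hkeq, mul_assoc, ← norm_mul, ← Subring.coe_mul] at h3
  exact lt_of_mul_lt_mul_left h3 hρk.le

end Vale.Agent.P217.Indep
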