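import Vale.Agent.P217.Indep.Log
import Mathlib.RingTheory.Polynomial.Cyclotomic.Roots
import Mathlib.Data.Nat.Factorization.Basic

/-!
Points of formal groups in `O` to first order, and homomorphisms to Honda groups as sums of
monomials `d_t X^(p^t)`.
-/

noncomputable section

namespace Vale.Agent.P217.Indep

open Filter Finset
open scoped Topology

variable {p : ℕ} [hp : Fact p.Prime] {Ω : Type} [NontriviallyNormedField Ω] [IsUltrametricDist Ω]
  [GoodField p Ω]

theorem small_of_lt {x : (intRing Ω)} (hx : ‖(x : Ω)‖ < 1) : IsTopologicallyNilpotent x :=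
  isTopologicallyNilpotent_intRing.mpr hx

theorem lt_of_small {x : (intRing Ω)} (hx : IsTopologicallyNilpotent x) : ‖(x : Ω)‖ < 1 :=
  isTopologicallyNilpotent_intRing.mp hx

omit [GoodField p Ω] in
theorem norm_ev_sub_le [CompleteSpace Ω] {σ : Type*} [Finite σ] {a b : σ → (intRing Ω)} {r C : ℝ} (hr : r < 1) (hC : 0 ≤ C)
    (ha : ∀ i, ‖(a i : Ω)‖ ≤ r) (hb : ∀ i, ‖(b i : Ω)‖ ≤ r) (f : MvPowerSeries σ (intRing Ω))
    (h : ∀ d : σ →₀ ℕ, MvPowerSeries.coeff d f ≠ 0 →
      ‖((d.prod (fun s e ↦ a s ^ e) - d.prod (fun s e ↦ b s ^ e) : (intRing Ω)) : Ω)‖ ≤ C) :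
    ‖((ev f a - ev f b : (intRing Ω)) : Ω)‖ ≤ C := by
  have h1 := ((hasSum_ev (fun i ↦ small_of_lt ((ha i).trans_lt hr)) f).sub
    (hasSum_ev (fun i ↦ small_of_lt ((hb i).trans_lt hr)) f)).map (intRing Ω).subtype
      continuous_subtype_val
  refine norm_le_of_hasSum hC h1 fun d ↦ ?_
  simp only [Function.comp_apply, ← mul_sub]
  rw [show (intRing Ω).subtype = fun x : (intRing Ω) ↦ (x : Ω) from rfl]
  simp only [Subring.coe_mul, norm_mul]
  by_cases hd : MvPowerSeries.coeff d f = 0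
  · simpa [hd] using hC
  · exact (mul_le_of_le_one_left (norm_nonneg _) (MvPowerSeries.coeff d f).2).trans (h d hd)

omit [GoodField p Ω] in
theorem norm_evO_le [CompleteSpace Ω] {σ : Type*} [Finite σ] {a : σ → (intRing Ω)} {r : ℝ} (hr : r < 1) (hr0 : 0 ≤ r)
    (ha : ∀ i, ‖(a i : Ω)‖ ≤ r) (f : MvPowerSeries σ (intRing Ω)) (D : ℕ)
    (hD : ∀ d : σ →₀ ℕ, d.degree < D → MvPowerSeries.coeff d f = 0) :
    ‖((ev f a : (intRing Ω)) : Ω)‖ ≤ r ^ D := by
  have hsm : IsSmall a := fun i ↦ small_of_lt ((ha i).trans_lt hr)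
  refine norm_le_of_hasSum (pow_nonneg hr0 _)
    ((hasSum_ev hsm f).map (intRing Ω).subtype continuous_subtype_val) fun d ↦ ?_
  show ‖((MvPowerSeries.coeff d f * d.prod fun s e ↦ a s ^ e : (intRing Ω)) : Ω)‖ ≤ r ^ D
  by_cases hd : d.degree < D
  · rw [hD d hd, zero_mul]
    simpa using pow_nonneg hr0 _
  · rw [Subring.coe_mul, norm_mul]
    refine (mul_le_of_le_one_left (norm_nonneg _) (MvPowerSeries.coeff d f).2).trans ?_
    refine le_trans ?_ (pow_le_pow_of_le_one hr0 hr.le (not_lt.mp hd))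
    rw [Finsupp.degree_apply, ← prod_pow_eq_pow_sum, Finsupp.prod, SubmonoidClass.coe_finsetProd,
      norm_prod]
    refine prod_le_prod (fun i _ ↦ norm_nonneg _) fun i _ ↦ ?_
    rw [SubmonoidClass.coe_pow, norm_pow]
    exact pow_le_pow_left₀ (norm_nonneg _) (ha i) _

variable {n : ℕ} (φ : Haz.A n →+* intRing Ω)

theorem norm_addVal_sub_le {u v : (intRing Ω)} {r : ℝ} (hr : r < 1) (hu : ‖(u : Ω)‖ ≤ r)
    (hv : ‖(v : Ω)‖ ≤ r) :
    ‖((Haz.addVal p φ u v - (u + v) : (intRing Ω)) : Ω)‖ ≤ ‖(v : Ω)‖ * r := by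
  classical
  have hr0 : 0 ≤ r := (norm_nonneg _).trans hu
  have hus := small_of_lt (hu.trans_lt hr)
  have ha : ∀ i, ‖((![u, v] i : (intRing Ω)) : Ω)‖ ≤ r := by intro i; fin_cases i <;> assumption
  have hb : ∀ i, ‖((![u, 0] i : (intRing Ω)) : Ω)‖ ≤ r := by
    intro i
    fin_cases i
    · exact hu
    · simpa using hr0
  have hsa : IsSmall ![u, v] := fun i ↦ small_of_lt ((ha i).trans_lt hr)
  have hsb : IsSmall ![u, 0] := fun i ↦ small_of_lt ((hb i).trans_lt hr)
  set F := MvPowerSeries.map φ (Haz.law p n).toPowerSeries with hF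
  set g := F - MvPowerSeries.X 0 - MvPowerSeries.X 1 with hg
  have h1 : ev g ![u, v] - ev g ![u, 0] = Haz.addVal p φ u v - (u + v) := by
    rw [hg, ev_sub hsa, ev_sub hsa, ev_sub hsb, ev_sub hsb, ev_X, ev_X, ev_X, ev_X]
    have h0 : ev F ![u, 0] = u := by
      show Haz.addVal p φ u 0 = u
      rw [Haz.addVal_comm p φ hus IsTopologicallyNilpotent.zero, Haz.addVal_zero p φ hus]
    rw [h0]
    simp only [Matrix.cons_val_zero, Matrix.cons_val_one, Matrix.cons_val_fin_one]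
    show Haz.addVal p φ u v - u - v - (u - u - 0) = _
    ring
  rw [← h1]
  refine norm_ev_sub_le hr (mul_nonneg (norm_nonneg _) hr0) ha hb g fun d hd ↦ ?_
  have hprod : ∀ a : Fin 2 → (intRing Ω), d.prod (fun s e ↦ a s ^ e) = a 0 ^ d 0 * a 1 ^ d 1 := fun a ↦ by
    rw [Finsupp.prod_fintype _ _ fun i ↦ pow_zero _, Fin.prod_univ_two]
  rw [hprod, hprod]
  simp only [Matrix.cons_val_zero, Matrix.cons_val_one, Matrix.cons_val_fin_one]
  by_cases h10 : d 1 = 0
  · simp [h10, mul_nonneg (norm_nonneg (v : Ω)) hr0]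
  have hdeg : 2 ≤ d 0 + d 1 := by
    by_contra hlt
    have h01 : d 0 = 0 ∧ d 1 = 1 := by omega
    have hd' : d = Finsupp.single 1 1 := by
      ext i
      fin_cases i <;> simp [h01.1, h01.2]
    apply hd
    rw [hg, map_sub, map_sub, hd', hF, MvPowerSeries.coeff_map, (Haz.law p n).lin_coeff_Y, map_one,
      MvPowerSeries.coeff_index_single_X, MvPowerSeries.coeff_index_single_X]
    simp
  rw [zero_pow h10, mul_zero, sub_zero, Subring.coe_mul, norm_mul, SubmonoidClass.coe_pow,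
    SubmonoidClass.coe_pow, norm_pow, norm_pow]
  obtain ⟨j, hj⟩ : ∃ j, d 1 = j + 1 := ⟨d 1 - 1, by omega⟩
  rw [hj, pow_succ, ← mul_assoc, mul_comm _ ‖(v : Ω)‖]
  refine mul_le_mul_of_nonneg_left ?_ (norm_nonneg _)
  calc ‖(u : Ω)‖ ^ d 0 * ‖(v : Ω)‖ ^ j ≤ r ^ d 0 * r ^ j :=
        mul_le_mul (pow_le_pow_left₀ (norm_nonneg _) hu _) (pow_le_pow_left₀ (norm_nonneg _) hv _)
          (pow_nonneg (norm_nonneg _) _) (pow_nonneg hr0 _)
    _ = r ^ (d 0 + j) := (pow_add _ _ _).symm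
    _ ≤ r := pow_le_of_le_one hr0 hr.le (by omega)

theorem norm_addVal_le' {u v : (intRing Ω)} {r : ℝ} (hr : r < 1) (hu : ‖(u : Ω)‖ ≤ r)
    (hv : ‖(v : Ω)‖ ≤ r) : ‖((Haz.addVal p φ u v : (intRing Ω)) : Ω)‖ ≤ r := by
  refine (norm_evO_le hr ((norm_nonneg _).trans hu)
    (by intro i; fin_cases i <;> assumption) _ 1 fun d hd ↦ ?_).trans_eq (pow_one r)
  obtain rfl : d = 0 := by
    rw [← Finsupp.degree_eq_zero_iff]
    omega
  rw [MvPowerSeries.coeff_map, MvPowerSeries.coeff_zero_eq_constantCoeff_apply,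
    (Haz.law p n).zero_constantCoeff, map_zero]

/-- Formal differences are ordinary differences to first order. -/
theorem norm_sub_pt (x y : Haz.Pt p φ) :
    ‖((x.val - y.val : (intRing Ω)) : Ω)‖ = ‖((x - y).val : Ω)‖ ∧
      ‖((x.val - y.val - (x - y).val : (intRing Ω)) : Ω)‖ ≤
        ‖((x - y).val : Ω)‖ * max ‖(y.val : Ω)‖ ‖((x - y).val : Ω)‖ := by
  set d := x - y with hd
  have hx : x.val = Haz.addVal p φ y.val d.val := by
    rw [← Haz.add_val, hd, add_sub_cancel]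
  set r := max ‖(y.val : Ω)‖ ‖(d.val : Ω)‖
  have hr : r < 1 := max_lt (lt_of_small y.small) (lt_of_small d.small)
  have hb : ‖((x.val - y.val - d.val : (intRing Ω)) : Ω)‖ ≤ ‖(d.val : Ω)‖ * r := by
    rw [show x.val - y.val - d.val = x.val - (y.val + d.val) by ring, hx]
    exact norm_addVal_sub_le φ hr (le_max_left _ _) (le_max_right _ _)
  refine ⟨?_, hb⟩
  rcases eq_or_lt_of_le (norm_nonneg (d.val : Ω)) with h0 | h0
  · have hd0 : d = 0 := Haz.Pt.ext (Subtype.ext (norm_eq_zero.mp h0.symm))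
    rw [hd] at hd0
    have hxy : x = y := sub_eq_zero.mp hd0
    rw [← h0, hxy, sub_self]
    simp
  · have hlt : ‖((x.val - y.val - d.val : (intRing Ω)) : Ω)‖ < ‖(d.val : Ω)‖ :=
      hb.trans_lt (mul_lt_of_lt_one_right h0 hr)
    calc ‖((x.val - y.val : (intRing Ω)) : Ω)‖
        = ‖((x.val - y.val - d.val : (intRing Ω)) : Ω) + (d.val : Ω)‖ := by
          congr 1
          push_cast
          ring
      _ = max ‖((x.val - y.val - d.val : (intRing Ω)) : Ω)‖ ‖(d.val : Ω)‖ :=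
          IsUltrametricDist.norm_add_eq_max_of_norm_ne_norm hlt.ne
      _ = _ := max_eq_right hlt.le

theorem norm_sum_pt {ι : Type*} (s : Finset ι) (P : ι → Haz.Pt p φ) {r : ℝ} (hr : r < 1)
    (hr0 : 0 ≤ r) (hP : ∀ i ∈ s, ‖((P i).val : Ω)‖ ≤ r) :
    ‖((∑ i ∈ s, P i).val : Ω)‖ ≤ r ∧
      ‖(((∑ i ∈ s, P i).val - ∑ i ∈ s, (P i).val : (intRing Ω)) : Ω)‖ ≤ r * r := by
  classical
  induction s using Finset.induction with
  | empty => simp [Haz.zero_val, hr0, mul_nonneg hr0 hr0]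
  | @insert a s ha ih =>
    obtain ⟨h1, h2⟩ := ih fun i hi ↦ hP i (mem_insert_of_mem hi)
    have h3 := hP a (mem_insert_self a s)
    rw [sum_insert ha, sum_insert ha, Haz.add_val]
    refine ⟨norm_addVal_le' φ hr h3 h1, ?_⟩
    set S := (∑ i ∈ s, P i).val
    rw [show Haz.addVal p φ (P a).val S - ((P a).val + ∑ i ∈ s, (P i).val) =
      (Haz.addVal p φ (P a).val S - ((P a).val + S)) + (S - ∑ i ∈ s, (P i).val) by ring,
      Subring.coe_add]
    exact (IsUltrametricDist.norm_add_le_max _ _).trans (max_le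
      ((norm_addVal_sub_le φ hr h3 h1).trans (mul_le_mul_of_nonneg_right h1 hr0)) h2)

/-- A root of unity of prime order different from `p` reduces to a nontrivial one. -/
theorem norm_root_sub_one {w : (intRing Ω)} {l : ℕ} (hl : ¬ p ∣ l) (hw : w ^ l = 1) (hw1 : w ≠ 1) :
    ‖((w - 1 : (intRing Ω)) : Ω)‖ = 1 := by
  by_contra hne
  have hlt : ‖((w - 1 : (intRing Ω)) : Ω)‖ < 1 := lt_of_le_of_ne (w - 1).2 hne
  have hgeom : (∑ i ∈ range l, w ^ i) * (w - 1) = 0 := by rw [geom_sum_mul, hw, sub_self]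
  have hS : ∑ i ∈ range l, w ^ i = 0 :=
    (mul_eq_zero.mp hgeom).resolve_right (sub_ne_zero.mpr hw1)
  have hl1 : ‖((l : (intRing Ω)) : Ω)‖ = 1 := by
    have hfrob : ((l : (intRing Ω)) : Ω) ^ p = ((l : (intRing Ω)) : Ω) := by
      rw [map_natCast (intRing Ω).subtype l |> fun h ↦ (h : ((l : (intRing Ω)) : Ω) = (l : Ω))]
      exact map_natCast (frobenius Ω p) l
    have hne0 : ((l : (intRing Ω)) : Ω) ≠ 0 := by
      rw [map_natCast (intRing Ω).subtype l |> fun h ↦ (h : ((l : (intRing Ω)) : Ω) = (l : Ω)), Ne,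
        CharP.cast_eq_zero_iff Ω p]
      exact hl
    have h := congrArg norm hfrob
    rw [norm_pow] at h
    have hpos := norm_pos_iff.mpr hne0
    have h' : ‖((l : (intRing Ω)) : Ω)‖ ^ (p - 1) = 1 := by
      apply mul_right_cancel₀ hpos.ne'
      rw [← pow_succ, Nat.sub_add_cancel hp.out.one_le, h, one_mul]
    exact (pow_eq_one_iff_of_nonneg (norm_nonneg _) (by have := hp.out.two_le; omega)).mp h'
  have hle : ‖((l : (intRing Ω)) : Ω)‖ ≤ ‖((w - 1 : (intRing Ω)) : Ω)‖ := by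
    have h2 : (l : (intRing Ω)) = ∑ i ∈ range l, (1 - w ^ i) := by
      rw [sum_sub_distrib, hS, sub_zero, sum_const, card_range, nsmul_eq_mul, mul_one]
    rw [h2, AddSubmonoidClass.coe_finsetSum]
    refine IsUltrametricDist.norm_sum_le_of_forall_le_of_nonneg (norm_nonneg _) fun i _ ↦ ?_
    obtain ⟨e, he⟩ := sub_one_dvd_pow_sub_one w i
    rw [← norm_neg, ← NegMemClass.coe_neg, neg_sub, he, Subring.coe_mul, norm_mul]
    exact mul_le_of_le_one_right (norm_nonneg _) e.2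
  linarith

theorem norm_mul_of_close {ρ : Rad} {x : BB p Ω ρ} {v : (intRing Ω)}
    (hx : ‖x - tch ρ v‖ < ‖(v : Ω)‖) (z : BB p Ω ρ) : ‖x * z‖ = ‖(v : Ω)‖ * ‖z‖ := by
  rcases eq_or_lt_of_le (norm_nonneg z) with h0 | h0
  · simp [norm_eq_zero.mp h0.symm]
  · have hlt : ‖(x - tch ρ v) * z‖ < ‖tch ρ v * z‖ := by
      rw [norm_tch_mul]
      exact (norm_mul_le _ _).trans_lt (mul_lt_mul_of_pos_right hx h0)
    rw [show x * z = (x - tch ρ v) * z + tch ρ v * z by ring,
      IsUltrametricDist.norm_add_eq_max_of_norm_ne_norm hlt.ne, max_eq_right hlt.le, norm_tch_mul]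

theorem sum_tch_pow_eq_zero {ρ : Rad} {w : (intRing Ω)} {l : ℕ} (hl : ¬ p ∣ l) (hw : w ^ l = 1)
    (hw1 : w ≠ 1) : ∑ i ∈ range l, (tch (p := p) ρ w) ^ i = 0 := by
  have h := norm_root_sub_one (p := p) hl hw hw1
  have hclose : ‖(tch (p := p) ρ w - 1) - tch ρ (w - 1)‖ < ‖((w - 1 : (intRing Ω)) : Ω)‖ := by
    rw [h]
    have h2 := norm_teich_sub_le (p := p) (ρ := ρ) (w - 1) 1
    rw [sub_add_cancel, map_one] at h2
    rw [show tch (p := p) ρ w - 1 - tch ρ (w - 1) = tch ρ w - (tch ρ (w - 1) + 1) by ring]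
    exact (h2.trans (mul_le_of_le_one_right ρ.pos.le (max_le (w - 1).2 (1 : (intRing Ω)).2))).trans_lt
      ρ.lt_one
  have h0 := norm_mul_of_close hclose (∑ i ∈ range l, (tch (p := p) ρ w) ^ i)
  rw [h, one_mul, mul_comm, geom_sum_mul, ← map_pow, hw, map_one, sub_self, norm_zero] at h0
  exact norm_eq_zero.mp h0.symm

/-- The formal sum of the multiples of a point by all `l`-th roots of unity vanishes. -/
theorem sum_roots_zero {l : ℕ} (hlp : l.Prime) (hl : l ≠ p) {ζ : (intRing Ω)} (hζ : ζ ^ l = 1)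
    (hζ1 : ζ ≠ 1) (P : ℕ → Haz.Pt p φ) {z : (intRing Ω)} (hz : ‖(z : Ω)‖ < 1)
    (hP : ∀ i, (P i).val = ζ ^ i * z) : ∑ i ∈ range l, P i = 0 := by
  obtain ⟨ρ, hρ⟩ : ∃ ρ : Rad, ‖(z : Ω)‖ < ρ.val :=
    ⟨⟨(‖(z : Ω)‖ + 1) / 2, by have := norm_nonneg (z : Ω); linarith, by linarith⟩,
      by show ‖(z : Ω)‖ < (‖(z : Ω)‖ + 1) / 2; linarith⟩
  have hbd : ∀ i ∈ range l, ‖((P i).val : Ω)‖ ≤ ‖(z : Ω)‖ := fun i _ ↦ by
    rw [hP, Subring.coe_mul, norm_mul]
    exact mul_le_of_le_one_left (norm_nonneg _) (ζ ^ i).2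
  obtain ⟨c, hc, hres, hlog⟩ := exists_lift_sum ρ φ (range l) P hz (norm_nonneg _) hbd
  have hnd : ¬ p ∣ l := fun hd ↦ hl ((Nat.prime_dvd_prime_iff_eq hp.out hlp).mp hd).symm
  have hzero : ∑ i ∈ range l, logV (hatPhi ρ φ) (tW ρ (P i).val) = 0 := by
    have hs : HasSum (fun m ↦ ∑ i ∈ range l, logTerm (hatPhi ρ φ) (tW ρ (P i).val) m)
        (∑ i ∈ range l, logV (hatPhi ρ φ) (tW ρ (P i).val)) :=
      hasSum_sum fun i hi ↦
        (summable_logTerm _ (by rw [norm_tW]; exact (hbd i hi).trans_lt hz)).hasSum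
    refine hs.unique ((hasSum_zero).congr_fun fun m ↦ ?_)
    simp only [logTerm, hP]
    have hw : (ζ ^ p ^ m) ^ l = 1 := by rw [← pow_mul, mul_comm, pow_mul, hζ, one_pow]
    have hw1 : ζ ^ p ^ m ≠ 1 := by
      intro h1
      refine hζ1 ?_
      have hcop : Nat.Coprime (p ^ m) l := ((Nat.coprime_primes hp.out hlp).mpr (Ne.symm hl)).pow_left m
      have : ζ ^ Nat.gcd (p ^ m) l = 1 := pow_gcd_eq_one.mpr ⟨h1, hζ⟩
      rwa [hcop, pow_one] at this
    have key : ∀ i, pz p Ω ρ (-(m : ℤ)) *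
        jB ρ (hatPhi ρ φ (dA p n m) * tW ρ (ζ ^ i * z) ^ p ^ m) =
        pz p Ω ρ (-(m : ℤ)) * jB ρ (hatPhi ρ φ (dA p n m)) * tch ρ (z ^ p ^ m) *
          tch ρ (ζ ^ p ^ m) ^ i := by
      intro i
      rw [map_mul, ← map_pow, jB_tW, mul_pow, map_mul, ← pow_mul, mul_comm i, pow_mul, map_pow]
      ring
    rw [sum_congr rfl fun i _ ↦ key i, ← mul_sum, sum_tch_pow_eq_zero hnd hw hw1, mul_zero]
  rw [hzero] at hlog
  have hc1 : ‖c‖ < 1 := hc.trans_lt hz
  have hc0 : c = 0 := by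
    by_contra hne
    have hpos : 0 < ‖c‖ := norm_pos_iff.mpr hne
    have hs := (summable_logTerm (hatPhi ρ φ) hc1).hasSum
    rw [show (∑' m, logTerm (hatPhi ρ φ) c m) = logV (hatPhi ρ φ) c from rfl, hlog] at hs
    have h1 : HasSum (fun m ↦ logTerm (hatPhi ρ φ) c (m + 1)) (-logTerm (hatPhi ρ φ) c 0) := by
      have := (hasSum_nat_add_iff' 1).mpr hs
      simpa using this
    set θ := ‖c‖ / ρ.val
    have hθ : θ < 1 := (div_lt_one ρ.pos).mpr (hc.trans_lt hρ)
    have hθ0 : 0 ≤ θ := div_nonneg hpos.le ρ.pos.le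
    have h2 := norm_le_of_hasSum (mul_nonneg hθ0 hpos.le) h1 fun m ↦ by
      refine (norm_logTerm_le _ _ _).trans ?_
      obtain ⟨t, ht⟩ : ∃ t, p ^ (m + 1) = t + 1 :=
        Nat.exists_eq_add_of_le' (Nat.one_le_pow _ _ hp.out.pos)
      have hmt : m + 1 ≤ t := by
        have := Nat.lt_pow_self (n := m + 1) hp.out.one_lt
        omega
      rw [ht, pow_succ ‖c‖, ← mul_assoc]
      refine mul_le_mul_of_nonneg_right ?_ hpos.le
      calc (ρ.val⁻¹) ^ (m + 1) * ‖c‖ ^ t ≤ (ρ.val⁻¹) ^ (m + 1) * ‖c‖ ^ (m + 1) :=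
            mul_le_mul_of_nonneg_left (pow_le_pow_of_le_one hpos.le hc1.le hmt)
              (pow_nonneg (inv_nonneg.mpr ρ.pos.le) _)
        _ = θ ^ (m + 1) := by rw [← mul_pow, inv_mul_eq_div]
        _ ≤ θ := pow_le_of_le_one hθ0 hθ.le (Nat.succ_ne_zero m)
    rw [norm_neg] at h2
    have h3 : ‖logTerm (hatPhi ρ φ) c 0‖ = ‖c‖ := by
      simp [logTerm, dA, pz_zero, norm_jB]
    rw [h3] at h2
    nlinarith
  apply Haz.Pt.ext
  rw [← hres, hc0, map_zero]
  rfl

variable {h : ℕ} {H : PowerSeries (intRing Ω)}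

/-- Evaluation of a homomorphism of formal groups on points. -/
theorem ev_hom_add (hH : IsFGHom ((Haz.law p n).map φ) (honda p h (intRing Ω)) H) (x y : Haz.Pt p φ) :
    ev H (fun _ : Unit ↦ (x + y).val) =
      Haz.addVal p (zeroSpec h (intRing Ω)) (ev H fun _ ↦ x.val) (ev H fun _ ↦ y.val) := by
  have hsm : IsSmall ![x.val, y.val] := Haz.isSmall_pair x.small y.small
  have h := congrArg (fun f ↦ ev f ![x.val, y.val]) hH.2
  have hF0 : MvPowerSeries.constantCoeff ((Haz.law p n).map φ).toPowerSeries = 0 :=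
    ((Haz.law p n).map φ).zero_constantCoeff
  have hsub : ∀ j : Fin 2, MvPowerSeries.constantCoeff
      (PowerSeries.subst (MvPowerSeries.X j : MvPowerSeries (Fin 2) (intRing Ω)) H) = 0 := fun j ↦
    MvPowerSeries.constantCoeff_subst_eq_zero
      (MvPowerSeries.hasSubst_of_constantCoeff_zero fun _ ↦ MvPowerSeries.constantCoeff_X j)
      (fun _ ↦ MvPowerSeries.constantCoeff_X j) hH.1
  have heval : ∀ j : Fin 2, ev (PowerSeries.subst (MvPowerSeries.X j : MvPowerSeries (Fin 2) (intRing Ω)) H)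
      ![x.val, y.val] = ev H fun _ : Unit ↦ ![x.val, y.val] j := by
    intro j
    rw [PowerSeries.subst, ev_subst (fun _ ↦ MvPowerSeries.constantCoeff_X j) hsm]
    simp only [ev_X]
  rw [PowerSeries.subst, ev_subst (fun _ ↦ hF0) hsm,
    ev_subst (Haz.constantCoeff_pair (hsub 0) (hsub 1)) hsm] at h
  rw [Haz.add_val, Haz.addVal, Haz.addVal]
  refine Eq.trans h (congrArg (ev _) (funext fun j ↦ ?_))
  fin_cases j
  · simpa using heval 0
  · simpa using heval 1

theorem norm_evH_le (hH : IsFGHom ((Haz.law p n).map φ) (honda p h (intRing Ω)) H) {z : (intRing Ω)}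
    (hz : ‖(z : Ω)‖ < 1) : ‖((ev H (fun _ : Unit ↦ z) : (intRing Ω)) : Ω)‖ ≤ ‖(z : Ω)‖ := by
  refine (norm_evO_le hz (norm_nonneg _) (fun _ ↦ le_rfl) H 1 fun d hd ↦ ?_).trans_eq (pow_one _)
  obtain rfl : d = 0 := by
    rw [← Finsupp.degree_eq_zero_iff]
    omega
  exact hH.1

/-- A homomorphism of formal groups as a map of points. -/
def hPt (hH : IsFGHom ((Haz.law p n).map φ) (honda p h (intRing Ω)) H) :
    Haz.Pt p φ →+ Haz.Pt p (zeroSpec h (intRing Ω)) :=
  AddMonoidHom.mk' (fun x ↦ ⟨ev H (fun _ : Unit ↦ x.val), small_of_lt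
    ((norm_evH_le φ hH (lt_of_small x.small)).trans_lt (lt_of_small x.small))⟩)
    fun x y ↦ Haz.Pt.ext (ev_hom_add φ hH x y)

theorem hPt_val (hH : IsFGHom ((Haz.law p n).map φ) (honda p h (intRing Ω)) H) (x : Haz.Pt p φ) :
    (hPt φ hH x).val = ev H (fun _ : Unit ↦ x.val) := rfl

/-- The coefficient series with a single term `c X^m`. -/
def monoS (m : ℕ) (c : (intRing Ω)) : PowerSeries (intRing Ω) :=
  MvPowerSeries.C c * MvPowerSeries.X () ^ m

omit [GoodField p Ω] in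
theorem ev_monoS [CompleteSpace Ω] (m : ℕ) (c : (intRing Ω)) {z : (intRing Ω)} (hz : ‖(z : Ω)‖ < 1) :
    ev (monoS m c) (fun _ : Unit ↦ z) = c * z ^ m := by
  rw [monoS, ev_mul (fun _ ↦ small_of_lt hz), ev_C, ev_pow (fun _ ↦ small_of_lt hz), ev_X]

theorem coeff_monoS (m : ℕ) (c : (intRing Ω)) (i : ℕ) :
    PowerSeries.coeff i (monoS (Ω := Ω) m c) = if i = m then c else 0 := by
  rw [monoS]
  show PowerSeries.coeff i (PowerSeries.C c * PowerSeries.X ^ m) = _
  rw [PowerSeries.coeff_C_mul, PowerSeries.coeff_X_pow]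
  split_ifs <;> simp

omit [GoodField p Ω] in
theorem norm_ev_series_le [CompleteSpace Ω] {f : PowerSeries (intRing Ω)} {D : ℕ}
    (hf : ∀ m < D, PowerSeries.coeff m f = 0) {z : (intRing Ω)} (hz : ‖(z : Ω)‖ < 1) :
    ‖((ev f (fun _ : Unit ↦ z) : (intRing Ω)) : Ω)‖ ≤ ‖(z : Ω)‖ ^ D := by
  refine norm_evO_le hz (norm_nonneg _) (fun _ ↦ le_rfl) f D fun d hd ↦ ?_
  obtain ⟨m, rfl⟩ : ∃ m, d = Finsupp.single () m := ⟨d (), Finsupp.unique_ext (by simp)⟩
  exact hf m (by simpa [Finsupp.degree_single] using hd)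

omit [GoodField p Ω] in
theorem lowest_term [CompleteSpace Ω] {f : PowerSeries (intRing Ω)} {m : ℕ}
    (hf : ∀ i < m, PowerSeries.coeff i f = 0) {z : (intRing Ω)} (hz : ‖(z : Ω)‖ < 1) :
    ‖((ev f (fun _ : Unit ↦ z) - PowerSeries.coeff m f * z ^ m : (intRing Ω)) : Ω)‖ ≤
      ‖(z : Ω)‖ ^ (m + 1) := by
  have hg : ∀ i < m + 1, PowerSeries.coeff i (f - monoS m (PowerSeries.coeff m f)) = 0 := by
    intro i hi
    rw [map_sub, coeff_monoS]
    rcases Nat.lt_succ_iff_lt_or_eq.mp hi with hlt | rfl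
    · rw [hf i hlt, if_neg hlt.ne, sub_zero]
    · rw [if_pos rfl, sub_self]
  have h1 := norm_ev_series_le hg hz
  rwa [ev_sub (fun _ ↦ small_of_lt hz), ev_monoS _ _ hz] at h1

/-- A scalar annihilating the lowest term up to higher order vanishes. -/
theorem eq_zero_of_bound {c : (intRing Ω)} {m : ℕ}
    (hb : ∀ z : (intRing Ω), ‖(z : Ω)‖ < 1 → ‖((c * z ^ m : (intRing Ω)) : Ω)‖ ≤ ‖(z : Ω)‖ ^ (m + 1)) : c = 0 := by
  by_contra hne
  have hc : 0 < ‖(c : Ω)‖ := norm_pos_iff.mpr fun h0 ↦ hne (Subtype.ext h0)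
  obtain ⟨w, hw0, hw⟩ := NormedField.exists_norm_lt Ω (lt_min hc one_pos)
  have h1 := hb ⟨w, (hw.trans_le (min_le_right _ _)).le⟩ (hw.trans_le (min_le_right _ _))
  rw [Subring.coe_mul, SubmonoidClass.coe_pow, norm_mul, norm_pow, pow_succ'] at h1
  have h2 : ‖(c : Ω)‖ ≤ ‖w‖ := le_of_mul_le_mul_right h1 (pow_pos hw0 m)
  exact absurd h2 (not_le.mpr (hw.trans_le (min_le_left _ _)))

omit [GoodField p Ω] in
theorem coeff_eq_zero_of_bound [CompleteSpace Ω] {f : PowerSeries (intRing Ω)} {D : ℕ}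
    (hb : ∀ z : (intRing Ω), ‖(z : Ω)‖ < 1 → ‖((ev f (fun _ : Unit ↦ z) : (intRing Ω)) : Ω)‖ ≤ ‖(z : Ω)‖ ^ D)
    (m : ℕ) (hm : m < D) : PowerSeries.coeff m f = 0 := by
  induction m using Nat.strong_induction_on with
  | _ m ih =>
    refine eq_zero_of_bound (m := m) fun z hz ↦ ?_
    have h1 := lowest_term (fun i hi ↦ ih i hi (hi.trans hm)) hz
    have h2 := (hb z hz).trans (pow_le_pow_of_le_one (norm_nonneg _) hz.le (Nat.succ_le_of_lt hm))
    rw [show PowerSeries.coeff m f * z ^ m = ev f (fun _ : Unit ↦ z) +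
      -(ev f (fun _ : Unit ↦ z) - PowerSeries.coeff m f * z ^ m) by ring, Subring.coe_add]
    exact (IsUltrametricDist.norm_add_le_max _ _).trans (max_le h2 (by rwa [NegMemClass.coe_neg, norm_neg]))

theorem exists_root_of_unity {l : ℕ} (hlp : l.Prime) (hl : l ≠ p) :
    ∃ ζ : (intRing Ω), ζ ^ l = 1 ∧ ζ ≠ 1 := by
  have : NeZero ((l : ℕ) : Ω) := ⟨by
    rw [Ne, CharP.cast_eq_zero_iff Ω p]
    exact fun hd ↦ hl ((Nat.prime_dvd_prime_iff_eq hp.out hlp).mp hd).symm⟩
  obtain ⟨w, hw⟩ := IsAlgClosed.exists_root (Polynomial.cyclotomic l Ω)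
    (Polynomial.degree_cyclotomic_pos l Ω hlp.pos).ne'
  have hw' : IsPrimitiveRoot w l := Polynomial.isRoot_cyclotomic_iff.mp hw
  have hn : ‖w‖ = 1 := by
    have h1 := congrArg norm hw'.pow_eq_one
    rw [norm_pow, norm_one] at h1
    exact (pow_eq_one_iff_of_nonneg (norm_nonneg _) hlp.ne_zero).mp h1
  exact ⟨⟨w, hn.le⟩, Subtype.ext hw'.pow_eq_one,
    fun h1 ↦ hw'.ne_one hlp.one_lt (congrArg Subtype.val h1)⟩

variable (p h) in
/-- The approximations of `H` by formal sums of monomials. -/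
def approx (H : PowerSeries (intRing Ω)) : ℕ → PowerSeries (intRing Ω)
  | 0 => 0
  | T + 1 => MvPowerSeries.subst
      ![approx H T, monoS (p ^ T) (PowerSeries.coeff (p ^ T) (H - approx H T))]
      (honda p h (intRing Ω)).toPowerSeries

variable (p h) in
/-- The coefficient of `X^(p^t)` in the expansion of `H`. -/
def dcoef (H : PowerSeries (intRing Ω)) (t : ℕ) : (intRing Ω) := PowerSeries.coeff (p ^ t) (H - approx p h H t)

theorem constantCoeff_approx (H : PowerSeries (intRing Ω)) (T : ℕ) :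
    MvPowerSeries.constantCoeff (approx p h H T) = 0 := by
  induction T with
  | zero => simp [approx]
  | succ T ih =>
    have h0 : MvPowerSeries.constantCoeff (monoS (p ^ T) (dcoef p h H T) : PowerSeries (intRing Ω)) = 0 := by
      simp [monoS, zero_pow (pow_ne_zero T hp.out.ne_zero)]
    exact MvPowerSeries.constantCoeff_subst_eq_zero
      (MvPowerSeries.hasSubst_of_constantCoeff_zero (Haz.constantCoeff_pair ih h0))
      (Haz.constantCoeff_pair ih h0) (honda p h (intRing Ω)).zero_constantCoeff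

variable (p h) in
/-- The point `d z^(p^t)`. -/
def dPt (H : PowerSeries (intRing Ω)) (z : (intRing Ω)) (hz : ‖(z : Ω)‖ < 1) (t : ℕ) : Haz.Pt p (zeroSpec h (intRing Ω)) :=
  ⟨dcoef p h H t * z ^ p ^ t, small_of_lt (by
    rw [Subring.coe_mul, norm_mul, SubmonoidClass.coe_pow, norm_pow]
    exact (mul_le_of_le_one_left (pow_nonneg (norm_nonneg _) _) (dcoef p h H t).2).trans_lt
      (pow_lt_one₀ (norm_nonneg _) hz (pow_ne_zero _ hp.out.ne_zero)))⟩

theorem norm_dPt_le (H : PowerSeries (intRing Ω)) (z : (intRing Ω)) (hz : ‖(z : Ω)‖ < 1) (t : ℕ) :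
    ‖((dPt p h H z hz t).val : Ω)‖ ≤ ‖(z : Ω)‖ ^ p ^ t := by
  show ‖((dcoef p h H t * z ^ p ^ t : (intRing Ω)) : Ω)‖ ≤ _
  rw [Subring.coe_mul, norm_mul, SubmonoidClass.coe_pow, norm_pow]
  exact mul_le_of_le_one_left (pow_nonneg (norm_nonneg _) _) (dcoef p h H t).2

theorem ev_approx (H : PowerSeries (intRing Ω)) (T : ℕ) (z : (intRing Ω)) (hz : ‖(z : Ω)‖ < 1) :
    ev (approx p h H T) (fun _ : Unit ↦ z) = (∑ t ∈ range T, dPt p h H z hz t).val := by
  induction T with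
  | zero => simp [approx, ev_zero (fun _ : Unit ↦ small_of_lt hz), Haz.zero_val]
  | succ T ih =>
    have h0 : MvPowerSeries.constantCoeff (monoS (p ^ T) (dcoef p h H T) : PowerSeries (intRing Ω)) = 0 := by
      simp [monoS, zero_pow (pow_ne_zero T hp.out.ne_zero)]
    rw [sum_range_succ, Haz.add_val, approx]
    show ev (MvPowerSeries.subst ![approx p h H T, monoS (p ^ T) (dcoef p h H T)] _) _ = _
    rw [
      ev_subst (Haz.constantCoeff_pair (constantCoeff_approx H T) h0) (fun _ ↦ small_of_lt hz),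
      Haz.addVal]
    refine congrArg (ev _) (funext fun i ↦ ?_)
    fin_cases i
    · simpa using ih
    · simpa [dPt, dcoef] using ev_monoS (p ^ T) (dcoef p h H T) hz

theorem approx_step (hH : IsFGHom ((Haz.law p n).map φ) (honda p h (intRing Ω)) H) (T : ℕ)
    (ih : ∀ i < p ^ T, PowerSeries.coeff i (H - approx p h H T) = 0) :
    ∀ i < p ^ (T + 1), PowerSeries.coeff i (H - approx p h H (T + 1)) = 0 := by
  have hlow : ∀ i < p ^ T + 1, PowerSeries.coeff i (H - approx p h H (T + 1)) = 0 := by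
    refine coeff_eq_zero_of_bound fun z hz ↦ ?_
    have hsm : IsSmall fun _ : Unit ↦ z := fun _ ↦ small_of_lt hz
    rw [ev_sub hsm]
    set u := ev (approx p h H T) (fun _ : Unit ↦ z)
    set v := dcoef p h H T * z ^ p ^ T
    have h1 : ev (approx p h H (T + 1)) (fun _ : Unit ↦ z) =
        Haz.addVal p (zeroSpec h (intRing Ω)) u v := by
      rw [ev_approx H (T + 1) z hz, sum_range_succ, Haz.add_val, ← ev_approx H T z hz]
      rfl
    have hu : ‖(u : Ω)‖ ≤ ‖(z : Ω)‖ := by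
      refine (norm_ev_series_le (D := 1) (fun i hi ↦ ?_) hz).trans_eq (pow_one _)
      obtain rfl : i = 0 := by omega
      rw [PowerSeries.coeff_zero_eq_constantCoeff_apply]
      exact constantCoeff_approx H T
    have hv : ‖(v : Ω)‖ ≤ ‖(z : Ω)‖ ^ p ^ T := norm_dPt_le H z hz T
    have hvz : ‖(v : Ω)‖ ≤ ‖(z : Ω)‖ :=
      hv.trans (pow_le_of_le_one (norm_nonneg _) hz.le (pow_ne_zero _ hp.out.ne_zero))
    have h2 := norm_addVal_sub_le (p := p) (zeroSpec h (intRing Ω)) hz hu hvz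
    have h3 := lowest_term ih hz
    rw [ev_sub hsm] at h3
    rw [h1, show ev H (fun _ : Unit ↦ z) - Haz.addVal p (zeroSpec h (intRing Ω)) u v =
      (ev H (fun _ : Unit ↦ z) - u - v) + -(Haz.addVal p (zeroSpec h (intRing Ω)) u v - (u + v)) by ring,
      Subring.coe_add, NegMemClass.coe_neg]
    refine (IsUltrametricDist.norm_add_le_max _ _).trans (max_le h3 ?_)
    rw [norm_neg, pow_succ]
    exact h2.trans (mul_le_mul_of_nonneg_right hv (norm_nonneg _))
  intro m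
  induction m using Nat.strong_induction_on with
  | _ m ihm =>
    intro hm
    by_cases hmP : m < p ^ T + 1
    · exact hlow m hmP
    obtain ⟨l, hlp, hl, hlm⟩ : ∃ l : ℕ, l.Prime ∧ l ≠ p ∧ l ∣ m := by
      by_contra hcon
      have hpow := Nat.eq_prime_pow_of_unique_prime_dvd (n := m) (p := p) (by omega)
        fun {d} hd hdm ↦ by
          by_contra hne
          exact hcon ⟨d, hd, hne, hdm⟩
      have hm1 : p ^ T < m := by omega
      rw [hpow] at hm hm1
      have h1 := (Nat.pow_lt_pow_iff_right hp.out.one_lt).mp hm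
      have h2 := (Nat.pow_lt_pow_iff_right hp.out.one_lt).mp hm1
      omega
    obtain ⟨ζ, hζ, hζ1⟩ := exists_root_of_unity (p := p) (Ω := Ω) hlp hl
    set c := PowerSeries.coeff m (H - approx p h H (T + 1)) with hc
    have hlc : (l : (intRing Ω)) * c = 0 := by
      refine eq_zero_of_bound (m := m) fun z hz ↦ ?_
      have hzi : ∀ i, ‖((ζ ^ i * z : (intRing Ω)) : Ω)‖ ≤ ‖(z : Ω)‖ := fun i ↦ by
        rw [Subring.coe_mul, norm_mul]
        exact mul_le_of_le_one_left (norm_nonneg _) (ζ ^ i).2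
      have hzi1 : ∀ i, ‖((ζ ^ i * z : (intRing Ω)) : Ω)‖ < 1 := fun i ↦ (hzi i).trans_lt hz
      let Z : ℕ → Haz.Pt p φ := fun i ↦ ⟨ζ ^ i * z, small_of_lt (hzi1 i)⟩
      let D : ℕ → Haz.Pt p (zeroSpec h (intRing Ω)) := fun i ↦
        hPt φ hH (Z i) - ∑ t ∈ range (T + 1), dPt p h H _ (hzi1 i) t
      have hDsum : ∑ i ∈ range l, D i = 0 := by
        simp only [D, sum_sub_distrib]
        rw [← map_sum, sum_roots_zero φ hlp hl hζ hζ1 Z hz (fun i ↦ rfl), map_zero, sum_comm,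
          zero_sub, neg_eq_zero]
        refine sum_eq_zero fun t _ ↦ sum_roots_zero _ hlp hl (ζ := ζ ^ p ^ t) ?_ ?_ _
          (z := dcoef p h H t * z ^ p ^ t) (lt_of_small (dPt p h H z hz t).small) fun i ↦ ?_
        · rw [← pow_mul, mul_comm, pow_mul, hζ, one_pow]
        · intro h1
          refine hζ1 ?_
          have hcop : Nat.Coprime (p ^ t) l :=
            ((Nat.coprime_primes hp.out hlp).mpr (Ne.symm hl)).pow_left t
          have : ζ ^ Nat.gcd (p ^ t) l = 1 := pow_gcd_eq_one.mpr ⟨h1, hζ⟩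
          rwa [hcop, pow_one] at this
        · show dcoef p h H t * (ζ ^ i * z) ^ p ^ t = (ζ ^ p ^ t) ^ i * (dcoef p h H t * z ^ p ^ t)
          rw [mul_pow, ← pow_mul, ← pow_mul, mul_comm i]
          ring
      let e : ℕ → (intRing Ω) := fun i ↦ ev (H - approx p h H (T + 1)) fun _ : Unit ↦ ζ ^ i * z
      have he : ∀ i, ‖(e i : Ω)‖ ≤ ‖(z : Ω)‖ ^ m := fun i ↦
        (norm_ev_series_le (fun j hj ↦ ihm j hj (hj.trans hm)) (hzi1 i)).trans
          (pow_le_pow_left₀ (norm_nonneg _) (hzi i) _)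
      have hsub : ∀ i, (hPt φ hH (Z i)).val -
          (∑ t ∈ range (T + 1), dPt p h H _ (hzi1 i) t).val = e i := fun i ↦ by
        rw [hPt_val, ← ev_approx]
        simp only [e]
        rw [ev_sub (fun _ ↦ small_of_lt (hzi1 i))]
      have hDn : ∀ i, ‖((D i).val : Ω)‖ ≤ ‖(z : Ω)‖ ^ m := fun i ↦ by
        have h1 := (norm_sub_pt _ (hPt φ hH (Z i))
          (∑ t ∈ range (T + 1), dPt p h H _ (hzi1 i) t)).1
        rw [hsub] at h1
        exact h1 ▸ he i
      have hz1m : ‖(z : Ω)‖ ^ m < 1 := pow_lt_one₀ (norm_nonneg _) hz (by omega)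
      have hDe : ∀ i, ‖((e i - (D i).val : (intRing Ω)) : Ω)‖ ≤ ‖(z : Ω)‖ ^ (m + 1) := fun i ↦ by
        have h1 := (norm_sub_pt _ (hPt φ hH (Z i))
          (∑ t ∈ range (T + 1), dPt p h H _ (hzi1 i) t)).2
        rw [hsub] at h1
        refine h1.trans ?_
        rw [pow_succ]
        refine mul_le_mul (hDn i) (max_le ?_ ((hDn i).trans
          (pow_le_of_le_one (norm_nonneg _) hz.le (by omega))))
          (le_max_of_le_left (norm_nonneg _)) (pow_nonneg (norm_nonneg _) _)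
        rw [← ev_approx]
        refine ((norm_ev_series_le (D := 1) (fun i hi ↦ ?_) (hzi1 i)).trans_eq (pow_one _)).trans
          (hzi i)
        obtain rfl : i = 0 := by omega
        rw [PowerSeries.coeff_zero_eq_constantCoeff_apply]
        exact constantCoeff_approx H (T + 1)
      have hsum0 : ‖((∑ i ∈ range l, (D i).val : (intRing Ω)) : Ω)‖ ≤ ‖(z : Ω)‖ ^ (m + 1) := by
        have h1 := (norm_sum_pt (p := p) (zeroSpec h (intRing Ω)) (range l) D hz1m
          (pow_nonneg (norm_nonneg _) _) fun i _ ↦ hDn i).2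
        rw [hDsum, Haz.zero_val, zero_sub, NegMemClass.coe_neg, norm_neg] at h1
        refine h1.trans ?_
        rw [← pow_add]
        exact pow_le_pow_of_le_one (norm_nonneg _) hz.le (by omega)
      have hmain : (l : (intRing Ω)) * c * z ^ m = ∑ i ∈ range l, (D i).val +
          ∑ i ∈ range l, (e i - (D i).val) +
          ∑ i ∈ range l, -(e i - c * (ζ ^ i * z) ^ m) := by
        obtain ⟨q, rfl⟩ := hlm
        have hterm : ∀ i, (ζ ^ i * z) ^ (l * q) = z ^ (l * q) := fun i ↦ by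
          rw [mul_pow, ← pow_mul, show i * (l * q) = l * (i * q) by ring, pow_mul, hζ, one_pow,
            one_mul]
        simp only [hterm, neg_sub, sum_sub_distrib, sum_const, card_range, nsmul_eq_mul]
        ring
      rw [hmain, Subring.coe_add, Subring.coe_add]
      refine (IsUltrametricDist.norm_add_le_max _ _).trans (max_le
        ((IsUltrametricDist.norm_add_le_max _ _).trans (max_le hsum0 ?_)) ?_)
      · rw [AddSubmonoidClass.coe_finsetSum]
        exact IsUltrametricDist.norm_sum_le_of_forall_le_of_nonneg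
          (pow_nonneg (norm_nonneg _) _) fun i _ ↦ hDe i
      · rw [AddSubmonoidClass.coe_finsetSum]
        refine IsUltrametricDist.norm_sum_le_of_forall_le_of_nonneg
          (pow_nonneg (norm_nonneg _) _) fun i _ ↦ ?_
        rw [NegMemClass.coe_neg, norm_neg]
        exact (lowest_term (fun j hj ↦ ihm j hj (hj.trans hm)) (hzi1 i)).trans
          (pow_le_pow_left₀ (norm_nonneg _) (hzi i) _)
    refine (mul_eq_zero.mp hlc).resolve_left fun h0 ↦ ?_
    have := (CharP.cast_eq_zero_iff ((intRing Ω)) p l).mp h0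
    exact hl ((Nat.prime_dvd_prime_iff_eq hp.out hlp).mp this).symm

theorem approx_coeff (hH : IsFGHom ((Haz.law p n).map φ) (honda p h (intRing Ω)) H) (T : ℕ) :
    ∀ i < p ^ T, PowerSeries.coeff i (H - approx p h H T) = 0 := by
  induction T with
  | zero =>
    intro i hi
    obtain rfl : i = 0 := by simpa using hi
    rw [PowerSeries.coeff_zero_eq_constantCoeff_apply, map_sub, hH.1, approx, map_zero, sub_zero]
  | succ T ih => exact approx_step φ hH T ih

/-- The truncated formal sums approach the value of `H`. -/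
theorem norm_hPt_sub_le (hH : IsFGHom ((Haz.law p n).map φ) (honda p h (intRing Ω)) H) (x : Haz.Pt p φ)
    (T : ℕ) : ‖((hPt φ hH x - ∑ t ∈ range T, dPt p h H x.val (lt_of_small x.small) t).val : Ω)‖ ≤
      ‖(x.val : Ω)‖ ^ p ^ T := by
  rw [← (norm_sub_pt _ _ _).1, hPt_val, ← ev_approx, ← ev_sub (fun _ ↦ x.small)]
  exact norm_ev_series_le (approx_coeff φ hH T) (lt_of_small x.small)

end Vale.Agent.P217.Indep
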