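import Vale.Agent.P217.Base
import Mathlib.RingTheory.WittVector.Identities
import Mathlib.RingTheory.WittVector.Teichmuller
import Mathlib.RingTheory.WittVector.InitTail
import Mathlib.FieldTheory.Perfect
import Mathlib.Algebra.CharP.Subring
import Mathlib.Analysis.SpecialFunctions.Pow.Real
import Mathlib.Analysis.Normed.Module.Completion
import Mathlib.RingTheory.Localization.Away.Basic

/-!
The Gauss norm on Witt vectors of the integers of a perfect nonarchimedean field, and the
completion of `W(O)[1/p]` for it.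
-/

noncomputable section

namespace Vale.Agent.P217.Indep

open WittVector

/-- A radius in the interval (0, 1). -/
structure Rad where
  val : ℝ
  pos : 0 < val
  lt_one : val < 1

variable {p : ℕ} [hp : Fact p.Prime] {Ω : Type} [NontriviallyNormedField Ω] [IsUltrametricDist Ω]
  [GoodField p Ω]

instance charP_field : CharP Ω p := GoodField.charP

instance charP_int : CharP (intRing Ω) p := CharP.subring Ω p (intRing Ω)

instance perfectRing_int : PerfectRing (intRing Ω) p :=
  PerfectRing.ofSurjective _ p fun x ↦ ⟨intRoot p x, by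
    rw [frobenius_def]; exact intRoot_pow hp.out.ne_zero x⟩

/-- `z ↦ z^(p^m)` for an integer `m`. -/
def pw (m : ℤ) : (intRing Ω) →+* (intRing Ω) :=
  ((frobeniusEquiv (intRing Ω) p : RingAut (intRing Ω)) ^ m : RingAut (intRing Ω)).toRingHom

theorem pw_apply (m : ℤ) (z : (intRing Ω)) : pw (p := p) m z = ((frobeniusEquiv (intRing Ω) p : RingAut (intRing Ω)) ^ m) z := rfl

theorem pw_add (a b : ℤ) (z : (intRing Ω)) : pw (p := p) (a + b) z = pw (p := p) a (pw (p := p) b z) := by
  simp only [pw_apply, zpow_add]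
  rfl

theorem pw_zero (z : (intRing Ω)) : pw (p := p) 0 z = z := by
  simp only [pw_apply, zpow_zero]
  rfl

theorem pw_nat (k : ℕ) (z : (intRing Ω)) : pw (p := p) (k : ℤ) z = z ^ p ^ k := by
  induction k generalizing z with
  | zero => simp [pw_zero]
  | succ k ih =>
    rw [Nat.cast_succ, add_comm, pw_add, ih]
    have h1 : ∀ w : (intRing Ω), pw (p := p) 1 w = w ^ p := fun w ↦ by
      rw [pw_apply, zpow_one]
      rfl
    rw [h1, ← pow_mul, pow_succ]

theorem pw_neg_pow (k : ℕ) (z : (intRing Ω)) : pw (p := p) (-(k : ℤ)) z ^ p ^ k = z := by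
  rw [← pw_nat, ← pw_add, add_neg_cancel, pw_zero]

theorem pw_injective (m : ℤ) : Function.Injective (pw (p := p) (Ω := Ω) m) :=
  (((frobeniusEquiv (intRing Ω) p : RingAut (intRing Ω)) ^ m : RingAut (intRing Ω))).injective

theorem norm_pw (m : ℤ) (z : (intRing Ω)) :
    ‖((pw (p := p) m z : (intRing Ω)) : Ω)‖ = ‖(z : Ω)‖ ^ ((p : ℝ) ^ m) := by
  obtain ⟨k, rfl | rfl⟩ := Int.eq_nat_or_neg m
  · rw [pw_nat, SubmonoidClass.coe_pow, norm_pow, zpow_natCast, ← Real.rpow_natCast]
    norm_num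
  · conv_rhs => rw [← pw_neg_pow (p := p) k z, SubmonoidClass.coe_pow, norm_pow]
    rw [← Real.rpow_natCast_mul (norm_nonneg _), Nat.cast_pow, zpow_neg, zpow_natCast,
      mul_inv_cancel₀ (pow_ne_zero _ (Nat.cast_ne_zero.mpr hp.out.ne_zero)), Real.rpow_one]

/-- The tail `x'` with `x = [x_0] + p x'`. -/
def tl (x : (WittVector p (intRing Ω))) : (WittVector p (intRing Ω)) := WittVector.mk p fun k ↦ pw (p := p) (-1) (x.coeff (k + 1))

theorem coeff_teich_add_mul (a : (intRing Ω)) (w : (WittVector p (intRing Ω))) (k : ℕ) :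
    (teichmuller p a + w * (p : (WittVector p (intRing Ω)))).coeff k =
      if k = 0 then a else w.coeff (k - 1) ^ p := by
  rw [WittVector.coeff_add_of_disjoint]
  · rcases k with _ | k
    · simp [teichmuller_coeff_zero, mul_charP_coeff_zero]
    · simp [teichmuller_coeff_pos, mul_charP_coeff_succ]
  · intro k
    rcases k with _ | k
    · exact Or.inr (mul_charP_coeff_zero w)
    · exact Or.inl (teichmuller_coeff_pos p a (k + 1) (by omega))

theorem decomp (x : (WittVector p (intRing Ω))) : teichmuller p (x.coeff 0) + (p : (WittVector p (intRing Ω))) * tl x = x := by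
  rw [mul_comm]
  ext k
  rw [coeff_teich_add_mul]
  rcases k with _ | k
  · simp
  · simp only [Nat.add_one_sub_one, tl, WittVector.coeff_mk, if_neg (Nat.succ_ne_zero k)]
    simpa using congrArg Subtype.val (pw_neg_pow (p := p) 1 (x.coeff (k + 1)))

theorem coeff_zero_comb (a : (intRing Ω)) (w : (WittVector p (intRing Ω))) : (teichmuller p a + (p : (WittVector p (intRing Ω))) * w).coeff 0 = a := by
  rw [mul_comm, coeff_teich_add_mul, if_pos rfl]

theorem tl_comb (a : (intRing Ω)) (w : (WittVector p (intRing Ω))) : tl (teichmuller p a + (p : (WittVector p (intRing Ω))) * w) = w := by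
  ext k
  rw [tl, WittVector.coeff_mk, mul_comm, coeff_teich_add_mul, if_neg (Nat.succ_ne_zero k),
    Nat.add_sub_cancel]
  apply congrArg Subtype.val
  apply pw_injective (p := p) 1
  rw [← pw_add, add_neg_cancel, pw_zero, show (1 : ℤ) = ((1 : ℕ) : ℤ) from rfl, pw_nat, pow_one]

theorem tl_teich (a : (intRing Ω)) : tl (teichmuller p a : (WittVector p (intRing Ω))) = 0 := by
  have h := tl_comb (p := p) a (0 : (WittVector p (intRing Ω)))
  rwa [mul_zero, add_zero] at h

theorem teich_zero : teichmuller p (0 : (intRing Ω)) = (0 : (WittVector p (intRing Ω))) := teichmuller_zero p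

section norm

variable (ρ : Rad)

/-- The truncated Gauss norm. -/
def νk : ℕ → (WittVector p (intRing Ω)) → ℝ
  | 0, x => ‖((x.coeff 0 : (intRing Ω)) : Ω)‖
  | k + 1, x => max ‖((x.coeff 0 : (intRing Ω)) : Ω)‖ (ρ.val * νk k (tl x))

theorem νk_comb (k : ℕ) (a : (intRing Ω)) (w : (WittVector p (intRing Ω))) :
    νk ρ (k + 1) (teichmuller p a + (p : (WittVector p (intRing Ω))) * w) = max ‖(a : Ω)‖ (ρ.val * νk ρ k w) := by
  rw [νk, coeff_zero_comb, tl_comb]

theorem νk_nonneg (k : ℕ) (x : (WittVector p (intRing Ω))) : 0 ≤ νk ρ k x := by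
  cases k with
  | zero => exact norm_nonneg _
  | succ k => exact le_max_of_le_left (norm_nonneg _)

theorem νk_le_one (k : ℕ) (x : (WittVector p (intRing Ω))) : νk ρ k x ≤ 1 := by
  induction k generalizing x with
  | zero => exact (x.coeff 0).2
  | succ k ih =>
    exact max_le (x.coeff 0).2 (mul_le_one₀ ρ.lt_one.le (νk_nonneg ρ k _) (ih _))

theorem νk_mono (x : (WittVector p (intRing Ω))) : Monotone fun k ↦ νk ρ k x := by
  refine monotone_nat_of_le_succ fun k ↦ ?_
  induction k generalizing x with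
  | zero => exact le_max_left _ _
  | succ k ih => exact max_le_max le_rfl (mul_le_mul_of_nonneg_left (ih _) ρ.pos.le)

theorem νk_zero (k : ℕ) : νk ρ k (0 : (WittVector p (intRing Ω))) = 0 := by
  induction k with
  | zero => simp [νk]
  | succ k ih =>
    have h := νk_comb ρ k (0 : (intRing Ω)) (0 : (WittVector p (intRing Ω)))
    simp only [teich_zero, zero_add, mul_zero, ZeroMemClass.coe_zero, norm_zero, ih,
      max_self] at h
    exact h

theorem νk_teich (k : ℕ) (a : (intRing Ω)) : νk ρ k (teichmuller p a : (WittVector p (intRing Ω))) = ‖(a : Ω)‖ := by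
  cases k with
  | zero => simp [νk, teichmuller_coeff_zero]
  | succ k =>
    rw [νk, tl_teich, teichmuller_coeff_zero, νk_zero, mul_zero, max_eq_left (norm_nonneg _)]

theorem νk_p_mul_le (k : ℕ) (w : (WittVector p (intRing Ω))) : νk ρ k ((p : (WittVector p (intRing Ω))) * w) ≤ ρ.val * νk ρ k w := by
  refine (νk_mono ρ ((p : (WittVector p (intRing Ω))) * w) (Nat.le_succ k)).trans_eq ?_
  have h := νk_comb ρ k (0 : (intRing Ω)) w
  rw [teich_zero, zero_add] at h
  show νk ρ (k + 1) _ = _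
  rw [h]
  exact max_eq_right (by simpa using mul_nonneg ρ.pos.le (νk_nonneg ρ k w))

theorem νk_teich_mul (k : ℕ) (a : (intRing Ω)) (x : (WittVector p (intRing Ω))) :
    νk ρ k (teichmuller p a * x) = ‖(a : Ω)‖ * νk ρ k x := by
  induction k generalizing x with
  | zero =>
    simp only [νk, WittVector.mul_coeff_zero, teichmuller_coeff_zero, Subring.coe_mul, norm_mul]
  | succ k ih =>
    conv_lhs => rw [← decomp x, mul_add, ← map_mul, mul_left_comm, νk_comb, ih]
    rw [νk, mul_max_of_nonneg _ _ (norm_nonneg _), Subring.coe_mul, norm_mul, mul_left_comm]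

/-- `[a] + [b] = [a + b] + p [m] z` with `m` the larger of `a`, `b`. -/
theorem teich_add (a b : (intRing Ω)) : ∃ m : (intRing Ω), ∃ z : (WittVector p (intRing Ω)), ‖(m : Ω)‖ ≤ max ‖(a : Ω)‖ ‖(b : Ω)‖ ∧
    teichmuller p a + teichmuller p b =
      teichmuller p (a + b) + (p : (WittVector p (intRing Ω))) * (teichmuller p m * z) := by
  wlog hab : ‖(b : Ω)‖ ≤ ‖(a : Ω)‖ generalizing a b
  · obtain ⟨m, z, h1, h2⟩ := this b a (le_of_not_ge hab)
    exact ⟨m, z, by rwa [max_comm], by rw [add_comm, add_comm a b]; exact h2⟩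
  by_cases ha : a = 0
  · subst ha
    refine ⟨0, 0, by simp, by simp⟩
  · have hb : ‖(b : Ω) / (a : Ω)‖ ≤ 1 := by
      rw [norm_div]
      exact div_le_one_of_le₀ hab (norm_nonneg _)
    let c : (intRing Ω) := ⟨(b : Ω) / (a : Ω), hb⟩
    have hc : a * c = b := Subtype.ext (mul_div_cancel₀ _ (fun h ↦ ha (Subtype.ext h)))
    refine ⟨a, tl (teichmuller p (1 : (intRing Ω)) + teichmuller p c : (WittVector p (intRing Ω))), le_max_left _ _, ?_⟩
    have h := congrArg (teichmuller p a * ·)
      (decomp (teichmuller p (1 : (intRing Ω)) + teichmuller p c : (WittVector p (intRing Ω))))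
    simp only [WittVector.add_coeff_zero, teichmuller_coeff_zero, mul_add, ← map_mul, mul_one,
      hc] at h
    rw [← h, mul_left_comm]

theorem νk_add (k : ℕ) (x y : (WittVector p (intRing Ω))) : νk ρ k (x + y) ≤ max (νk ρ k x) (νk ρ k y) := by
  induction k generalizing x y with
  | zero =>
    simp only [νk, WittVector.add_coeff_zero, Subring.coe_add]
    exact IsUltrametricDist.norm_add_le_max _ _
  | succ k ih =>
    obtain ⟨m, z, hm, hz⟩ := teich_add (p := p) (x.coeff 0) (y.coeff 0)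
    have hxy : x + y = teichmuller p (x.coeff 0 + y.coeff 0) +
        (p : (WittVector p (intRing Ω))) * (tl x + tl y + teichmuller p m * z) := by
      conv_lhs => rw [← decomp x, ← decomp y]
      linear_combination hz
    rw [hxy, νk_comb, νk, νk]
    refine max_le ((IsUltrametricDist.norm_add_le_max _ _).trans
      (max_le_max (le_max_left _ _) (le_max_left _ _))) ?_
    refine (mul_le_mul_of_nonneg_left ((ih _ _).trans (max_le_max (ih _ _) le_rfl)) ρ.pos.le).trans
      ?_
    rw [mul_max_of_nonneg _ _ ρ.pos.le, mul_max_of_nonneg _ _ ρ.pos.le]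
    refine max_le (max_le_max (le_max_right _ _) (le_max_right _ _)) ?_
    rw [νk_teich_mul]
    calc ρ.val * (‖(m : Ω)‖ * νk ρ k z) ≤ 1 * (‖(m : Ω)‖ * 1) :=
          mul_le_mul ρ.lt_one.le (mul_le_mul_of_nonneg_left (νk_le_one ρ k z) (norm_nonneg _))
            (mul_nonneg (norm_nonneg _) (νk_nonneg ρ k z)) zero_le_one
      _ ≤ _ := by
          rw [one_mul, mul_one]
          exact hm.trans (max_le_max (le_max_left _ _) (le_max_left _ _))

theorem νk_mul (k : ℕ) (x y : (WittVector p (intRing Ω))) : νk ρ k (x * y) ≤ νk ρ k x * νk ρ k y := by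
  induction k generalizing x y with
  | zero => simp [νk, WittVector.mul_coeff_zero]
  | succ k ih =>
    have hxy : x * y = teichmuller p (x.coeff 0 * y.coeff 0) +
        (p : (WittVector p (intRing Ω))) * (teichmuller p (x.coeff 0) * tl y + (teichmuller p (y.coeff 0) * tl x +
          (p : (WittVector p (intRing Ω))) * (tl x * tl y))) := by
      conv_lhs => rw [← decomp x, ← decomp y]
      rw [map_mul]
      ring
    rw [hxy, νk_comb, Subring.coe_mul, norm_mul, νk, νk]
    refine max_le ?_ ((mul_le_mul_of_nonneg_left ((νk_add ρ k _ _).trans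
      (max_le_max le_rfl (νk_add ρ k _ _))) ρ.pos.le).trans ?_)
    · gcongr <;> exact le_max_left _ _
    rw [mul_max_of_nonneg _ _ ρ.pos.le, mul_max_of_nonneg _ _ ρ.pos.le, νk_teich_mul, νk_teich_mul]
    have h1 : 0 ≤ ρ.val * νk ρ k (tl x) := mul_nonneg ρ.pos.le (νk_nonneg ρ k _)
    have h2 : 0 ≤ ρ.val * νk ρ k (tl y) := mul_nonneg ρ.pos.le (νk_nonneg ρ k _)
    refine max_le ?_ (max_le ?_ ?_)
    · rw [mul_left_comm]
      exact mul_le_mul (le_max_left _ _) (le_max_right _ _) h2 (le_max_of_le_left (norm_nonneg _))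
    · rw [mul_left_comm, mul_comm ‖((y.coeff 0 : (intRing Ω)) : Ω)‖]
      exact mul_le_mul (le_max_right _ _) (le_max_left _ _) (norm_nonneg _)
        (le_max_of_le_left (norm_nonneg _))
    · calc ρ.val * νk ρ k ((p : (WittVector p (intRing Ω))) * (tl x * tl y))
          ≤ ρ.val * (ρ.val * (νk ρ k (tl x) * νk ρ k (tl y))) :=
            mul_le_mul_of_nonneg_left ((νk_p_mul_le ρ k _).trans
              (mul_le_mul_of_nonneg_left (ih _ _) ρ.pos.le)) ρ.pos.le
        _ = (ρ.val * νk ρ k (tl x)) * (ρ.val * νk ρ k (tl y)) := by ring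
        _ ≤ _ := mul_le_mul (le_max_right _ _) (le_max_right _ _) h2
              (le_max_of_le_left (norm_nonneg _))

theorem νk_neg_one (k : ℕ) : νk ρ k (-1 : (WittVector p (intRing Ω))) ≤ 1 := νk_le_one ρ k _

/-- The Gauss norm on `W(O)`. -/
def ν (x : (WittVector p (intRing Ω))) : ℝ := ⨆ k, νk ρ k x

theorem bdd (x : (WittVector p (intRing Ω))) : BddAbove (Set.range fun k ↦ νk ρ k x) :=
  ⟨1, by rintro _ ⟨k, rfl⟩; exact νk_le_one ρ k x⟩

theorem νk_le_ν (k : ℕ) (x : (WittVector p (intRing Ω))) : νk ρ k x ≤ ν ρ x := le_ciSup (bdd ρ x) k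

theorem ν_nonneg (x : (WittVector p (intRing Ω))) : 0 ≤ ν ρ x := (νk_nonneg ρ 0 x).trans (νk_le_ν ρ 0 x)

theorem ν_le_one (x : (WittVector p (intRing Ω))) : ν ρ x ≤ 1 := ciSup_le fun k ↦ νk_le_one ρ k x

theorem ν_comb (a : (intRing Ω)) (w : (WittVector p (intRing Ω))) :
    ν ρ (teichmuller p a + (p : (WittVector p (intRing Ω))) * w) = max ‖(a : Ω)‖ (ρ.val * ν ρ w) := by
  refine le_antisymm (ciSup_le fun k ↦ (νk_mono ρ _ (Nat.le_succ k)).trans ?_) (max_le ?_ ?_)
  · show νk ρ (k + 1) _ ≤ _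
    rw [νk_comb]
    exact max_le_max le_rfl (mul_le_mul_of_nonneg_left (νk_le_ν ρ k w) ρ.pos.le)
  · refine le_trans ?_ (νk_le_ν ρ 0 _)
    rw [νk, coeff_zero_comb]
  · rw [ν, ν, Real.mul_iSup_of_nonneg ρ.pos.le]
    refine ciSup_le fun k ↦ le_trans ?_ (νk_le_ν ρ (k + 1) _)
    rw [νk_comb]
    exact le_max_right _ _

theorem ν_zero : ν ρ (0 : (WittVector p (intRing Ω))) = 0 := by simp [ν, νk_zero]

theorem ν_p_mul (w : (WittVector p (intRing Ω))) : ν ρ ((p : (WittVector p (intRing Ω))) * w) = ρ.val * ν ρ w := by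
  have h := ν_comb ρ (0 : (intRing Ω)) w
  rw [teich_zero, zero_add] at h
  rw [h, ZeroMemClass.coe_zero, norm_zero, max_eq_right (mul_nonneg ρ.pos.le (ν_nonneg ρ w))]

theorem ν_pow_mul (j : ℕ) (w : (WittVector p (intRing Ω))) : ν ρ ((p : (WittVector p (intRing Ω))) ^ j * w) = ρ.val ^ j * ν ρ w := by
  induction j with
  | zero => simp
  | succ j ih => rw [pow_succ', mul_assoc, ν_p_mul, ih, pow_succ', mul_assoc]

theorem ν_teich_mul (a : (intRing Ω)) (x : (WittVector p (intRing Ω))) : ν ρ (teichmuller p a * x) = ‖(a : Ω)‖ * ν ρ x := by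
  rw [ν, ν, Real.mul_iSup_of_nonneg (norm_nonneg _)]
  simp only [νk_teich_mul]

theorem ν_teich (a : (intRing Ω)) : ν ρ (teichmuller p a : (WittVector p (intRing Ω))) = ‖(a : Ω)‖ := by
  simp [ν, νk_teich]

theorem ν_add (x y : (WittVector p (intRing Ω))) : ν ρ (x + y) ≤ max (ν ρ x) (ν ρ y) :=
  ciSup_le fun k ↦ (νk_add ρ k x y).trans (max_le_max (νk_le_ν ρ k x) (νk_le_ν ρ k y))

theorem ν_mul (x y : (WittVector p (intRing Ω))) : ν ρ (x * y) ≤ ν ρ x * ν ρ y :=
  ciSup_le fun k ↦ (νk_mul ρ k x y).trans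
    (mul_le_mul (νk_le_ν ρ k x) (νk_le_ν ρ k y) (νk_nonneg ρ k y) (ν_nonneg ρ x))

theorem ν_neg (x : (WittVector p (intRing Ω))) : ν ρ (-x) = ν ρ x := by
  have h : ∀ y : (WittVector p (intRing Ω)), ν ρ (-y) ≤ ν ρ y := fun y ↦ by
    rw [← neg_one_mul]
    exact (ν_mul ρ _ _).trans (mul_le_of_le_one_left (ν_nonneg ρ y) (ν_le_one ρ _))
  exact le_antisymm (h x) (by simpa using h (-x))

theorem ν_eq_zero {x : (WittVector p (intRing Ω))} (h : ν ρ x = 0) : x = 0 := by
  have key : ∀ (k : ℕ) (y : (WittVector p (intRing Ω))), ν ρ y = 0 → y.coeff k = 0 := by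
    intro k
    induction k with
    | zero =>
      intro y hy
      have := νk_le_ν ρ 0 y
      rw [hy, νk] at this
      exact Subtype.ext (norm_le_zero_iff.mp this)
    | succ k ih =>
      intro y hy
      rw [← decomp y, ν_comb] at hy
      have h1 : ν ρ (tl y) = 0 := by
        have := (le_max_right _ _).trans_eq hy
        exact le_antisymm (nonpos_of_mul_nonpos_right this ρ.pos |> id) (ν_nonneg ρ _)
      rw [← decomp y, mul_comm, coeff_teich_add_mul, if_neg (Nat.succ_ne_zero k),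
        Nat.add_sub_cancel, ih _ h1, zero_pow hp.out.ne_zero]
  ext k
  simpa using congrArg Subtype.val (key k x h)

/-- Truncated Teichmüller expansion. -/
theorem expansion (K : ℕ) (x : (WittVector p (intRing Ω))) : ∃ c : ℕ → (intRing Ω), ∃ z : (WittVector p (intRing Ω)),
    x = ∑ i ∈ Finset.range K, (p : (WittVector p (intRing Ω))) ^ i * teichmuller p (c i) + (p : (WittVector p (intRing Ω))) ^ K * z := by
  induction K with
  | zero => exact ⟨0, x, by simp⟩
  | succ K ih =>
    obtain ⟨c, z, hz⟩ := ih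
    refine ⟨Function.update c K (z.coeff 0), tl z, ?_⟩
    rw [Finset.sum_range_succ, Function.update_self,
      Finset.sum_congr rfl fun i hi ↦ by
        rw [Function.update_of_ne (Finset.mem_range.mp hi).ne],
      pow_succ, add_assoc, mul_assoc, ← mul_add, decomp]
    exact hz

theorem le_ν_sum (K : ℕ) (c : ℕ → (intRing Ω)) (i : ℕ) (hi : i < K) :
    ρ.val ^ i * ‖(c i : Ω)‖ ≤ ν ρ (∑ l ∈ Finset.range K, (p : (WittVector p (intRing Ω))) ^ l * teichmuller p (c l)) := by
  induction K generalizing c i with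
  | zero => omega
  | succ K ih =>
    rw [Finset.sum_range_succ', pow_zero, one_mul, add_comm]
    simp only [pow_succ', mul_assoc, ← Finset.mul_sum]
    rw [ν_comb]
    rcases i with _ | i
    · simp
    · refine le_trans ?_ (le_max_right _ _)
      rw [pow_succ', mul_assoc]
      exact mul_le_mul_of_nonneg_left (ih (fun l ↦ c (l + 1)) i (by omega)) ρ.pos.le

end norm

variable (p Ω) in
/-- `W(O)[1/p]`. -/
def Pre (_ρ : Rad) : Type := Localization.Away ((p : ℕ) : WittVector p (intRing Ω))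

namespace Pre

variable {ρ : Rad}

instance : CommRing (Pre p Ω ρ) :=
  inferInstanceAs (CommRing (Localization.Away ((p : ℕ) : (WittVector p (intRing Ω)))))

variable (ρ) in
/-- The structure map. -/
def inc : (WittVector p (intRing Ω)) →+* Pre p Ω ρ := algebraMap (WittVector p (intRing Ω)) (Localization.Away ((p : ℕ) : (WittVector p (intRing Ω))))

theorem surj (z : Pre p Ω ρ) : ∃ (k : ℕ) (a : (WittVector p (intRing Ω))), z * (p : Pre p Ω ρ) ^ k = inc ρ a := by
  obtain ⟨k, a, h⟩ := IsLocalization.Away.surj (x := ((p : ℕ) : (WittVector p (intRing Ω))))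
    (S := Localization.Away ((p : ℕ) : (WittVector p (intRing Ω)))) z
  refine ⟨k, a, ?_⟩
  rw [map_natCast] at h
  exact h

theorem isUnit_p : IsUnit (p : Pre p Ω ρ) := by
  have h := IsLocalization.Away.algebraMap_isUnit (x := ((p : ℕ) : (WittVector p (intRing Ω))))
    (S := Localization.Away ((p : ℕ) : (WittVector p (intRing Ω))))
  rw [map_natCast] at h
  exact h

theorem inc_injective : Function.Injective (inc (p := p) (Ω := Ω) ρ) := by
  refine IsLocalization.injective (R := (WittVector p (intRing Ω))) (Localization.Away ((p : ℕ) : (WittVector p (intRing Ω))))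
    (M := Submonoid.powers ((p : ℕ) : (WittVector p (intRing Ω)))) ?_
  rintro _ ⟨j, rfl⟩
  refine mem_nonZeroDivisors_iff_left.mpr fun w hw ↦ ν_eq_zero ρ ?_
  have := ν_pow_mul ρ j w
  simp only [hw, ν_zero] at this
  exact (mul_eq_zero.mp this.symm).resolve_left (pow_ne_zero _ ρ.pos.ne')

/-- The norm of `a / p^k`. -/
def nrm (z : Pre p Ω ρ) : ℝ := ν ρ (surj z).choose_spec.choose / ρ.val ^ (surj z).choose

theorem nrm_spec {z : Pre p Ω ρ} {k : ℕ} {a : (WittVector p (intRing Ω))} (h : z * (p : Pre p Ω ρ) ^ k = inc ρ a) :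
    nrm z = ν ρ a / ρ.val ^ k := by
  have h' := (surj z).choose_spec.choose_spec
  have he : (p : (WittVector p (intRing Ω))) ^ k * (surj z).choose_spec.choose = (p : (WittVector p (intRing Ω))) ^ (surj z).choose * a := by
    apply inc_injective (ρ := ρ)
    rw [map_mul, map_mul, map_pow, map_pow, map_natCast, ← h', ← h]
    ring
  have := congrArg (ν ρ) he
  rw [ν_pow_mul, ν_pow_mul] at this
  rw [nrm, div_eq_div_iff (pow_ne_zero _ ρ.pos.ne') (pow_ne_zero _ ρ.pos.ne')]
  linarith

theorem common (x y : Pre p Ω ρ) : ∃ (k : ℕ) (a b : (WittVector p (intRing Ω))),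
    x * (p : Pre p Ω ρ) ^ k = inc ρ a ∧ y * (p : Pre p Ω ρ) ^ k = inc ρ b := by
  obtain ⟨k, a, hk⟩ := surj x
  obtain ⟨l, b, hl⟩ := surj y
  refine ⟨k + l, (p : (WittVector p (intRing Ω))) ^ l * a, (p : (WittVector p (intRing Ω))) ^ k * b, ?_, ?_⟩
  · rw [map_mul, map_pow, map_natCast, ← hk]
    ring
  · rw [map_mul, map_pow, map_natCast, ← hl]
    ring

theorem nrm_nonneg (z : Pre p Ω ρ) : 0 ≤ nrm z :=
  div_nonneg (ν_nonneg ρ _) (pow_nonneg ρ.pos.le _)

theorem nrm_add (x y : Pre p Ω ρ) : nrm (x + y) ≤ max (nrm x) (nrm y) := by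
  obtain ⟨k, a, b, ha, hb⟩ := common x y
  rw [nrm_spec ha, nrm_spec hb, nrm_spec (a := a + b) (k := k)
    (by rw [add_mul, ha, hb, map_add]), max_div_div_right (pow_nonneg ρ.pos.le _)]
  exact div_le_div_of_nonneg_right (ν_add ρ a b) (pow_nonneg ρ.pos.le _)

/-- The norm as an additive group norm. -/
def groupNorm : AddGroupNorm (Pre p Ω ρ) where
  toFun := nrm
  map_zero' := by
    rw [nrm_spec (k := 0) (a := (0 : (WittVector p (intRing Ω)))) (by simp), ν_zero, zero_div]
  add_le' x y := (nrm_add x y).trans (max_le_add_of_nonneg (nrm_nonneg x) (nrm_nonneg y))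
  neg' x := by
    obtain ⟨k, a, h⟩ := surj x
    rw [nrm_spec h, nrm_spec (a := -a) (k := k) (by rw [neg_mul, h, map_neg]), ν_neg]
  eq_zero_of_map_eq_zero' x hx := by
    obtain ⟨k, a, h⟩ := surj x
    rw [nrm_spec h, div_eq_zero_iff] at hx
    rw [ν_eq_zero ρ (hx.resolve_right (pow_ne_zero _ ρ.pos.ne')), map_zero] at h
    exact (isUnit_p.pow k).mul_left_eq_zero.mp h

instance : NormedCommRing (Pre p Ω ρ) :=
  { AddGroupNorm.toNormedAddCommGroup (groupNorm (p := p) (Ω := Ω) (ρ := ρ)),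
    (inferInstance : CommRing (Pre p Ω ρ)) with
    norm_mul_le := fun x y ↦ by
      obtain ⟨k, a, b, ha, hb⟩ := common x y
      show nrm (x * y) ≤ nrm x * nrm y
      rw [nrm_spec ha, nrm_spec hb, nrm_spec (a := a * b) (k := k + k)
        (by rw [map_mul, ← ha, ← hb]; ring), div_mul_div_comm, pow_add]
      exact div_le_div_of_nonneg_right (ν_mul ρ a b)
        (mul_nonneg (pow_nonneg ρ.pos.le _) (pow_nonneg ρ.pos.le _)) }

instance : IsUltrametricDist (Pre p Ω ρ) :=
  IsUltrametricDist.isUltrametricDist_of_forall_norm_add_le_max_norm nrm_add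

theorem norm_inc (a : (WittVector p (intRing Ω))) : ‖inc ρ a‖ = ν ρ a := by
  show nrm (inc ρ a) = _
  rw [nrm_spec (k := 0) (a := a) (by simp), pow_zero, div_one]

theorem norm_inc_teich_mul (a : (intRing Ω)) (z : Pre p Ω ρ) :
    ‖inc ρ (teichmuller p a) * z‖ = ‖(a : Ω)‖ * ‖z‖ := by
  obtain ⟨k, w, h⟩ := surj z
  show nrm (_ * z) = _ * nrm z
  rw [nrm_spec h, nrm_spec (a := teichmuller p a * w) (k := k) (by rw [mul_assoc, h, map_mul]),
    ν_teich_mul, mul_div_assoc]

theorem norm_p_mul (z : Pre p Ω ρ) : ‖(p : Pre p Ω ρ) * z‖ = ρ.val * ‖z‖ := by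
  obtain ⟨k, w, h⟩ := surj z
  show nrm (_ * z) = _ * nrm z
  rw [nrm_spec h, nrm_spec (a := (p : (WittVector p (intRing Ω))) * w) (k := k)
    (by rw [mul_assoc, h, map_mul, map_natCast]), ν_p_mul, mul_div_assoc]

end Pre

variable (p Ω) in
/-- The completion of `W(O)[1/p]`. -/
abbrev BB (ρ : Rad) : Type := UniformSpace.Completion (Pre p Ω ρ)

variable {ρ : Rad}

instance : IsUltrametricDist (BB p Ω ρ) := by
  refine IsUltrametricDist.isUltrametricDist_of_forall_norm_add_le_max_norm fun x y ↦ ?_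
  induction x, y using UniformSpace.Completion.induction_on₂ with
  | hp => exact isClosed_le (by fun_prop) (by fun_prop)
  | ih a b =>
    rw [← UniformSpace.Completion.coe_add]
    simp only [UniformSpace.Completion.norm_coe]
    exact IsUltrametricDist.norm_add_le_max a b

variable (ρ) in
/-- The map from `W(O)`. -/
def incB : (WittVector p (intRing Ω)) →+* BB p Ω ρ := UniformSpace.Completion.coeRingHom.comp (Pre.inc ρ)

variable (ρ) in
/-- The Teichmüller map. -/
def tch : (intRing Ω) →* BB p Ω ρ := (incB (p := p) (Ω := Ω) ρ).toMonoidHom.comp (teichmuller p)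

theorem tch_eq (a : (intRing Ω)) :
    tch (p := p) ρ a = ((Pre.inc ρ (teichmuller p a) : Pre p Ω ρ) : BB p Ω ρ) := rfl

theorem tch_zero : tch (p := p) ρ (0 : (intRing Ω)) = 0 := by
  rw [tch_eq, teich_zero, map_zero, UniformSpace.Completion.coe_zero]

theorem norm_incB (w : (WittVector p (intRing Ω))) : ‖incB ρ w‖ = ν ρ w := by
  show ‖((Pre.inc ρ w : Pre p Ω ρ) : BB p Ω ρ)‖ = _
  rw [UniformSpace.Completion.norm_coe, Pre.norm_inc]

theorem norm_incB_le (w : (WittVector p (intRing Ω))) : ‖incB ρ w‖ ≤ 1 := (norm_incB w).trans_le (ν_le_one ρ w)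

theorem norm_tch (a : (intRing Ω)) : ‖tch (p := p) ρ a‖ = ‖(a : Ω)‖ := (norm_incB _).trans (ν_teich ρ a)

theorem norm_tch_mul (a : (intRing Ω)) (z : BB p Ω ρ) : ‖tch ρ a * z‖ = ‖(a : Ω)‖ * ‖z‖ := by
  induction z using UniformSpace.Completion.induction_on with
  | hp => exact isClosed_eq (by fun_prop) (by fun_prop)
  | ih x => rw [tch_eq, ← UniformSpace.Completion.coe_mul, UniformSpace.Completion.norm_coe,
      UniformSpace.Completion.norm_coe, Pre.norm_inc_teich_mul]

theorem natCast_coe (m : ℕ) : ((m : Pre p Ω ρ) : BB p Ω ρ) = (m : BB p Ω ρ) :=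
  map_natCast UniformSpace.Completion.coeRingHom m

theorem norm_p_mul (z : BB p Ω ρ) : ‖(p : BB p Ω ρ) * z‖ = ρ.val * ‖z‖ := by
  induction z using UniformSpace.Completion.induction_on with
  | hp => exact isClosed_eq (by fun_prop) (by fun_prop)
  | ih x => rw [← natCast_coe, ← UniformSpace.Completion.coe_mul,
      UniformSpace.Completion.norm_coe, UniformSpace.Completion.norm_coe, Pre.norm_p_mul]

theorem isUnit_p : IsUnit (p : BB p Ω ρ) := by
  rw [← natCast_coe]
  exact (Pre.isUnit_p (ρ := ρ)).map UniformSpace.Completion.coeRingHom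

variable (p Ω ρ) in
/-- `p^k` for an integer `k`. -/
def pz (k : ℤ) : BB p Ω ρ := ((isUnit_p (p := p) (Ω := Ω) (ρ := ρ)).unit ^ k : (BB p Ω ρ)ˣ)

theorem pz_add (a b : ℤ) : pz p Ω ρ (a + b) = pz p Ω ρ a * pz p Ω ρ b := by
  simp [pz, zpow_add]

theorem pz_zero : pz p Ω ρ 0 = 1 := by simp [pz]

theorem pz_nat (k : ℕ) : pz p Ω ρ k = (p : BB p Ω ρ) ^ k := by simp [pz]

theorem norm_pz_mul (k : ℤ) (z : BB p Ω ρ) : ‖pz p Ω ρ k * z‖ = ρ.val ^ k * ‖z‖ := by
  have hnat : ∀ (j : ℕ) (w : BB p Ω ρ), ‖pz p Ω ρ j * w‖ = ρ.val ^ j * ‖w‖ := by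
    intro j w
    induction j with
    | zero => simp [pz_zero]
    | succ j ih =>
      rw [pz_nat, pow_succ', mul_assoc, norm_p_mul, ← pz_nat, ih, pow_succ', mul_assoc]
  obtain ⟨j, rfl | rfl⟩ := Int.eq_nat_or_neg k
  · rw [hnat, zpow_natCast]
  · have h := hnat j (pz p Ω ρ (-j) * z)
    rw [← mul_assoc, ← pz_add, add_neg_cancel, pz_zero, one_mul] at h
    rw [zpow_neg, zpow_natCast, h, ← mul_assoc, inv_mul_cancel₀ (pow_ne_zero _ ρ.pos.ne'), one_mul]

end Vale.Agent.P217.Indep
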